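import Vale.Agent.P347.Gauss

/-!
Module 2 (reference chain): derivative bounds O1-O3 of note 865 for iterates of `Mop`.

The reference step contracts gradients by `1 - η / 2`. A telescoping of conditional variances
turns this into a smoothing bound for iterates acting on bounded vector fields, and a Duhamel
expansion of the gradient gives the second derivative bound.
-/

open MeasureTheory ProbabilityTheory
open scoped RealInnerProductSpace

namespace Vale.Agent.P347

namespace Chain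

variable {d N : ℕ} {g : EE d → EE d} {η h : ℝ}

/-- Standing assumptions on the reference chain. -/
structure Ok (g : EE d → EE d) (η h : ℝ) (N : ℕ) : Prop where
  cls : GradClass g
  eta_pos : 0 < η
  eta_le : η ≤ 1 / 16
  h_pos : 0 < h
  h_le : h ≤ η / 4
  long : 8 ≤ h * N

/-- Bounded continuous. -/
def BC {X G : Type*} [TopologicalSpace X] [NormedAddCommGroup G] (v : X → G) : Prop :=
  Continuous v ∧ ∃ K, ∀ x, ‖v x‖ ≤ K

/-- Bounded with bounded continuous derivative. -/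
def BD {G : Type*} [NormedAddCommGroup G] [NormedSpace ℝ G] (f : EE d → G) : Prop :=
  ContDiff ℝ 1 f ∧ BC f ∧ BC (fderiv ℝ f)

/-- The values on the coordinate vectors. -/
noncomputable def hsMap (G : Type*) [NormedAddCommGroup G] [NormedSpace ℝ G] :
    (EE d →L[ℝ] G) →L[ℝ] PiLp 2 (fun _ : Fin d => G) :=
  (PiLp.continuousLinearEquiv 2 ℝ (fun _ : Fin d => G)).symm.toContinuousLinearMap.comp
    (ContinuousLinearMap.pi fun i =>
      ContinuousLinearMap.apply ℝ G (EuclideanSpace.single i (1 : ℝ)))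

section hs

variable {G : Type*} [NormedAddCommGroup G] [InnerProductSpace ℝ G]

lemma hsMap_apply (B : EE d →L[ℝ] G) (i : Fin d) :
    hsMap G B i = B (EuclideanSpace.single i (1 : ℝ)) := rfl

lemma hsn_eq (B : EE d →L[ℝ] G) : hsn B = ‖hsMap G B‖ := by
  rw [hsn, PiLp.norm_eq_of_L2]
  rfl

lemma ch_hsn_nonneg (B : EE d →L[ℝ] G) : 0 ≤ hsn B := Real.sqrt_nonneg _

lemma ch_hsn_add_le (A B : EE d →L[ℝ] G) : hsn (A + B) ≤ hsn A + hsn B := by
  simp only [hsn_eq, map_add]
  exact norm_add_le _ _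

lemma norm_le_hsn (B : EE d →L[ℝ] G) : ‖B‖ ≤ hsn B := by
  refine B.opNorm_le_bound (ch_hsn_nonneg B) fun v => ?_
  have hv : v = ∑ i, v i • EuclideanSpace.single i (1 : ℝ) := by
    conv_lhs => rw [← (EuclideanSpace.basisFun (Fin d) ℝ).sum_repr v]
    simp
  calc ‖B v‖ = ‖∑ i, v i • B (EuclideanSpace.single i (1 : ℝ))‖ := by
        conv_lhs => rw [hv, map_sum]
        simp only [map_smul]
    _ ≤ ∑ i, ‖B (EuclideanSpace.single i (1 : ℝ))‖ * ‖v i‖ := by
        refine (norm_sum_le _ _).trans (le_of_eq ?_)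
        simp [norm_smul, mul_comm]
    _ ≤ _ := by
        refine (Real.sum_mul_le_sqrt_mul_sqrt _ _ _).trans ?_
        rw [hsn, EuclideanSpace.norm_eq v]

variable [FiniteDimensional ℝ G]

lemma hsn_sq_eq (B : EE d →L[ℝ] G) :
    hsn B ^ 2 = ∑ k, ‖ContinuousLinearMap.adjoint B (stdOrthonormalBasis ℝ G k)‖ ^ 2 := by
  rw [hsn, Real.sq_sqrt (Finset.sum_nonneg fun i _ => sq_nonneg _)]
  calc ∑ i, ‖B (EuclideanSpace.single i (1 : ℝ))‖ ^ 2
      = ∑ i, ∑ k, ‖⟪stdOrthonormalBasis ℝ G k, B (EuclideanSpace.single i (1 : ℝ))⟫‖ ^ 2 := by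
        simp only [(stdOrthonormalBasis ℝ G).sum_sq_norm_inner_right]
    _ = ∑ k, ∑ i, ‖⟪EuclideanSpace.basisFun (Fin d) ℝ i,
          ContinuousLinearMap.adjoint B (stdOrthonormalBasis ℝ G k)⟫‖ ^ 2 := by
        rw [Finset.sum_comm]
        refine Finset.sum_congr rfl fun k _ => Finset.sum_congr rfl fun i _ => ?_
        rw [ContinuousLinearMap.adjoint_inner_right, real_inner_comm]
        simp
    _ = _ := by simp only [(EuclideanSpace.basisFun (Fin d) ℝ).sum_sq_norm_inner_right]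

lemma hsn_comp_le (B : EE d →L[ℝ] G) (J : EE d →L[ℝ] EE d) :
    hsn (B ∘L J) ≤ hsn B * ‖J‖ := by
  refine le_of_pow_le_pow_left₀ two_ne_zero
    (mul_nonneg (ch_hsn_nonneg B) (norm_nonneg J)) ?_
  rw [mul_pow, hsn_sq_eq, hsn_sq_eq, Finset.sum_mul]
  refine Finset.sum_le_sum fun k _ => ?_
  rw [← mul_pow, ContinuousLinearMap.adjoint_comp, ContinuousLinearMap.comp_apply]
  refine pow_le_pow_left₀ (norm_nonneg _) ?_ 2
  refine ((ContinuousLinearMap.adjoint J).le_opNorm _).trans (le_of_eq ?_)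
  rw [LinearIsometryEquiv.norm_map, mul_comm]

end hs

/-- The gradient as the vector of coordinate derivatives. -/
lemma inner_hsMap (D : EE d →L[ℝ] ℝ) (v : EE d) : ⟪(hsMap ℝ D : EE d), v⟫ = D v := by
  have hv : v = ∑ i, v i • EuclideanSpace.single i (1 : ℝ) := by
    conv_lhs => rw [← (EuclideanSpace.basisFun (Fin d) ℝ).sum_repr v]
    simp
  rw [PiLp.inner_apply]
  conv_rhs => rw [hv, map_sum]
  simp [map_smul, hsMap_apply, mul_comm]

section bounded

variable {X : Type*} [TopologicalSpace X] [MeasurableSpace X] [BorelSpace X]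
  [SecondCountableTopology X] {G : Type*} [NormedAddCommGroup G] [NormedSpace ℝ G]

omit [MeasurableSpace X] [BorelSpace X] [SecondCountableTopology X] [NormedSpace ℝ G] in
lemma BC.comp {Y : Type*} [TopologicalSpace Y] {v : X → G} (hv : BC v) {Z : Y → X}
    (hZ : Continuous Z) : BC (fun y => v (Z y)) :=
  ⟨hv.1.comp hZ, hv.2.imp fun _ hK y => hK (Z y)⟩

omit [NormedSpace ℝ G] in
lemma BC.integrable {v : X → G} (hv : BC v) (μ : Measure X) [IsFiniteMeasure μ] :
    Integrable v μ := by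
  obtain ⟨K, hK⟩ := hv.2
  exact Integrable.of_bound hv.1.aestronglyMeasurable K (ae_of_all _ hK)

omit [MeasurableSpace X] [BorelSpace X] [SecondCountableTopology X] [NormedSpace ℝ G] in
lemma BC.norm_sq {v : X → G} (hv : BC v) : BC (fun x => ‖v x‖ ^ 2) := by
  obtain ⟨K, hK⟩ := hv.2
  refine ⟨hv.1.norm.pow 2, K ^ 2, fun x => ?_⟩
  rw [norm_pow, norm_norm]
  exact pow_le_pow_left₀ (norm_nonneg _) (hK x) 2

omit [MeasurableSpace X] [BorelSpace X] [SecondCountableTopology X] [NormedSpace ℝ G] in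
lemma BC.add {v w : X → G} (hv : BC v) (hw : BC w) : BC (fun x => v x + w x) := by
  obtain ⟨K, hK⟩ := hv.2
  obtain ⟨L, hL⟩ := hw.2
  exact ⟨hv.1.add hw.1, K + L, fun x => (norm_add_le _ _).trans (add_le_add (hK x) (hL x))⟩

omit [MeasurableSpace X] [BorelSpace X] [SecondCountableTopology X] in
lemma BC.sub {v w : X → G} (hv : BC v) (hw : BC w) : BC (fun x => v x - w x) := by
  obtain ⟨K, hK⟩ := hv.2
  obtain ⟨L, hL⟩ := hw.2
  exact ⟨hv.1.sub hw.1, K + L, fun x => (norm_sub_le _ _).trans (add_le_add (hK x) (hL x))⟩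

omit [MeasurableSpace X] [BorelSpace X] [SecondCountableTopology X] in
lemma BC.clm {G' : Type*} [NormedAddCommGroup G'] [NormedSpace ℝ G'] (T : G →L[ℝ] G')
    {v : X → G} (hv : BC v) : BC (fun x => T (v x)) := by
  obtain ⟨K, hK⟩ := hv.2
  exact ⟨T.continuous.comp hv.1, ‖T‖ * K,
    fun x => (T.le_opNorm _).trans (mul_le_mul_of_nonneg_left (hK x) (norm_nonneg T))⟩

omit [BorelSpace X] [SecondCountableTopology X] in
lemma norm_integral_le_const (μ : Measure X) [IsProbabilityMeasure μ] {v : X → G} {K : ℝ}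
    (hK : ∀ x, ‖v x‖ ≤ K) : ‖∫ x, v x ∂μ‖ ≤ K := by
  have := norm_integral_le_of_norm_le_const (μ := μ) (ae_of_all _ hK)
  simpa using this

lemma sq_integral_le (μ : Measure X) [IsProbabilityMeasure μ] {u : X → ℝ} (hu : BC u) :
    (∫ x, u x ∂μ) ^ 2 ≤ ∫ x, u x ^ 2 ∂μ := by
  set m := ∫ x, u x ∂μ
  have h1 := hu.integrable μ
  have h2 : Integrable (fun x => u x ^ 2) μ := by
    simpa [Real.norm_eq_abs, sq_abs] using hu.norm_sq.integrable μ
  have h3 : 0 ≤ ∫ x, (u x ^ 2 - 2 * m * u x + m ^ 2) ∂μ := by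
    refine integral_nonneg fun x => ?_
    have := sq_nonneg (u x - m)
    simp only [Pi.zero_apply]
    nlinarith
  have h4 : ∫ x, (u x ^ 2 - 2 * m * u x + m ^ 2) ∂μ = (∫ x, u x ^ 2 ∂μ) - m ^ 2 := by
    rw [integral_add (f := fun x => u x ^ 2 - 2 * m * u x) (h2.sub (h1.const_mul _))
      (integrable_const _), integral_sub h2 (h1.const_mul _), integral_const_mul]
    simp [m]
    ring
  linarith

lemma sq_norm_integral_le (μ : Measure X) [IsProbabilityMeasure μ] {v : X → G} (hv : BC v) :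
    ‖∫ x, v x ∂μ‖ ^ 2 ≤ ∫ x, ‖v x‖ ^ 2 ∂μ := by
  refine (pow_le_pow_left₀ (norm_nonneg _) (norm_integral_le_integral_norm v) 2).trans ?_
  exact sq_integral_le μ ⟨hv.1.norm, hv.2.imp fun K hK x => by simpa using hK x⟩

end bounded

/-- An operator with quadratic form between `0` and `c` has norm at most `c`. -/
lemma norm_le_of_form {S : EE d →L[ℝ] EE d} {c : ℝ} (hc : 0 ≤ c)
    (hs : ∀ u v, ⟪S u, v⟫ = ⟪u, S v⟫) (h0 : ∀ v, 0 ≤ ⟪S v, v⟫)
    (h1 : ∀ v, ⟪S v, v⟫ ≤ c * ‖v‖ ^ 2) : ‖S‖ ≤ c := by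
  refine S.opNorm_le_bound hc fun u => ?_
  by_cases hz : ‖S u‖ = 0
  · rw [hz]; positivity
  set t := ‖u‖ / ‖S u‖ with ht
  have hp : 4 * ⟪S u, t • S u⟫ ≤ c * ‖u + t • S u‖ ^ 2 := by
    have e : 4 * ⟪S u, t • S u⟫ =
        ⟪S (u + t • S u), u + t • S u⟫ - ⟪S (u - t • S u), u - t • S u⟫ := by
      simp only [map_add, map_sub, inner_add_left, inner_add_right, inner_sub_left,
        inner_sub_right]
      have := hs (t • S u) u
      rw [real_inner_comm (S u) (t • S u)] at this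
      linarith
    have := h0 (u - t • S u)
    have := h1 (u + t • S u)
    linarith
  have hn : ‖u + t • S u‖ ≤ 2 * ‖u‖ := by
    refine (norm_add_le _ _).trans (le_of_eq ?_)
    rw [norm_smul, ht, Real.norm_eq_abs, abs_of_nonneg (by positivity),
      div_mul_cancel₀ _ hz]
    ring
  rw [real_inner_smul_right, real_inner_self_eq_norm_sq] at hp
  have h2 : t * ‖S u‖ ^ 2 = ‖u‖ * ‖S u‖ := by
    rw [ht]; field_simp
  rw [h2] at hp
  have h3 : c * ‖u + t • S u‖ ^ 2 ≤ c * (2 * ‖u‖) ^ 2 :=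
    mul_le_mul_of_nonneg_left (pow_le_pow_left₀ (norm_nonneg _) hn 2) hc
  rcases (norm_nonneg u).lt_or_eq with hu | hu
  · nlinarith
  · have : u = 0 := norm_eq_zero.1 hu.symm
    subst this
    simp at hz

/-- The linearised step. -/
noncomputable def stepOp (η h : ℝ) (H : EE d →L[ℝ] EE d) : EE d →L[ℝ] EE d :=
  (1 - h) • ContinuousLinearMap.id ℝ (EE d) - (h * η) • H

/-- The derivative of the chain in the starting point. -/
noncomputable def zJ (g : EE d → EE d) (η h : ℝ) (N : ℕ) (y : EE d) :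
    ℕ → Path d N → EE d →L[ℝ] EE d
  | 0, _ => ContinuousLinearMap.id ℝ (EE d)
  | k + 1, ω =>
      stepOp η h (fderiv ℝ g (zchain g η h N y k ω)) ∘L zJ g η h N y k ω
        + h • ContinuousLinearMap.id ℝ (EE d)

/-- The reference kernel on vector fields. -/
noncomputable def Rv {G : Type*} [NormedAddCommGroup G] [NormedSpace ℝ G] (g : EE d → EE d)
    (η h : ℝ) (N : ℕ) (f : EE d → G) (y : EE d) : G :=
  ∫ ω, f (zchain g η h N y N ω) ∂pgam d N

/-- One exact step on vector fields. -/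
noncomputable def Mv {G : Type*} [NormedAddCommGroup G] [NormedSpace ℝ G] (g : EE d → EE d)
    (η h : ℝ) (N : ℕ) (f : EE d → G) : EE d → G :=
  Gs η (Rv g η h N f)

lemma contDiff_z (hg : ContDiff ℝ 1 g) :
    ∀ k, ContDiff ℝ 1 (fun p : EE d × Path d N => zchain g η h N p.1 k p.2)
  | 0 => by simp only [zchain]; fun_prop
  | k + 1 => by
    have := contDiff_z hg k
    simp only [zchain]
    fun_prop

lemma continuous_z (hg : ContDiff ℝ 1 g) (k : ℕ) :
    Continuous (fun p : EE d × Path d N => zchain g η h N p.1 k p.2) :=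
  (contDiff_z hg k).continuous

lemma continuous_J (hg : ContDiff ℝ 1 g) :
    ∀ k, Continuous (fun p : EE d × Path d N => zJ g η h N p.1 k p.2)
  | 0 => by simp only [zJ]; fun_prop
  | k + 1 => by
    have h1 : Continuous (fun p : EE d × Path d N =>
        fderiv ℝ g (zchain g η h N p.1 k p.2)) :=
      (hg.continuous_fderiv one_ne_zero).comp (continuous_z hg k)
    have h2 := continuous_J hg k
    simp only [zJ, stepOp]
    exact ((continuous_const.sub (h1.const_smul (h * η))).clm_comp h2).add continuous_const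

lemma hasFDerivAt_z (hg : ContDiff ℝ 1 g) (ω : Path d N) :
    ∀ k y, HasFDerivAt (fun y => zchain g η h N y k ω) (zJ g η h N y k ω) y
  | 0, y => by
    simp only [zchain, zJ]
    exact (hasFDerivAt_id y).add_const _
  | k + 1, y => by
    have h1 := hasFDerivAt_z hg ω k y
    have h2 := ((hg.differentiable one_ne_zero) (zchain g η h N y k ω)).hasFDerivAt.comp y h1
    have h3 := (h1.sub (((h1.sub (hasFDerivAt_id y)).add (h2.const_smul η)).const_smul h)).add_const
      ((Real.sqrt η * beta h) • inp d N (k + 1) ω)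
    simp only [zchain, zJ]
    refine h3.congr_fderiv ?_
    ext1 v
    simp only [stepOp, ContinuousLinearMap.add_apply, ContinuousLinearMap.sub_apply,
      ContinuousLinearMap.comp_apply, ContinuousLinearMap.smul_apply,
      ContinuousLinearMap.id_apply]
    module

lemma norm_H_le (hg : GradClass g) (z : EE d) : ‖fderiv ℝ g z‖ ≤ 2 :=
  norm_le_of_form zero_le_two (hg.symm z)
    (fun v => le_trans (sq_nonneg _) (hg.lower z v)) (hg.upper z)

lemma norm_stepOp_le (ok : Ok g η h N) (z : EE d) :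
    ‖stepOp η h (fderiv ℝ g z)‖ ≤ 1 - h - h * η := by
  have h1 := ok.h_le
  have h2 := ok.eta_le
  have h3 := ok.h_pos
  have h4 := ok.eta_pos
  have h5 : 0 ≤ h * η := (mul_pos h3 h4).le
  refine norm_le_of_form (by nlinarith) (fun u v => ?_) (fun v => ?_) (fun v => ?_)
  · simp only [stepOp, ContinuousLinearMap.sub_apply, ContinuousLinearMap.smul_apply,
      ContinuousLinearMap.id_apply, inner_sub_left, inner_sub_right, real_inner_smul_left,
      real_inner_smul_right, ok.cls.symm z u v]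
  all_goals
    simp only [stepOp, ContinuousLinearMap.sub_apply, ContinuousLinearMap.smul_apply,
      ContinuousLinearMap.id_apply, inner_sub_left, real_inner_smul_left,
      real_inner_self_eq_norm_sq]
    have := mul_le_mul_of_nonneg_left (ok.cls.upper z v) h5
    have := mul_le_mul_of_nonneg_left (ok.cls.lower z v) h5
    have := mul_nonneg (show 0 ≤ 1 - h - 2 * (h * η) by nlinarith) (sq_nonneg ‖v‖)
    linarith

lemma norm_id_le : ‖ContinuousLinearMap.id ℝ (EE d)‖ ≤ 1 := ContinuousLinearMap.norm_id_le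

lemma norm_J_aux (ok : Ok g η h N) (y : EE d) (ω : Path d N) : ∀ k,
    ‖zJ g η h N y k ω‖ ≤ 1 / (1 + η) + (1 - h - h * η) ^ k * (η / (1 + η))
  | 0 => by
    have := ok.eta_pos
    refine norm_id_le.trans (le_of_eq ?_)
    field_simp
  | k + 1 => by
    have hp := ok.eta_pos
    have hc : 0 ≤ 1 - h - h * η := (norm_nonneg _).trans (norm_stepOp_le ok y)
    have ih := norm_J_aux ok y ω k
    simp only [zJ]
    calc _ ≤ ‖stepOp η h (fderiv ℝ g (zchain g η h N y k ω)) ∘L zJ g η h N y k ω‖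
            + ‖h • ContinuousLinearMap.id ℝ (EE d)‖ := norm_add_le _ _
      _ ≤ (1 - h - h * η) * (1 / (1 + η) + (1 - h - h * η) ^ k * (η / (1 + η))) + h * 1 := by
          refine add_le_add ((ContinuousLinearMap.opNorm_comp_le _ _).trans
            (mul_le_mul (norm_stepOp_le ok _) ih (norm_nonneg _) hc)) ?_
          rw [norm_smul, Real.norm_eq_abs, abs_of_pos ok.h_pos]
          exact mul_le_mul_of_nonneg_left norm_id_le ok.h_pos.le
      _ = _ := by field_simp; ring

lemma norm_J_le_one (ok : Ok g η h N) (y : EE d) (ω : Path d N) (k : ℕ) :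
    ‖zJ g η h N y k ω‖ ≤ 1 := by
  have hp := ok.eta_pos
  have hh := ok.h_pos
  have hc : 0 ≤ 1 - h - h * η := (norm_nonneg _).trans (norm_stepOp_le ok y)
  have hc1 : (1 - h - h * η) ^ k ≤ 1 := pow_le_one₀ hc (by nlinarith)
  refine (norm_J_aux ok y ω k).trans ?_
  calc _ ≤ 1 / (1 + η) + 1 * (η / (1 + η)) := by gcongr
    _ = 1 := by field_simp

lemma norm_J_le (ok : Ok g η h N) (y : EE d) (ω : Path d N) :
    ‖zJ g η h N y N ω‖ ≤ 1 - η / 2 := by
  have hp := ok.eta_pos
  have he := ok.eta_le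
  have hh := ok.h_pos
  have hc : 0 ≤ 1 - h - h * η := (norm_nonneg _).trans (norm_stepOp_le ok y)
  have h1 : (1 - h - h * η) ^ N ≤ 1 / 9 := by
    calc (1 - h - h * η) ^ N ≤ Real.exp (-h) ^ N :=
          pow_le_pow_left₀ hc (le_trans (by nlinarith) (Real.add_one_le_exp (-h))) N
      _ = Real.exp (-(h * N)) := by rw [← Real.exp_nat_mul]; ring_nf
      _ ≤ Real.exp (-8) := Real.exp_le_exp.2 (by linarith [ok.long])
      _ ≤ 1 / 9 := by
          rw [Real.exp_neg, one_div]
          exact inv_anti₀ (by norm_num) (by linarith [Real.add_one_le_exp (8 : ℝ)])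
  refine (norm_J_aux ok y ω N).trans ?_
  calc _ ≤ 1 / (1 + η) + 1 / 9 * (η / (1 + η)) := by gcongr
    _ ≤ _ := by
      rw [← mul_div_assoc, ← add_div, div_le_iff₀ (by linarith)]
      nlinarith

lemma norm_J_sub_le (ok : Ok g η h N) (y : EE d) (ω : Path d N) : ∀ k,
    ‖zJ g η h N y k ω - ContinuousLinearMap.id ℝ (EE d)‖ ≤ 2 * η
  | 0 => by simp [zJ, ok.eta_pos.le]
  | k + 1 => by
    have hp := ok.eta_pos
    have hh := ok.h_pos
    have h1 : h ≤ 1 := by linarith [ok.h_le, ok.eta_le]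
    have e : zJ g η h N y (k + 1) ω - ContinuousLinearMap.id ℝ (EE d) =
        (1 - h) • (zJ g η h N y k ω - ContinuousLinearMap.id ℝ (EE d))
          - (h * η) • (fderiv ℝ g (zchain g η h N y k ω) ∘L zJ g η h N y k ω) := by
      ext1 v
      simp only [zJ, stepOp, ContinuousLinearMap.add_apply, ContinuousLinearMap.sub_apply,
        ContinuousLinearMap.comp_apply, ContinuousLinearMap.smul_apply,
        ContinuousLinearMap.id_apply]
      module
    rw [e]
    calc _ ≤ ‖(1 - h) • (zJ g η h N y k ω - ContinuousLinearMap.id ℝ (EE d))‖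
            + ‖(h * η) • (fderiv ℝ g (zchain g η h N y k ω) ∘L zJ g η h N y k ω)‖ :=
          norm_sub_le _ _
      _ ≤ (1 - h) * (2 * η) + h * η * (2 * 1) := by
          rw [norm_smul, norm_smul, Real.norm_eq_abs, Real.norm_eq_abs,
            abs_of_nonneg (sub_nonneg.2 h1), abs_of_pos (mul_pos hh hp)]
          exact add_le_add (mul_le_mul_of_nonneg_left (norm_J_sub_le ok y ω k)
            (sub_nonneg.2 h1)) (mul_le_mul_of_nonneg_left
            ((ContinuousLinearMap.opNorm_comp_le _ _).trans (mul_le_mul (norm_H_le ok.cls _)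
              (norm_J_le_one ok y ω k) (norm_nonneg _) zero_le_two)) (mul_pos hh hp).le)
      _ = 2 * η := by ring

section kernels

variable {G : Type*} [NormedAddCommGroup G] [InnerProductSpace ℝ G] [FiniteDimensional ℝ G]

lemma int_z (ok : Ok g η h N) {G' : Type*} [NormedAddCommGroup G'] {v : EE d → G'} (hv : BC v)
    (y : EE d) : Integrable (fun ω => v (zchain g η h N y N ω)) (pgam d N) :=
  (hv.comp ((continuous_z ok.cls.smooth N).comp
    (continuous_const.prodMk continuous_id))).integrable _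

lemma int_shift {G' : Type*} [NormedAddCommGroup G'] {v : EE d → G'} (hv : BC v)
    (s : ℝ) (x : EE d) : Integrable (fun ξ => v (x + Real.sqrt s • ξ)) (gam d) :=
  (hv.comp (by fun_prop)).integrable _

lemma Rv_bound {v : EE d → G} {K : ℝ} (hK : ∀ x, ‖v x‖ ≤ K) (y : EE d) :
    ‖Rv g η h N v y‖ ≤ K :=
  norm_integral_le_const _ fun _ => hK _

lemma Gs_bound {v : EE d → G} {K : ℝ} (hK : ∀ x, ‖v x‖ ≤ K) (s : ℝ) (x : EE d) :
    ‖Gs s v x‖ ≤ K :=
  norm_integral_le_const _ fun _ => hK _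

lemma Rv_BC (ok : Ok g η h N) {v : EE d → G} (hv : BC v) : BC (Rv g η h N v) := by
  obtain ⟨K, hK⟩ := hv.2
  refine ⟨?_, K, Rv_bound hK⟩
  refine continuous_of_dominated (bound := fun _ => K) (fun y => (int_z ok hv y).1)
    (fun y => ae_of_all _ fun ω => hK _) (integrable_const _) (ae_of_all _ fun ω => ?_)
  exact hv.1.comp ((continuous_z ok.cls.smooth N).comp (continuous_id.prodMk continuous_const))

lemma Gs_BC {v : EE d → G} (hv : BC v) (s : ℝ) : BC (Gs s v) := by
  obtain ⟨K, hK⟩ := hv.2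
  refine ⟨?_, K, Gs_bound hK s⟩
  refine continuous_of_dominated (bound := fun _ => K) (fun x => (int_shift hv s x).1)
    (fun x => ae_of_all _ fun ξ => hK _) (integrable_const _) (ae_of_all _ fun ξ => ?_)
  exact hv.1.comp (by fun_prop)

lemma Mv_BC (ok : Ok g η h N) {v : EE d → G} (hv : BC v) : BC (Mv g η h N v) :=
  Gs_BC (Rv_BC ok hv) η

/-- Smoothing of a bounded continuous field has bounded continuous derivative. -/
lemma gs_smooth [MeasurableSpace G] [BorelSpace G] {v : EE d → G} (hv : BC v) {s K : ℝ}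
    (hs : 0 < s) (hK : ∀ x, ‖v x‖ ≤ K) :
    BD (Gs s v) ∧ ∀ x, hsn (fderiv ℝ (Gs s v) x) ≤ K / Real.sqrt s := by
  obtain ⟨h1, h2⟩ := gs_deriv hs v hv.1 hK
  have hK0 : 0 ≤ K := (norm_nonneg _).trans (hK 0)
  have h3 : ∀ x, hsn (fderiv ℝ (Gs s v) x) ≤ K / Real.sqrt s := by
    intro x
    refine le_of_pow_le_pow_left₀ two_ne_zero (by positivity) ?_
    rw [div_pow, Real.sq_sqrt hs.le]
    refine (h2 x).trans ((div_le_div_iff_of_pos_right hs).2 ?_)
    have h4 : ‖∫ ξ, ‖v (x + Real.sqrt s • ξ)‖ ^ 2 ∂gam d‖ ≤ K ^ 2 :=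
      norm_integral_le_const _ fun ξ => by
        rw [norm_pow, norm_norm]
        exact pow_le_pow_left₀ (norm_nonneg _) (hK _) 2
    have := le_abs_self (∫ ξ, ‖v (x + Real.sqrt s • ξ)‖ ^ 2 ∂gam d)
    rw [Real.norm_eq_abs] at h4
    nlinarith [sq_nonneg ‖Gs s v x‖]
  exact ⟨⟨h1, Gs_BC hv s, h1.continuous_fderiv one_ne_zero, K / Real.sqrt s,
    fun x => (norm_le_hsn _).trans (h3 x)⟩, h3⟩

lemma BC_DzJ (ok : Ok g η h N) {f : EE d → G} (hf : BD f) :
    BC (fun p : EE d × Path d N =>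
      fderiv ℝ f (zchain g η h N p.1 N p.2) ∘L zJ g η h N p.1 N p.2) := by
  obtain ⟨A, hA⟩ := hf.2.2.2
  refine ⟨(hf.2.2.1.comp (continuous_z ok.cls.smooth N)).clm_comp
    (continuous_J ok.cls.smooth N), A, fun p => ?_⟩
  refine (ContinuousLinearMap.opNorm_comp_le _ _).trans ?_
  simpa using mul_le_mul (hA (zchain g η h N p.1 N p.2)) (norm_J_le_one ok p.1 p.2 N)
    (norm_nonneg _) ((norm_nonneg _).trans (hA 0))

lemma Rv_hasFDerivAt (ok : Ok g η h N) {f : EE d → G} (hf : BD f) (y : EE d) :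
    HasFDerivAt (Rv g η h N f)
      (∫ ω, fderiv ℝ f (zchain g η h N y N ω) ∘L zJ g η h N y N ω ∂pgam d N) y := by
  obtain ⟨A, hA⟩ := (BC_DzJ ok hf).2
  exact hasFDerivAt_integral_of_dominated_of_fderiv_le (bound := fun _ => A) Filter.univ_mem
    (Filter.Eventually.of_forall fun y' => (int_z ok hf.2.1 y').1) (int_z ok hf.2.1 y)
    (((BC_DzJ ok hf).comp (continuous_const.prodMk continuous_id)).integrable _).1
    (ae_of_all _ fun ω y' _ => hA (y', ω)) (integrable_const _)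
    (ae_of_all _ fun ω y' _ => ((hf.1.differentiable one_ne_zero) _).hasFDerivAt.comp y'
      (hasFDerivAt_z ok.cls.smooth ω N y'))

lemma Rv_BD (ok : Ok g η h N) {f : EE d → G} (hf : BD f) : BD (Rv g η h N f) := by
  obtain ⟨A, hA⟩ := (BC_DzJ ok hf).2
  have hD : fderiv ℝ (Rv g η h N f) =
      fun y => ∫ ω, fderiv ℝ f (zchain g η h N y N ω) ∘L zJ g η h N y N ω ∂pgam d N :=
    funext fun y => (Rv_hasFDerivAt ok hf y).fderiv
  have hc : BC (fderiv ℝ (Rv g η h N f)) := by
    rw [hD]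
    refine ⟨continuous_of_dominated (bound := fun _ => A) (fun y =>
      (((BC_DzJ ok hf).comp (continuous_const.prodMk continuous_id)).integrable _).1)
      (fun y => ae_of_all _ fun ω => hA (y, ω)) (integrable_const _)
      (ae_of_all _ fun ω => (BC_DzJ ok hf).1.comp (continuous_id.prodMk continuous_const)),
      A, fun y => norm_integral_le_const _ fun ω => hA (y, ω)⟩
  exact ⟨contDiff_one_iff_fderiv.2 ⟨fun y => (Rv_hasFDerivAt ok hf y).differentiableAt, hc.1⟩,
    Rv_BC ok hf.2.1, hc⟩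

lemma BC_hsn {f : EE d → G} (hf : BD f) : BC (fun u => hsn (fderiv ℝ f u)) := by
  have h1 := hf.2.2.clm (hsMap G)
  simp only [hsn_eq]
  exact ⟨h1.1.norm, h1.2.imp fun K hK x => by simpa using hK x⟩

lemma hsn_DRv_le (ok : Ok g η h N) {f : EE d → G} (hf : BD f) (y : EE d) :
    hsn (fderiv ℝ (Rv g η h N f) y) ≤
      (1 - η / 2) * Rv g η h N (fun u => hsn (fderiv ℝ f u)) y := by
  have hi := ((BC_DzJ ok hf).comp (continuous_const.prodMk continuous_id)
    (Y := Path d N) (Z := fun ω => (y, ω))).integrable (pgam d N)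
  rw [(Rv_hasFDerivAt ok hf y).fderiv, hsn_eq, ← (hsMap G).integral_comp_comm hi, Rv,
    ← integral_const_mul]
  refine (norm_integral_le_integral_norm _).trans
    (integral_mono ((hsMap G).integrable_comp hi).norm ((int_z ok (BC_hsn hf) y).const_mul _)
      fun ω => ?_)
  simp only [← hsn_eq]
  refine (hsn_comp_le _ _).trans ?_
  rw [mul_comm]
  exact mul_le_mul_of_nonneg_right (norm_J_le ok y ω) (ch_hsn_nonneg _)

lemma Gs_D [MeasurableSpace G] [BorelSpace G] {v : EE d → G} (hv : BD v) (s : ℝ) (x : EE d) :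
    fderiv ℝ (Gs s v) x = ∫ ξ, fderiv ℝ v (x + Real.sqrt s • ξ) ∂gam d := by
  obtain ⟨A, hA⟩ := hv.2.2.2
  exact (gs_fderiv v hv.1 hA x).fderiv

lemma Mv_BD [MeasurableSpace G] [BorelSpace G] (ok : Ok g η h N) {f : EE d → G} (hf : BC f) :
    BD (Mv g η h N f) :=
  (gs_smooth (Rv_BC ok hf) ok.eta_pos (Classical.choose_spec (Rv_BC ok hf).2)).1

lemma hsn_DMv_le [MeasurableSpace G] [BorelSpace G] (ok : Ok g η h N) {f : EE d → G}
    (hf : BD f) (x : EE d) :
    hsn (fderiv ℝ (Mv g η h N f) x) ≤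
      (1 - η / 2) * Mv g η h N (fun u => hsn (fderiv ℝ f u)) x := by
  have hR := Rv_BD ok hf
  have hi := int_shift hR.2.2 η x
  rw [Mv, Gs_D hR, hsn_eq, ← (hsMap G).integral_comp_comm hi, Mv, Gs, ← integral_const_mul]
  refine (norm_integral_le_integral_norm _).trans
    (integral_mono ((hsMap G).integrable_comp hi).norm
      ((int_shift (Rv_BC ok (BC_hsn hf)) η x).const_mul _) fun ξ => ?_)
  simp only [← hsn_eq]
  exact hsn_DRv_le ok hf _

/-- One step of the telescoping of conditional variances. -/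
lemma smoothing_step [MeasurableSpace G] [BorelSpace G] (ok : Ok g η h N) {f : EE d → G}
    (hf : BD f) {Φ : EE d → ℝ} (hΦ : BC Φ) {c : ℝ} (hc : 0 ≤ c)
    (hle : ∀ u, c * hsn (fderiv ℝ f u) ^ 2 ≤ Φ u - ‖f u‖ ^ 2) (x : EE d) :
    (c + η) * hsn (fderiv ℝ (Mv g η h N f) x) ^ 2 ≤
      Mv g η h N Φ x - ‖Mv g η h N f x‖ ^ 2 := by
  have hη := ok.eta_pos
  have hu := BC_hsn hf
  have hR := Rv_BC ok hf.2.1
  have hRu := Rv_BC ok hu
  obtain ⟨K, hK⟩ := hR.2
  have h1 := (gs_deriv hη (Rv g η h N f) hR.1 hK).2 x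
  rw [le_div_iff₀ hη] at h1
  have hu2 : BC (fun u => hsn (fderiv ℝ f u) ^ 2) := by
    simpa [Real.norm_eq_abs, sq_abs] using hu.norm_sq
  have hRu2 : BC (fun u => Rv g η h N (fun u => hsn (fderiv ℝ f u)) u ^ 2) := by
    simpa [Real.norm_eq_abs, sq_abs] using hRu.norm_sq
  have hpt : ∀ u, ‖Rv g η h N f u‖ ^ 2 + c * Rv g η h N (fun u => hsn (fderiv ℝ f u)) u ^ 2
      ≤ Rv g η h N Φ u := by
    intro u
    have a1 : ‖Rv g η h N f u‖ ^ 2 ≤ ∫ ω, ‖f (zchain g η h N u N ω)‖ ^ 2 ∂pgam d N :=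
      sq_norm_integral_le _ (hf.2.1.comp ((continuous_z ok.cls.smooth N).comp
        (continuous_const.prodMk continuous_id)))
    have a2 : Rv g η h N (fun u => hsn (fderiv ℝ f u)) u ^ 2 ≤
        ∫ ω, hsn (fderiv ℝ f (zchain g η h N u N ω)) ^ 2 ∂pgam d N :=
      sq_integral_le _ (hu.comp ((continuous_z ok.cls.smooth N).comp
        (continuous_const.prodMk continuous_id)))
    refine (add_le_add a1 (mul_le_mul_of_nonneg_left a2 hc)).trans ?_
    rw [← integral_const_mul, ← integral_add (int_z ok hf.2.1.norm_sq u)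
      ((int_z ok hu2 u).const_mul c)]
    exact integral_mono ((int_z ok hf.2.1.norm_sq u).add ((int_z ok hu2 u).const_mul c))
      (int_z ok hΦ u) fun ω => by
        have := hle (zchain g η h N u N ω)
        simp only [Pi.add_apply]
        linarith
  have h2 : (∫ ξ, ‖Rv g η h N f (x + Real.sqrt η • ξ)‖ ^ 2 ∂gam d) +
      c * ∫ ξ, Rv g η h N (fun u => hsn (fderiv ℝ f u)) (x + Real.sqrt η • ξ) ^ 2 ∂gam d
      ≤ Mv g η h N Φ x := by
    rw [← integral_const_mul, ← integral_add (int_shift hR.norm_sq η x)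
      ((int_shift hRu2 η x).const_mul c)]
    exact integral_mono ((int_shift hR.norm_sq η x).add ((int_shift hRu2 η x).const_mul c))
      (int_shift (Rv_BC ok hΦ) η x) fun ξ => hpt _
  have h3 : hsn (fderiv ℝ (Mv g η h N f) x) ^ 2 ≤
      ∫ ξ, Rv g η h N (fun u => hsn (fderiv ℝ f u)) (x + Real.sqrt η • ξ) ^ 2 ∂gam d := by
    have a1 := hsn_DMv_le ok hf x
    have a0 : 0 ≤ Mv g η h N (fun u => hsn (fderiv ℝ f u)) x :=
      integral_nonneg fun ξ => integral_nonneg fun ω => ch_hsn_nonneg _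
    have a2 : hsn (fderiv ℝ (Mv g η h N f) x) ≤ Mv g η h N (fun u => hsn (fderiv ℝ f u)) x := by
      nlinarith [ok.eta_le]
    exact (pow_le_pow_left₀ (ch_hsn_nonneg _) a2 2).trans
      (sq_integral_le _ (hRu.comp (by fun_prop)))
  have h4 := mul_le_mul_of_nonneg_left h3 hc
  change c * hsn (fderiv ℝ (Mv g η h N f) x) ^ 2 ≤ _ at h4
  simp only [Mv] at h1 h2 h4 ⊢
  nlinarith

/-- Smoothing by iterates: `(c + k η) |D M^k f|² ≤ K²`. -/
lemma smoothing [MeasurableSpace G] [BorelSpace G] (ok : Ok g η h N) {f : EE d → G}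
    (hf : BD f) {Φ : EE d → ℝ} (hΦ : BC Φ) {K : ℝ} (hK : ∀ u, Φ u ≤ K) {c : ℝ} (hc : 0 ≤ c)
    (hle : ∀ u, c * hsn (fderiv ℝ f u) ^ 2 ≤ Φ u - ‖f u‖ ^ 2) (k : ℕ) (x : EE d) :
    (c + k * η) * hsn (fderiv ℝ ((Mv g η h N)^[k] f) x) ^ 2 ≤ K := by
  suffices H : ∀ k : ℕ, BD ((Mv g η h N)^[k] f) ∧ ∃ Φ' : EE d → ℝ, BC Φ' ∧ (∀ u, Φ' u ≤ K) ∧
      ∀ u, (c + k * η) * hsn (fderiv ℝ ((Mv g η h N)^[k] f) u) ^ 2 ≤
        Φ' u - ‖(Mv g η h N)^[k] f u‖ ^ 2 by
    obtain ⟨-, Φ', -, h1, h2⟩ := H k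
    nlinarith [h1 x, h2 x, sq_nonneg ‖(Mv g η h N)^[k] f x‖]
  intro k
  induction k with
  | zero => exact ⟨hf, Φ, hΦ, hK, fun u => by simpa using hle u⟩
  | succ k ih =>
    obtain ⟨hk, Φ', hΦ', hK', hle'⟩ := ih
    rw [Function.iterate_succ_apply']
    refine ⟨Mv_BD ok hk.2.1, Mv g η h N Φ', Mv_BC ok hΦ', fun u => ?_, fun u => ?_⟩
    · refine le_trans (integral_mono (int_shift (Rv_BC ok hΦ') η u) (integrable_const K)
        fun ξ => ?_) (le_of_eq (by simp))
      exact le_trans (integral_mono (int_z ok hΦ' _) (integrable_const K) fun ω => hK' _)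
        (le_of_eq (by simp))
    · have hc' : 0 ≤ c + k * η := by have := ok.eta_pos; positivity
      have := smoothing_step ok hk hΦ' hc' hle' u
      push_cast
      linarith

/-- Smoothing applied after one blur. -/
lemma smoothing_blur [MeasurableSpace G] [BorelSpace G] (ok : Ok g η h N) {v : EE d → G}
    (hv : BC v) {K : ℝ} (hK : ∀ x, ‖v x‖ ≤ K) (i : ℕ) (x : EE d) :
    hsn (fderiv ℝ ((Mv g η h N)^[i] (Gs η v)) x) ≤ K / Real.sqrt (η * (i + 1)) := by
  have hη := ok.eta_pos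
  have hK0 : 0 ≤ K := (norm_nonneg _).trans (hK 0)
  obtain ⟨hb, -⟩ := gs_smooth hv hη hK
  have h1 := smoothing ok hb (Φ := Gs η (fun x => ‖v x‖ ^ 2)) (Gs_BC hv.norm_sq η)
    (K := K ^ 2) (fun u => ?_) hη.le (fun u => ?_) i x
  · refine le_of_pow_le_pow_left₀ two_ne_zero (by positivity) ?_
    rw [div_pow, Real.sq_sqrt (by positivity), le_div_iff₀ (by positivity)]
    linarith
  · refine le_trans (integral_mono (int_shift hv.norm_sq η u) (integrable_const (K ^ 2))
      fun ξ => pow_le_pow_left₀ (norm_nonneg _) (hK _) 2) (le_of_eq (by simp))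
  · have := (gs_deriv hη v hv.1 hK).2 u
    rw [le_div_iff₀ hη] at this
    simp only [Gs] at this ⊢
    linarith

lemma Mv_iter_BC (ok : Ok g η h N) {v : EE d → G} (hv : BC v) :
    ∀ k, BC ((Mv g η h N)^[k] v)
  | 0 => hv
  | k + 1 => by
    rw [Function.iterate_succ_apply']
    exact Mv_BC ok (Mv_iter_BC ok hv k)

lemma Mv_add (ok : Ok g η h N) {v w : EE d → G} (hv : BC v) (hw : BC w) :
    Mv g η h N (fun x => v x + w x) = fun x => Mv g η h N v x + Mv g η h N w x := by
  have e : Rv g η h N (fun x => v x + w x) = fun y => Rv g η h N v y + Rv g η h N w y :=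
    funext fun y => integral_add (int_z ok hv y) (int_z ok hw y)
  funext x
  simp only [Mv, e]
  exact integral_add (int_shift (Rv_BC ok hv) η x) (int_shift (Rv_BC ok hw) η x)

lemma Mv_iter_add (ok : Ok g η h N) {v w : EE d → G} (hv : BC v) (hw : BC w) :
    ∀ k, (Mv g η h N)^[k] (fun x => v x + w x) =
      fun x => (Mv g η h N)^[k] v x + (Mv g η h N)^[k] w x
  | 0 => rfl
  | k + 1 => by
    simp only [Function.iterate_succ_apply', Mv_iter_add ok hv hw k]
    exact Mv_add ok (Mv_iter_BC ok hv k) (Mv_iter_BC ok hw k)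

lemma Mv_iter_BD [MeasurableSpace G] [BorelSpace G] (ok : Ok g η h N) {v : EE d → G}
    (hv : BD v) : ∀ k, BD ((Mv g η h N)^[k] v)
  | 0 => hv
  | k + 1 => by
    rw [Function.iterate_succ_apply']
    exact Mv_BD ok (Mv_iter_BD ok hv k).2.1

end kernels

/-- The gradient field. -/
noncomputable def grd (φ : EE d → ℝ) (x : EE d) : EE d := hsMap ℝ (fderiv ℝ φ x)

lemma hasGradientAt_grd {φ : EE d → ℝ} (hφ : BD φ) (x : EE d) :
    HasGradientAt φ (grd φ x) x := by
  have h1 := ((hφ.1.differentiable one_ne_zero) x).hasFDerivAt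
  refine hasGradientAt_iff_hasFDerivAt.2 (h1.congr_fderiv ?_)
  ext1 v
  rw [InnerProductSpace.toDual_apply_apply]
  exact (inner_hsMap _ v).symm

lemma norm_grd (φ : EE d → ℝ) (x : EE d) : ‖grd φ x‖ = hsn (fderiv ℝ φ x) := (hsn_eq _).symm

lemma BC_grd {φ : EE d → ℝ} (hφ : BD φ) : BC (grd φ) := hφ.2.2.clm (hsMap ℝ)

lemma grd_Gs {φ : EE d → ℝ} (hφ : BD φ) (s : ℝ) : grd (Gs s φ) = Gs s (grd φ) := by
  funext x
  rw [grd, Gs_D hφ, ← (hsMap ℝ).integral_comp_comm (int_shift hφ.2.2 s x)]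
  rfl

/-- The commutator of the gradient and the reference kernel. -/
noncomputable def err (g : EE d → EE d) (η h : ℝ) (N : ℕ) (φ : EE d → ℝ) (y : EE d) : EE d :=
  grd (Rv g η h N φ) y - Rv g η h N (grd φ) y

lemma err_BC (ok : Ok g η h N) {φ : EE d → ℝ} (hφ : BD φ) : BC (err g η h N φ) :=
  (BC_grd (Rv_BD ok hφ)).sub (Rv_BC ok (BC_grd hφ))

lemma err_le (ok : Ok g η h N) {φ : EE d → ℝ} (hφ : BD φ) {B : ℝ}
    (hB : ∀ u, ‖grd φ u‖ ≤ B) (y : EE d) : ‖err g η h N φ y‖ ≤ 2 * η * B := by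
  have hi := ((BC_DzJ ok hφ).comp (continuous_const.prodMk continuous_id)
    (Y := Path d N) (Z := fun ω => (y, ω))).integrable (pgam d N)
  rw [err, grd, (Rv_hasFDerivAt ok hφ y).fderiv, ← (hsMap ℝ).integral_comp_comm hi, Rv,
    ← integral_sub ((hsMap ℝ).integrable_comp hi) (int_z ok (BC_grd hφ) y)]
  refine norm_integral_le_const _ fun ω => ?_
  set D := fderiv ℝ φ (zchain g η h N y N ω)
  have e : hsMap ℝ (D ∘L zJ g η h N y N ω) - grd φ (zchain g η h N y N ω) =
      hsMap ℝ (D ∘L (zJ g η h N y N ω - ContinuousLinearMap.id ℝ (EE d))) := by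
    rw [ContinuousLinearMap.comp_sub, map_sub, ContinuousLinearMap.comp_id]
    rfl
  rw [e, ← hsn_eq]
  refine (hsn_comp_le _ _).trans ?_
  rw [mul_comm (2 * η)]
  have hD : hsn D ≤ B := by
    rw [← norm_grd]; exact hB _
  exact mul_le_mul hD (norm_J_sub_le ok y ω N) (norm_nonneg _)
    ((norm_nonneg _).trans (hB 0))

/-- One step of the Duhamel expansion. -/
lemma grd_Mv (ok : Ok g η h N) {φ : EE d → ℝ} (hφ : BD φ) :
    grd (Mv g η h N φ) = fun x => Mv g η h N (grd φ) x + Gs η (err g η h N φ) x := by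
  funext x
  rw [Mv, grd_Gs (Rv_BD ok hφ)]
  simp only [Mv, Gs]
  rw [← integral_add (int_shift (Rv_BC ok (BC_grd hφ)) η x) (int_shift (err_BC ok hφ) η x)]
  simp [err]

lemma sum_inv_sqrt_le : ∀ k : ℕ,
    ∑ i ∈ Finset.range k, 1 / Real.sqrt (i + 1) ≤ 2 * Real.sqrt k
  | 0 => by simp
  | k + 1 => by
    rw [Finset.sum_range_succ]
    refine (add_le_add_left (sum_inv_sqrt_le k) _).trans ?_
    have h1 : (0 : ℝ) < Real.sqrt ((k : ℝ) + 1) := Real.sqrt_pos.2 (by positivity)
    have h2 := Real.sq_sqrt (show (0 : ℝ) ≤ (k : ℝ) + 1 by positivity)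
    have h3 := Real.sq_sqrt (show (0 : ℝ) ≤ (k : ℝ) by positivity)
    have h4 := sq_nonneg (Real.sqrt ((k : ℝ) + 1) - Real.sqrt k)
    push_cast
    rw [← le_sub_iff_add_le', div_le_iff₀ h1]
    nlinarith

/-- The Duhamel expansion of the second derivative. -/
lemma duhamel (ok : Ok g η h N) {f : EE d → ℝ} (hf : BD f)
    (hf2 : BD (grd f)) {B : ℝ} {m : ℕ}
    (hB : ∀ j, m ≤ j → ∀ u, ‖grd ((Mv g η h N)^[j] f) u‖ ≤ B) :
    (∀ j, BD (grd ((Mv g η h N)^[j] f))) ∧ ∀ (k m' : ℕ), m ≤ m' → ∀ x,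
      hsn (fderiv ℝ (fun u => grd ((Mv g η h N)^[m' + k] f) u -
        (Mv g η h N)^[k] (grd ((Mv g η h N)^[m'] f)) u) x) ≤
        2 * η * B / Real.sqrt η * ∑ i ∈ Finset.range k, 1 / Real.sqrt (i + 1) := by
  have hBD : ∀ j, BD (grd ((Mv g η h N)^[j] f)) := by
    intro j
    cases j with
    | zero => exact hf2
    | succ j =>
      rw [Function.iterate_succ_apply', Mv, grd_Gs (Rv_BD ok (Mv_iter_BD ok hf j))]
      have hb := BC_grd (Rv_BD ok (Mv_iter_BD ok hf j))
      exact (gs_smooth hb ok.eta_pos (Classical.choose_spec hb.2)).1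
  refine ⟨hBD, fun k => ?_⟩
  induction k with
  | zero => intro m' _ x; simp [hsn]
  | succ k ih =>
    intro m' hm x
    set φ := (Mv g η h N)^[m'] f with hφdef
    have hφ : BD φ := Mv_iter_BD ok hf m'
    have he := err_BC ok hφ
    have heb := err_le ok hφ (hB m' hm)
    have hgs := (gs_smooth he ok.eta_pos heb).1
    set X := fun u => grd ((Mv g η h N)^[m' + 1 + k] f) u -
      (Mv g η h N)^[k] (grd ((Mv g η h N)^[m' + 1] f)) u with hX
    set Y := (Mv g η h N)^[k] (Gs η (err g η h N φ)) with hY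
    have e : (fun u => grd ((Mv g η h N)^[m' + (k + 1)] f) u -
        (Mv g η h N)^[k + 1] (grd φ) u) = fun u => X u + Y u := by
      funext u
      have e1 : (Mv g η h N)^[m' + 1] f = Mv g η h N φ := Function.iterate_succ_apply' _ _ _
      have e2 := congrFun
        (Mv_iter_add ok (Mv_BC ok (BC_grd hφ)) (Gs_BC he η) k) u
      simp only [hX, hY, e1, grd_Mv ok hφ, e2, Function.iterate_succ_apply]
      rw [show m' + 1 + k = m' + (k + 1) by ring]
      abel
    have dX : DifferentiableAt ℝ X x :=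
      ((hBD _).1.differentiable one_ne_zero x).sub
        ((Mv_iter_BD ok (hBD _) k).1.differentiable one_ne_zero x)
    have dY : DifferentiableAt ℝ Y x := (Mv_iter_BD ok hgs k).1.differentiable one_ne_zero x
    rw [e, fderiv_fun_add dX dY, Finset.sum_range_succ, mul_add]
    refine (ch_hsn_add_le _ _).trans (add_le_add (ih (m' + 1) (by omega) x) ?_)
    refine (smoothing_blur ok he heb k x).trans (le_of_eq ?_)
    rw [Real.sqrt_mul ok.eta_pos.le]
    field_simp

end Chain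

open Chain in
theorem tests_iterate :
    ∃ C : ℝ, 0 < C ∧ ∀ (d : ℕ) (g : EE d → EE d) (η h s : ℝ) (N : ℕ) (ψ : EE d → ℝ),
      GradClass g → 0 < η → η ≤ 1 / 16 → 0 < h → h ≤ η / 4 → 8 ≤ h * N →
      η / 4 ≤ s → s ≤ η → Continuous ψ → (∀ x, |ψ x| ≤ 1) → ∀ j : ℕ,
        (∀ x, |(Mop g η h N)^[j] (Gs s ψ) x| ≤ 1) ∧
        ∃ Ψ : EE d → EE d,
          Test ((Mop g η h N)^[j] (Gs s ψ)) Ψ
            (C / Real.sqrt (η * (j + 1))) (C / (η * (j + 1)) + C) ∧
          ∀ x, ‖Ψ x‖ ≤ C / Real.sqrt η * (1 - η / 4) ^ j := by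
  refine ⟨9, by norm_num, ?_⟩
  intro d g η h s N ψ hg hη hη' hh hh' hL hs hs' hψ hψ1 j
  have ok : Ok g η h N := ⟨hg, hη, hη', hh, hh', hL⟩
  have hs0 : 0 < s := by linarith
  have hψb : BC ψ := ⟨hψ, 1, fun x => by simpa [Real.norm_eq_abs] using hψ1 x⟩
  have hψn : ∀ x, ‖ψ x‖ ≤ 1 := fun x => by simpa [Real.norm_eq_abs] using hψ1 x
  obtain ⟨hf, hf1⟩ := gs_smooth hψb hs0 hψn
  set f := Gs s ψ with hfdef
  have hsqrt : Real.sqrt η ≤ 2 * Real.sqrt s := by
    rw [show (2 : ℝ) * Real.sqrt s = Real.sqrt (4 * s) by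
      rw [Real.sqrt_mul (by norm_num), show (4 : ℝ) = 2 ^ 2 by norm_num,
        Real.sqrt_sq (by norm_num)]]
    exact Real.sqrt_le_sqrt (by linarith)
  have hrs : 0 < Real.sqrt s := Real.sqrt_pos.2 hs0
  have hre : 0 < Real.sqrt η := Real.sqrt_pos.2 hη
  have hbd : ∀ k, BD ((Mv g η h N)^[k] f) := Mv_iter_BD ok hf
  have hone : ∀ k x, ‖(Mv g η h N)^[k] f x‖ ≤ 1 := by
    intro k
    induction k with
    | zero => exact Gs_bound hψn s
    | succ k ih =>
      rw [Function.iterate_succ_apply']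
      exact fun x => Gs_bound (Rv_bound ih) η x
  -- contraction
  have hcon : ∀ k x, ‖grd ((Mv g η h N)^[k] f) x‖ ≤ 2 / Real.sqrt η * (1 - η / 2) ^ k := by
    intro k
    induction k with
    | zero =>
      intro x
      rw [norm_grd, pow_zero, mul_one]
      refine (hf1 x).trans ?_
      rw [div_le_div_iff₀ hrs hre]
      linarith
    | succ k ih =>
      intro x
      rw [norm_grd, Function.iterate_succ_apply']
      refine (hsn_DMv_le ok (hbd k) x).trans ?_
      rw [pow_succ, ← mul_assoc, mul_comm _ (1 - η / 2)]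
      refine mul_le_mul_of_nonneg_left ((le_abs_self _).trans ?_) (by linarith)
      rw [← Real.norm_eq_abs]
      refine Gs_bound (Rv_bound fun u => ?_) η x
      rw [Real.norm_eq_abs, abs_of_nonneg (ch_hsn_nonneg _), ← norm_grd]
      exact ih u
  -- smoothing
  have hsm : ∀ k x, ‖grd ((Mv g η h N)^[k] f) x‖ ≤ 2 / Real.sqrt (η * (k + 1)) := by
    intro k x
    rcases Nat.eq_zero_or_pos k with hk | hk
    · subst hk
      simpa using hcon 0 x
    · have h1 := smoothing ok hf (Φ := fun u => ‖f u‖ ^ 2) hf.2.1.norm_sq (K := 1)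
        (fun u => pow_le_one₀ (norm_nonneg _) (hone 0 u)) le_rfl (fun u => by simp) k x
      rw [norm_grd]
      refine le_of_pow_le_pow_left₀ two_ne_zero (by positivity) ?_
      rw [div_pow, Real.sq_sqrt (by positivity), le_div_iff₀ (by positivity)]
      have h2 : (1 : ℝ) ≤ k := by exact_mod_cast hk
      have h3 := sq_nonneg (hsn (fderiv ℝ ((Mv g η h N)^[k] f) x))
      nlinarith [mul_nonneg (mul_nonneg (sub_nonneg.2 h2) hη.le) h3]
  -- the initial second derivative
  have hhalf : (0 : ℝ) < s / 2 := by linarith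
  obtain ⟨hf0, hf01⟩ := gs_smooth hψb hhalf hψn
  have hf0e : f = Gs (s / 2) (Gs (s / 2) ψ) := by
    funext x
    rw [gs_gs hhalf.le hhalf.le ψ hψ hψn x, add_halves]
  have hgf : BD (grd f) ∧ ∀ x, hsn (fderiv ℝ (grd f) x) ≤
      1 / Real.sqrt (s / 2) / Real.sqrt (s / 2) := by
    rw [hf0e, grd_Gs hf0]
    exact gs_smooth (BC_grd hf0) hhalf (fun x => by rw [norm_grd]; exact hf01 x)
  obtain ⟨hBDg, hduh⟩ := duhamel ok hf hgf.1 (m := j / 2)
    (B := 2 / Real.sqrt (η * ((j / 2 : ℕ) + 1))) (fun i hi u => (hsm i u).trans (by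
      gcongr))
  have hhess : ∀ x, hsn (fderiv ℝ (grd ((Mv g η h N)^[j] f)) x) ≤ 9 / (η * (j + 1)) + 9 := by
    intro x
    rcases Nat.eq_zero_or_pos j with hj | hj
    · subst hj
      refine (hgf.2 x).trans ?_
      rw [div_div, Real.mul_self_sqrt hhalf.le]
      have : 1 / (s / 2) ≤ 9 / η := by
        rw [div_le_div_iff₀ hhalf hη]; linarith
      simp only [Nat.cast_zero, zero_add, mul_one]
      linarith
    · set m := j / 2 with hmdef
      set k := j - m with hkdef
      have hmk : m + k = j := by omega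
      have hkm : (k : ℝ) ≤ m + 1 := by exact_mod_cast (show k ≤ m + 1 by omega)
      have hk4 : (j : ℝ) + 1 ≤ 4 * k := by exact_mod_cast (show j + 1 ≤ 4 * k by omega)
      set B := 2 / Real.sqrt (η * ((m : ℝ) + 1)) with hBdef
      have hmain := smoothing ok (hBDg m) (Φ := fun u => ‖grd ((Mv g η h N)^[m] f) u‖ ^ 2)
        (hBDg m).2.1.norm_sq (K := B ^ 2)
        (fun u => pow_le_pow_left₀ (norm_nonneg _) (hsm m u) 2) le_rfl (fun u => by simp) k x
      have hd := hduh k m le_rfl x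
      rw [hmk] at hd
      have dA := (hBDg j).1.differentiable one_ne_zero x
      have dB := (Mv_iter_BD ok (hBDg m) k).1.differentiable one_ne_zero x
      rw [fderiv_fun_sub dA dB] at hd
      have htri := ch_hsn_add_le
        (fderiv ℝ (grd ((Mv g η h N)^[j] f)) x
          - fderiv ℝ ((Mv g η h N)^[k] (grd ((Mv g η h N)^[m] f))) x)
        (fderiv ℝ ((Mv g η h N)^[k] (grd ((Mv g η h N)^[m] f))) x)
      rw [sub_add_cancel] at htri
      have hm0 : (0 : ℝ) < (m : ℝ) + 1 := by positivity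
      have hB0 : 0 ≤ B := by positivity
      have hk0 : (0 : ℝ) < k := by
        have : (0 : ℝ) ≤ j := Nat.cast_nonneg j
        linarith
      have h1 : hsn (fderiv ℝ ((Mv g η h N)^[k] (grd ((Mv g η h N)^[m] f))) x) ≤
          9 / (η * (j + 1)) := by
        refine le_of_pow_le_pow_left₀ two_ne_zero (by positivity) ?_
        rw [zero_add] at hmain
        refine ((le_div_iff₀' (mul_pos hk0 hη)).2 hmain).trans ?_
        rw [hBdef, div_pow, Real.sq_sqrt (by positivity), div_pow, div_div,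
          div_le_div_iff₀ (by positivity) (by positivity)]
        have : ((j : ℝ) + 1) ^ 2 ≤ 16 * ((m + 1) * k) := by nlinarith
        nlinarith [mul_le_mul_of_nonneg_left this (sq_nonneg η)]
      have h2 : 2 * η * B / Real.sqrt η * ∑ i ∈ Finset.range k, 1 / Real.sqrt (i + 1) ≤ 9 := by
        refine (mul_le_mul_of_nonneg_left (sum_inv_sqrt_le k) (by positivity)).trans ?_
        have e : 2 * η * B / Real.sqrt η * (2 * Real.sqrt k) =
            8 * (Real.sqrt k / Real.sqrt ((m : ℝ) + 1)) := by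
          rw [hBdef, Real.sqrt_mul hη.le]
          field_simp
          rw [Real.sq_sqrt hη.le]
          ring
        rw [e]
        have : Real.sqrt k / Real.sqrt ((m : ℝ) + 1) ≤ 1 :=
          (div_le_one (Real.sqrt_pos.2 hm0)).2 (Real.sqrt_le_sqrt hkm)
        linarith
      linarith
  refine ⟨fun x => by rw [← Real.norm_eq_abs]; exact hone j x, grd ((Mv g η h N)^[j] f),
    ⟨hasGradientAt_grd (hbd j), (hBDg j).1, fun x => ?_, hhess⟩, fun x => ?_⟩
  · refine (hsm j x).trans ?_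
    gcongr
    norm_num
  · refine (hcon j x).trans ?_
    have : 0 ≤ 1 - η / 2 := by linarith
    gcongr
    · norm_num
    · linarith

end Vale.Agent.P347
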