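import Mathlib

/-!
The query model of P347: randomised adaptive algorithms with an exact first-order oracle.
-/

open MeasureTheory Filter
open scoped RealInnerProductSpace

namespace Vale.Agent.P347

/-- The space ℝ^d. -/
abbrev EE (d : ℕ) := EuclideanSpace ℝ (Fin d)

/-- The Hessian form of V at x in direction v: the derivative along v of the derivative
along v. -/
noncomputable def hess {d : ℕ} (V : EE d → ℝ) (x v : EE d) : ℝ :=
  fderiv ℝ (fun y => fderiv ℝ V y v) x v

/-- The class of potentials: C², zero value and gradient at 0, Hessian between I and 2I. -/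
def Admissible {d : ℕ} (V : EE d → ℝ) : Prop :=
  ContDiff ℝ 2 V ∧ V 0 = 0 ∧ gradient V 0 = 0 ∧
    ∀ x v : EE d, ‖v‖ ^ 2 ≤ hess V x v ∧ hess V x v ≤ 2 * ‖v‖ ^ 2

/-- The Gibbs law of V. -/
noncomputable def gibbs {d : ℕ} (V : EE d → ℝ) : Measure (EE d) :=
  (∫⁻ x, ENNReal.ofReal (Real.exp (-V x)))⁻¹ •
    (volume.withDensity fun x => ENNReal.ofReal (Real.exp (-V x)))

/-- The random numbers of an algorithm. -/
abbrev Rand := ℕ → ℝ

/-- The oracle answers to the first i queries, when query j is asked at `ask j` of the random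
numbers and the earlier answers. -/
noncomputable def transcript {d : ℕ} (V : EE d → ℝ)
    (ask : (i : ℕ) → Rand → (Fin i → ℝ × EE d) → EE d) (ω : Rand) :
    (i : ℕ) → Fin i → ℝ × EE d
  | 0 => Fin.elim0
  | i + 1 =>
      Fin.snoc (transcript V ask ω i)
        (V (ask i ω (transcript V ask ω i)), gradient V (ask i ω (transcript V ask ω i)))

/-- `Samples d q`: some algorithm making q queries outputs, for every admissible V, a point
within total variation 1/10 of the Gibbs law. -/
def Samples (d q : ℕ) : Prop :=
  ∃ (μ : Measure Rand) (ask : (i : ℕ) → Rand → (Fin i → ℝ × EE d) → EE d)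
    (out : Rand → (Fin q → ℝ × EE d) → EE d),
    IsProbabilityMeasure μ ∧
    (∀ i, Measurable fun p : Rand × (Fin i → ℝ × EE d) => ask i p.1 p.2) ∧
    (Measurable fun p : Rand × (Fin q → ℝ × EE d) => out p.1 p.2) ∧
    ∀ V : EE d → ℝ, Admissible V → ∀ B : Set (EE d), MeasurableSet B →
      |(μ {ω | out ω (transcript V ask ω q) ∈ B}).toReal - (gibbs V B).toReal| ≤ 1 / 10

/-- The least sufficient number of queries. -/
noncomputable def queryCount (d : ℕ) : ℕ := sInf {q | Samples d q}

/-- The dimension exponent. -/
noncomputable def gammaStar : EReal :=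
  limsup (fun d : ℕ => ((Real.log (queryCount d) / Real.log d : ℝ) : EReal)) atTop

end Vale.Agent.P347
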