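import Mathlib
import Vale.Agent.P347.Model

/-!
Objects of the proof of `gammaStar ≤ 1/4` (note 865): linearised paths, the proximal reference
chain, the randomised kernel and its parameters.
-/

open MeasureTheory ProbabilityTheory
open scoped RealInnerProductSpace

namespace Vale.Agent.P347

variable {d : ℕ}

/-- The standard Gaussian measure on ℝ^d. -/
noncomputable abbrev gam (d : ℕ) : Measure (EE d) := stdGaussian (EE d)

/-- Hilbert-Schmidt norm of an operator on ℝ^d. -/
noncomputable def hsn {G : Type*} [NormedAddCommGroup G] [InnerProductSpace ℝ G]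
    (B : EE d →L[ℝ] G) : ℝ :=
  Real.sqrt (∑ i : Fin d, ‖B (EuclideanSpace.single i (1 : ℝ))‖ ^ 2)

/-- Gradient fields of the class. -/
structure GradClass (g : EE d → EE d) : Prop where
  smooth : ContDiff ℝ 1 g
  zero : g 0 = 0
  symm : ∀ x u v, ⟪fderiv ℝ g x u, v⟫ = ⟪u, fderiv ℝ g x v⟫
  lower : ∀ x v, ‖v‖ ^ 2 ≤ ⟪fderiv ℝ g x v, v⟫
  upper : ∀ x v, ⟪fderiv ℝ g x v, v⟫ ≤ 2 * ‖v‖ ^ 2

/-- Test function with gradient Ψ bounded by b and Hessian bounded by a in Hilbert-Schmidt norm. -/
structure Test (φ : EE d → ℝ) (Ψ : EE d → EE d) (b a : ℝ) : Prop where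
  grad : ∀ x, HasGradientAt φ (Ψ x) x
  smooth : ContDiff ℝ 1 Ψ
  bound : ∀ x, ‖Ψ x‖ ≤ b
  hess : ∀ x, hsn (fderiv ℝ Ψ x) ≤ a

/-- Gaussian inputs of a path of N steps. -/
abbrev Path (d N : ℕ) := PiLp 2 (fun _ : Fin (N + 1) => EE d)

/-- The standard Gaussian measure on paths. -/
noncomputable abbrev pgam (d N : ℕ) : Measure (Path d N) := stdGaussian (Path d N)

/-- Coordinate k of a path, zero outside the range. -/
noncomputable def inp (d N k : ℕ) : Path d N →L[ℝ] EE d :=
  if hk : k < N + 1 then PiLp.proj 2 (fun _ : Fin (N + 1) => EE d) ⟨k, hk⟩ else 0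

/-- The noise level of a step of size h. -/
noncomputable def beta (h : ℝ) : ℝ := Real.sqrt (1 - (1 - h) ^ 2)

/-- The stationary autoregressive path. -/
noncomputable def pathW (d N : ℕ) (h : ℝ) : ℕ → Path d N →L[ℝ] EE d
  | 0 => inp d N 0
  | k + 1 => (1 - h) • pathW d N h k + beta h • inp d N (k + 1)

/-- The fine chain for the proximal target at y. -/
noncomputable def zchain (g : EE d → EE d) (η h : ℝ) (N : ℕ) (y : EE d) :
    ℕ → Path d N → EE d
  | 0, ω => y + Real.sqrt η • inp d N 0 ω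
  | k + 1, ω =>
      zchain g η h N y k ω - h • (zchain g η h N y k ω - y + η • g (zchain g η h N y k ω))
        + (Real.sqrt η * beta h) • inp d N (k + 1) ω

/-- The reference proximal kernel applied to φ. -/
noncomputable def Rop (g : EE d → EE d) (η h : ℝ) (N : ℕ) (φ : EE d → ℝ) (y : EE d) : ℝ :=
  ∫ ω, φ (zchain g η h N y N ω) ∂pgam d N

/-- Gaussian smoothing at variance s. -/
noncomputable def Gs {G : Type*} [NormedAddCommGroup G] [NormedSpace ℝ G] (s : ℝ) (v : EE d → G)
    (x : EE d) : G :=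
  ∫ ξ, v (x + Real.sqrt s • ξ) ∂gam d

/-- One exact outer step: blur, then the reference kernel. -/
noncomputable def Mop (g : EE d → EE d) (η h : ℝ) (N : ℕ) (φ : EE d → ℝ) : EE d → ℝ :=
  Gs η (Rop g η h N φ)

/-- The normalised drift around a centre c. -/
noncomputable def ghat (g : EE d → EE d) (η : ℝ) (y c x : EE d) : EE d :=
  Real.sqrt η • g (c + Real.sqrt η • x) + (Real.sqrt η)⁻¹ • (c - y)

/-- The approximate centre. -/
noncomputable def centre (g : EE d → EE d) (η : ℝ) (n : ℕ) (y : EE d) : EE d :=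
  (fun c => y - η • g c)^[n] y

/-- Parameters of the kernel. -/
structure Params where
  eta : ℝ
  h : ℝ
  N : ℕ
  m : ℕ
  n : ℕ
  q : ℕ
  node : Fin q → ℕ
  w : Fin q → ℝ

/-- The quadrature of f along the path. -/
noncomputable def Asum (P : Params) (f : EE d → EE d) (ω : Path d P.N) : EE d :=
  ∑ j, P.w j • f (pathW d P.N P.h (P.node j) ω)

/-- The full fine sum of f along the path, total weight one. -/
noncomputable def Bsum (P : Params) (f : EE d → EE d) (ω : Path d P.N) : EE d :=
  (∑ k ∈ Finset.range P.N, (P.h * (1 - P.h) ^ (P.N - 1 - k)) • f (pathW d P.N P.h k ω))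
    + (1 - P.h) ^ P.N • f (pathW d P.N P.h 0 ω)

/-- A path conditioned to end at x, built from an unconditioned one. -/
noncomputable def bridge (d N : ℕ) (h : ℝ) (x : EE d) (ω : Path d N) : Path d N :=
  ω + ContinuousLinearMap.adjoint (pathW d N h N) (x - pathW d N h N ω)

/-- Conditional expectation of the quadrature given the end point. -/
noncomputable def Abar (P : Params) (f : EE d → EE d) (x : EE d) : EE d :=
  ∫ ω, Asum P f (bridge d P.N P.h x ω) ∂pgam d P.N

/-- Conditional expectation of the fine sum given the end point. -/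
noncomputable def Bbar (P : Params) (f : EE d → EE d) (x : EE d) : EE d :=
  ∫ ω, Bsum P f (bridge d P.N P.h x ω) ∂pgam d P.N

/-- The mean correction, from an independent path and one more Gaussian. -/
noncomputable def Scorr (P : Params) (f : EE d → EE d) (ω : Path d P.N) (ξ : EE d) : EE d :=
  f ((1 - P.h) ^ P.m • (pathW d P.N P.h P.N ω - Asum P f ω)
      + Real.sqrt (1 - (1 - P.h) ^ (2 * P.m)) • ξ)
    - f ((1 - P.h) ^ P.m • pathW d P.N P.h P.N ω
      + Real.sqrt (1 - (1 - P.h) ^ (2 * P.m)) • ξ)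

/-- The randomness of one kernel step. -/
abbrev KRand (d N : ℕ) := Path d N × (Path d N × EE d)

/-- The law of the randomness of one kernel step. -/
noncomputable abbrev kgam (d N : ℕ) : Measure (KRand d N) :=
  (pgam d N).prod ((pgam d N).prod (gam d))

/-- The algorithm's kernel. -/
noncomputable def kern (g : EE d → EE d) (P : Params) (y : EE d) (ω : KRand d P.N) : EE d :=
  centre g P.eta P.n y + Real.sqrt P.eta •
    (pathW d P.N P.h P.N ω.1 - Asum P (ghat g P.eta y (centre g P.eta P.n y)) ω.1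
      - Scorr P (ghat g P.eta y (centre g P.eta P.n y)) ω.2.1 ω.2.2)

/-- Admissible parameters, with total absolute weight at most Cw and quadrature quality δ. -/
structure Params.Good (P : Params) (d : ℕ) (Cw δ : ℝ) : Prop where
  eta_pos : 0 < P.eta
  eta_le : P.eta ≤ 1 / 16
  h_pos : 0 < P.h
  h_le : P.h ≤ P.eta / 4
  m_le : P.m * P.h ≤ P.eta
  m_ge : P.eta / 2 ≤ P.m * P.h
  m_N : P.m ≤ P.N
  long : 8 ≤ P.h * P.N
  node_le : ∀ j, P.node j ≤ P.N
  w_sum : ∑ j, P.w j = 1
  w_abs : ∑ j, |P.w j| ≤ Cw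
  quad : ∀ (f : EE d → EE d) (L : ℝ), 0 ≤ L → (∀ x z, ‖f x - f z‖ ≤ L * ‖x - z‖) →
    ∫ x, ‖Abar P f x - Bbar P f x‖ ^ 2 ∂gam d ≤ (δ * (L * Real.sqrt d + ‖f 0‖)) ^ 2

end Vale.Agent.P347
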