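import Vale.Agent.P347.Defs

/-!
Module 1 (tools): Gaussian laws of linear images, Poincare bounds by rotation, smoothing with
the Bessel bound, autoregressive paths and bridges.
-/

open MeasureTheory ProbabilityTheory Filter
open scoped RealInnerProductSpace Topology

namespace Vale.Agent.P347

set_option linter.unusedSectionVars false

variable {d N : ℕ}
  {G H : Type*} [NormedAddCommGroup G] [InnerProductSpace ℝ G] [FiniteDimensional ℝ G]
  [MeasurableSpace G] [BorelSpace G]
  [NormedAddCommGroup H] [InnerProductSpace ℝ H] [FiniteDimensional ℝ H]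
  [MeasurableSpace H] [BorelSpace H]

lemma map_coisometry (T : G →L[ℝ] H) (hT : T ∘L ContinuousLinearMap.adjoint T = .id ℝ H) :
    (stdGaussian G).map T = stdGaussian H := by
  refine Measure.ext_of_charFun ?_
  funext t
  have h1 : ∀ x : G, ⟪T x, t⟫ = ⟪x, ContinuousLinearMap.adjoint T t⟫ := fun x =>
    (ContinuousLinearMap.adjoint_inner_right T x t).symm
  have h2 : ‖ContinuousLinearMap.adjoint T t‖ ^ 2 = ‖t‖ ^ 2 := by
    rw [← real_inner_self_eq_norm_sq, ← real_inner_self_eq_norm_sq,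
      ContinuousLinearMap.adjoint_inner_right,
      show T (ContinuousLinearMap.adjoint T t) = t from DFunLike.congr_fun hT t]
  rw [charFun_apply, integral_map (by fun_prop) (by fun_prop)]
  simp_rw [h1]
  rw [← charFun_apply, charFun_stdGaussian, charFun_stdGaussian, ← Complex.ofReal_pow, h2,
    Complex.ofReal_pow]

lemma map_prod_coisometry {K : Type*} [NormedAddCommGroup K] [InnerProductSpace ℝ K]
    [FiniteDimensional ℝ K] [MeasurableSpace K] [BorelSpace K]
    (T : G →L[ℝ] K) (U : H →L[ℝ] K)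
    (hTU : T ∘L ContinuousLinearMap.adjoint T + U ∘L ContinuousLinearMap.adjoint U = .id ℝ K) :
    ((stdGaussian G).prod (stdGaussian H)).map (fun p => T p.1 + U p.2) = stdGaussian K := by
  refine Measure.ext_of_charFun ?_
  funext t
  have h1 : ∀ x : G, ⟪T x, t⟫ = ⟪x, ContinuousLinearMap.adjoint T t⟫ := fun x =>
    (ContinuousLinearMap.adjoint_inner_right T x t).symm
  have h1' : ∀ x : H, ⟪U x, t⟫ = ⟪x, ContinuousLinearMap.adjoint U t⟫ := fun x =>
    (ContinuousLinearMap.adjoint_inner_right U x t).symm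
  have h2 : ‖ContinuousLinearMap.adjoint T t‖ ^ 2 + ‖ContinuousLinearMap.adjoint U t‖ ^ 2
      = ‖t‖ ^ 2 := by
    have h := DFunLike.congr_fun hTU t
    simp only [ContinuousLinearMap.id_apply] at h
    rw [← real_inner_self_eq_norm_sq, ← real_inner_self_eq_norm_sq, ← real_inner_self_eq_norm_sq,
      ContinuousLinearMap.adjoint_inner_right, ContinuousLinearMap.adjoint_inner_right,
      ← inner_add_left]
    exact congrArg (fun z => ⟪z, t⟫) h
  rw [charFun_apply, integral_map (by fun_prop) (by fun_prop)]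
  simp_rw [inner_add_left, h1, h1', Complex.ofReal_add, add_mul, Complex.exp_add]
  rw [integral_prod_mul (fun x : G => Complex.exp (⟪x, ContinuousLinearMap.adjoint T t⟫ * Complex.I))
    (fun y : H => Complex.exp (⟪y, ContinuousLinearMap.adjoint U t⟫ * Complex.I)),
    ← charFun_apply, ← charFun_apply, charFun_stdGaussian, charFun_stdGaussian,
    charFun_stdGaussian, ← Complex.exp_add, ← Complex.ofReal_pow, ← Complex.ofReal_pow,
    ← Complex.ofReal_pow, ← h2, Complex.ofReal_add]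
  ring_nf

lemma memLp_of_lipschitz (F : G → EE d) (L : NNReal) (hF : LipschitzWith L F) :
    MemLp F 2 (stdGaussian G) := by
  have hid : MemLp (fun x : G => x) 2 (stdGaussian G) :=
    IsGaussian.memLp_id _ 2 (by norm_num)
  have hg : MemLp (fun x : G => ‖F 0‖ + (L : ℝ) * ‖x‖) 2 (stdGaussian G) :=
    MemLp.add (memLp_const (‖F 0‖)) (hid.norm.const_mul (L : ℝ))
  refine hg.of_le hF.continuous.aestronglyMeasurable (Eventually.of_forall fun x => ?_)
  rw [Real.norm_eq_abs, abs_of_nonneg (by positivity)]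
  have h := hF.norm_sub_le x 0
  rw [sub_zero] at h
  linarith [norm_le_insert' (F x) (F 0)]

lemma integral_inner_sq (v : G) : ∫ ω : G, ⟪v, ω⟫ ^ 2 ∂stdGaussian G = ‖v‖ ^ 2 := by
  have h := variance_dual_stdGaussian (E := G) (innerSL ℝ v)
  rw [variance_of_integral_eq_zero (by fun_prop) (integral_strongDual_stdGaussian _),
    innerSL_apply_norm] at h
  simpa using h

lemma integrable_inner_sq (v : G) : Integrable (fun ω : G => ⟪v, ω⟫ ^ 2) (stdGaussian G) :=
  (IsGaussian.memLp_dual (stdGaussian G) (innerSL ℝ v) 2 (by norm_num)).integrable_sq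

lemma second_moment (G : Type*) [NormedAddCommGroup G] [InnerProductSpace ℝ G]
    [FiniteDimensional ℝ G] [MeasurableSpace G] [BorelSpace G] :
    ∫ ω : G, ‖ω‖ ^ 2 ∂stdGaussian G = Module.finrank ℝ G := by
  simp_rw [← (stdOrthonormalBasis ℝ G).sum_sq_inner_right]
  rw [integral_finsetSum _ fun i _ => integrable_inner_sq _]
  simp [integral_inner_sq]

/-- The mean square of a linear image of a standard Gaussian. -/
lemma integral_apply_sq (B : G →L[ℝ] EE d) :
    ∫ ω, ‖B ω‖ ^ 2 ∂stdGaussian G =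
      ∑ i, ‖ContinuousLinearMap.adjoint B (EuclideanSpace.basisFun (Fin d) ℝ i)‖ ^ 2 := by
  simp_rw [← (EuclideanSpace.basisFun (Fin d) ℝ).sum_sq_inner_right (B _),
    ← ContinuousLinearMap.adjoint_inner_left]
  rw [integral_finsetSum _ fun i _ => integrable_inner_sq _]
  simp [integral_inner_sq]

lemma hsn_sq_adjoint (A : EE d →L[ℝ] EE d) :
    hsn A ^ 2 =
      ∑ i, ‖ContinuousLinearMap.adjoint A (EuclideanSpace.basisFun (Fin d) ℝ i)‖ ^ 2 := by
  rw [hsn, Real.sq_sqrt (by positivity)]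
  simp_rw [← (EuclideanSpace.basisFun (Fin d) ℝ).sum_sq_inner_right]
  rw [Finset.sum_comm]
  refine Finset.sum_congr rfl fun i _ => Finset.sum_congr rfl fun j _ => ?_
  rw [ContinuousLinearMap.adjoint_inner_right, EuclideanSpace.basisFun_apply,
    EuclideanSpace.basisFun_apply, real_inner_comm]

/-- Gaussian Poincare inequality in its rotation form. -/
lemma var_le_deriv_sq (F : G → EE d) (L K : ℝ) (hF : ContDiff ℝ 1 F)
    (hL : ∀ ω, ‖fderiv ℝ F ω‖ ≤ L)
    (hK : ∀ ω, ∫ v, ‖fderiv ℝ F ω v‖ ^ 2 ∂stdGaussian G ≤ K) :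
    ∫ ω, ‖F ω - ∫ ω', F ω' ∂stdGaussian G‖ ^ 2 ∂stdGaussian G ≤ 2 * K := by
  set γ := stdGaussian G with hγ
  have hL0 : 0 ≤ L := le_trans (norm_nonneg _) (hL 0)
  have hlip : LipschitzWith L.toNNReal F :=
    lipschitzWith_of_nnnorm_fderiv_le (hF.differentiable one_ne_zero)
      (fun x => by rw [← NNReal.coe_le_coe, coe_nnnorm, Real.coe_toNNReal _ hL0]; exact hL x)
  have hlip' : ∀ x y, ‖F x - F y‖ ≤ L * ‖x - y‖ := fun x y => by
    have h := hlip.norm_sub_le x y
    rwa [Real.coe_toNNReal _ hL0] at h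
  have hFc := hlip.continuous
  have hMem : MemLp F 2 γ := memLp_of_lipschitz F _ hlip
  have hid : MemLp (fun x : G => x) 2 γ := IsGaussian.memLp_id _ 2 (by norm_num)
  have hbd : Integrable (fun p : G × G => (L * (‖p.1‖ + ‖p.2‖)) ^ 2) (γ.prod γ) :=
    (((hid.norm.comp_fst γ).add (hid.norm.comp_snd γ)).const_mul L).integrable_sq
  have hint0 : Integrable (fun p : G × G => ‖F p.1 - F p.2‖ ^ 2) (γ.prod γ) :=
    (((hMem.comp_fst γ).sub (hMem.comp_snd γ))).norm.integrable_sq
  set m := ∫ ω, F ω ∂γ with hm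
  -- the symmetrised form of the variance
  have hvar : ∫ p : G × G, ‖F p.1 - F p.2‖ ^ 2 ∂(γ.prod γ) = 2 * ∫ ω, ‖F ω - m‖ ^ 2 ∂γ := by
    have hc : MemLp (fun ω => F ω - m) 2 γ := hMem.sub (memLp_const m)
    have h2 : Integrable (fun ω => ‖F ω - m‖ ^ 2) γ := hc.norm.integrable_sq
    have hc1 : Integrable (fun ω => F ω - m) γ := hc.integrable (by norm_num)
    have h0 : ∫ ω, (F ω - m) ∂γ = 0 := by
      rw [integral_sub (hMem.integrable (by norm_num)) (integrable_const m), integral_const]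
      simp [hm]
    have he : ∀ x y, ‖F x - F y‖ ^ 2 =
        ‖F x - m‖ ^ 2 + ‖F y - m‖ ^ 2 - 2 * ⟪F x - m, F y - m⟫ := by
      intro x y
      rw [show F x - F y = (F x - m) - (F y - m) by abel, norm_sub_sq_real]
      ring
    rw [integral_prod _ hint0]
    have hin : ∀ x, ∫ y, ‖F x - F y‖ ^ 2 ∂γ = ‖F x - m‖ ^ 2 + ∫ ω, ‖F ω - m‖ ^ 2 ∂γ := by
      intro x
      simp_rw [he]
      have e1 : Integrable (fun y => ‖F x - m‖ ^ 2 + ‖F y - m‖ ^ 2) γ :=
        (integrable_const _).fun_add h2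
      rw [integral_sub e1 ((hc1.const_inner _).const_mul 2),
        integral_add (integrable_const _) h2, integral_const_mul, integral_inner hc1, h0]
      simp
    simp_rw [hin]
    rw [integral_add h2 (integrable_const _)]
    simp; ring
  -- angles
  have hstep : ∀ n : ℕ, 0 < n → ∫ p : G × G, ‖F p.1 - F p.2‖ ^ 2 ∂(γ.prod γ) ≤
      (n : ℝ) ^ 2 * ∫ p : G × G, ‖F (Real.cos (Real.pi / 2 / n) • p.1 +
        Real.sin (Real.pi / 2 / n) • p.2) - F p.1‖ ^ 2 ∂(γ.prod γ) := by
    intro n hn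
    set δ := Real.pi / 2 / n with hδ
    set D : G × G → ℝ := fun p =>
      ‖F (Real.cos δ • p.1 + Real.sin δ • p.2) - F p.1‖ ^ 2 with hD
    set c : ℕ → G × G → G := fun k p => Real.cos (k * δ) • p.1 + Real.sin (k * δ) • p.2 with hc
    have hDc : Continuous D := by simp only [hD]; fun_prop
    have hrot : ∀ k : ℕ, (γ.prod γ).map (ContinuousLinearMap.rotation (k * δ : ℝ)) = γ.prod γ :=
      fun k => IsGaussian.map_rotation_eq_self (by simp [hγ]) _
    have hDk : ∀ (k : ℕ) (p : G × G),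
        D (ContinuousLinearMap.rotation (k * δ : ℝ) p) = ‖F (c (k + 1) p) - F (c k p)‖ ^ 2 := by
      intro k p
      simp only [hD, hc, ContinuousLinearMap.rotation_apply]
      have h1 : ((k + 1 : ℕ) : ℝ) * δ = (k : ℝ) * δ + δ := by push_cast; ring
      rw [h1, Real.cos_add, Real.sin_add]
      have e1 : Real.cos δ • (Real.cos (k * δ) • p.1 + Real.sin (k * δ) • p.2) +
          Real.sin δ • (-Real.sin (k * δ) • p.1 + Real.cos (k * δ) • p.2) =
          (Real.cos (k * δ) * Real.cos δ - Real.sin (k * δ) * Real.sin δ) • p.1 +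
          (Real.sin (k * δ) * Real.cos δ + Real.cos (k * δ) * Real.sin δ) • p.2 := by module
      rw [← e1]
    have hDi : Integrable D (γ.prod γ) := by
      refine (hbd.const_mul 4).mono' hDc.aestronglyMeasurable (Eventually.of_forall fun p => ?_)
      rw [Real.norm_eq_abs, abs_of_nonneg (by simp only [hD]; positivity)]
      have h1 := hlip' (Real.cos δ • p.1 + Real.sin δ • p.2) p.1
      have h2 : ‖Real.cos δ • p.1 + Real.sin δ • p.2 - p.1‖ ≤ 2 * (‖p.1‖ + ‖p.2‖) := by
        refine (norm_sub_le _ _).trans ?_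
        have h3 := norm_add_le (Real.cos δ • p.1) (Real.sin δ • p.2)
        rw [norm_smul, norm_smul, Real.norm_eq_abs, Real.norm_eq_abs] at h3
        nlinarith [Real.abs_cos_le_one δ, Real.abs_sin_le_one δ, norm_nonneg p.1, norm_nonneg p.2]
      calc D p ≤ (L * (2 * (‖p.1‖ + ‖p.2‖))) ^ 2 :=
            pow_le_pow_left₀ (norm_nonneg _) (h1.trans (mul_le_mul_of_nonneg_left h2 hL0)) 2
        _ = 4 * (L * (‖p.1‖ + ‖p.2‖)) ^ 2 := by ring
    have hDik : ∀ k : ℕ, Integrable (fun p => D (ContinuousLinearMap.rotation (k * δ : ℝ) p))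
        (γ.prod γ) := by
      intro k
      refine Integrable.comp_measurable (g := D) ?_ (by fun_prop)
      rw [hrot k]; exact hDi
    have hDint : ∀ k : ℕ,
        ∫ p, D (ContinuousLinearMap.rotation (k * δ : ℝ) p) ∂(γ.prod γ) = ∫ p, D p ∂(γ.prod γ) := by
      intro k
      rw [← integral_map (f := D) (by fun_prop) (by fun_prop), hrot k]
    have hpt : ∀ p : G × G, ‖F p.1 - F p.2‖ ^ 2 ≤
        (n : ℝ) * ∑ k ∈ Finset.range n, D (ContinuousLinearMap.rotation (k * δ : ℝ) p) := by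
      intro p
      simp_rw [hDk]
      have h0 : c 0 p = p.1 := by simp [hc]
      have hn' : c n p = p.2 := by
        have : (n : ℝ) * δ = Real.pi / 2 := by rw [hδ]; field_simp
        simp [hc, this]
      rw [norm_sub_rev, ← hn', ← h0, ← Finset.sum_range_sub (fun k => F (c k p))]
      refine (pow_le_pow_left₀ (norm_nonneg _) (norm_sum_le _ _) 2).trans ?_
      simpa using sq_sum_le_card_mul_sum_sq (s := Finset.range n)
        (f := fun k => ‖F (c (k + 1) p) - F (c k p)‖)
    calc ∫ p : G × G, ‖F p.1 - F p.2‖ ^ 2 ∂(γ.prod γ)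
        ≤ ∫ p, (n : ℝ) * ∑ k ∈ Finset.range n, D (ContinuousLinearMap.rotation (k * δ : ℝ) p)
            ∂(γ.prod γ) :=
          integral_mono hint0 ((integrable_finsetSum _ fun k _ => hDik k).const_mul _) hpt
      _ = (n : ℝ) ^ 2 * ∫ p, D p ∂(γ.prod γ) := by
          rw [integral_const_mul, integral_finsetSum _ fun k _ => hDik k]
          simp only [hDint, Finset.sum_const, Finset.card_range, nsmul_eq_mul]
          ring
  -- the limit
  set u : ℕ → G × G → ℝ := fun n p => (n : ℝ) ^ 2 *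
    ‖F (Real.cos (Real.pi / 2 / n) • p.1 + Real.sin (Real.pi / 2 / n) • p.2) - F p.1‖ ^ 2 with hu
  have hlim : Tendsto (fun n => ∫ p, u n p ∂(γ.prod γ)) atTop
      (𝓝 (∫ p : G × G, (Real.pi / 2) ^ 2 * ‖fderiv ℝ F p.1 p.2‖ ^ 2 ∂(γ.prod γ))) := by
    refine tendsto_integral_of_dominated_convergence
      (fun p => (2 * Real.pi / 2) ^ 2 * (L * (‖p.1‖ + ‖p.2‖)) ^ 2) ?_ (hbd.const_mul _) ?_ ?_
    · intro n; exact (by simp only [hu]; fun_prop : Continuous (u n)).aestronglyMeasurable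
    · intro n
      refine Eventually.of_forall fun p => ?_
      rcases Nat.eq_zero_or_pos n with rfl | hn
      · simp [hu]; positivity
      simp only [hu]
      set δ := Real.pi / 2 / n with hδ
      have hδ0 : 0 ≤ δ := by positivity
      have hnδ : (n : ℝ) * δ = Real.pi / 2 := by rw [hδ]; field_simp
      rw [Real.norm_eq_abs, abs_of_nonneg (by positivity)]
      have h1 := hlip' (Real.cos δ • p.1 + Real.sin δ • p.2) p.1
      have h2 : ‖Real.cos δ • p.1 + Real.sin δ • p.2 - p.1‖ ≤ 2 * δ * (‖p.1‖ + ‖p.2‖) := by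
        rw [show Real.cos δ • p.1 + Real.sin δ • p.2 - p.1 =
          (Real.cos δ - Real.cos 0) • p.1 + (Real.sin δ - Real.sin 0) • p.2 by
            simp only [Real.cos_zero, Real.sin_zero, sub_zero]; module]
        refine (norm_add_le _ _).trans ?_
        rw [norm_smul, norm_smul, Real.norm_eq_abs, Real.norm_eq_abs]
        have a1 := Real.abs_cos_sub_cos_le δ 0
        have a2 := Real.abs_sin_sub_sin_le δ 0
        rw [sub_zero, abs_of_nonneg hδ0] at a1 a2
        nlinarith [norm_nonneg p.1, norm_nonneg p.2]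
      calc (n : ℝ) ^ 2 * ‖F (Real.cos δ • p.1 + Real.sin δ • p.2) - F p.1‖ ^ 2
          ≤ (n : ℝ) ^ 2 * (L * (2 * δ * (‖p.1‖ + ‖p.2‖))) ^ 2 := by
            gcongr
            exact h1.trans (mul_le_mul_of_nonneg_left h2 hL0)
        _ = (2 * ((n : ℝ) * δ)) ^ 2 * (L * (‖p.1‖ + ‖p.2‖)) ^ 2 := by ring
        _ = _ := by rw [hnδ]; ring
    · refine Eventually.of_forall fun p => ?_
      set cur : ℝ → G := fun t => Real.cos t • p.1 + Real.sin t • p.2 with hcur
      have hd : HasDerivAt cur p.2 0 := by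
        simpa [hcur] using ((Real.hasDerivAt_cos 0).smul_const p.1).fun_add
          ((Real.hasDerivAt_sin 0).smul_const p.2)
      have hd' : HasDerivAt (fun t => F (cur t)) (fderiv ℝ F p.1 p.2) 0 :=
        HasFDerivAt.comp_hasDerivAt_of_eq 0
          (hF.differentiable one_ne_zero p.1).hasFDerivAt hd (by simp [hcur])
      have hs := hd'.tendsto_slope_zero
      have ht : Tendsto (fun n : ℕ => Real.pi / 2 / n) atTop (𝓝[≠] 0) := by
        refine tendsto_nhdsWithin_iff.2 ⟨tendsto_const_div_atTop_nhds_zero_nat _, ?_⟩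
        filter_upwards [eventually_gt_atTop 0] with n hn
        simp [Real.pi_ne_zero, hn.ne']
      have h := ((hs.comp ht).norm.pow 2).const_mul ((Real.pi / 2) ^ 2)
      refine h.congr' ?_
      filter_upwards [eventually_gt_atTop 0] with n hn
      simp only [Function.comp_apply, hu, hcur, zero_add, Real.cos_zero, Real.sin_zero, one_smul,
        zero_smul, add_zero, norm_smul, Real.norm_eq_abs, mul_pow, sq_abs, inv_pow]
      field_simp
  have hle : ∫ p : G × G, ‖F p.1 - F p.2‖ ^ 2 ∂(γ.prod γ) ≤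
      ∫ p : G × G, (Real.pi / 2) ^ 2 * ‖fderiv ℝ F p.1 p.2‖ ^ 2 ∂(γ.prod γ) := by
    refine ge_of_tendsto hlim ?_
    filter_upwards [eventually_gt_atTop 0] with n hn
    simpa [hu, integral_const_mul] using hstep n hn
  have hDi : Integrable (fun p : G × G => (Real.pi / 2) ^ 2 * ‖fderiv ℝ F p.1 p.2‖ ^ 2)
      (γ.prod γ) := by
    have hc : Continuous (fun p : G × G => fderiv ℝ F p.1 p.2) :=
      ((hF.continuous_fderiv one_ne_zero).comp continuous_fst).clm_apply continuous_snd
    refine (hbd.const_mul ((Real.pi / 2) ^ 2)).mono'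
      ((hc.norm.pow 2).const_mul _).aestronglyMeasurable
      (Eventually.of_forall fun p => ?_)
    rw [Real.norm_eq_abs, abs_of_nonneg (by positivity)]
    gcongr
    calc ‖fderiv ℝ F p.1 p.2‖ ≤ L * ‖p.2‖ :=
          ((fderiv ℝ F p.1).le_opNorm _).trans (mul_le_mul_of_nonneg_right (hL _) (norm_nonneg _))
      _ ≤ _ := mul_le_mul_of_nonneg_left (by simp) hL0
  have hK0 : 0 ≤ K := le_trans (integral_nonneg fun v => sq_nonneg _) (hK 0)
  have hfin : ∫ p : G × G, (Real.pi / 2) ^ 2 * ‖fderiv ℝ F p.1 p.2‖ ^ 2 ∂(γ.prod γ)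
      ≤ (Real.pi / 2) ^ 2 * K := by
    rw [integral_prod _ hDi]
    calc _ ≤ ∫ _x, (Real.pi / 2) ^ 2 * K ∂γ :=
          integral_mono hDi.integral_prod_left (integrable_const _) fun x => by
            rw [integral_const_mul]
            exact mul_le_mul_of_nonneg_left (hK x) (by positivity)
      _ = _ := by simp
  have hpi : (Real.pi / 2) ^ 2 ≤ 4 := by nlinarith [Real.pi_lt_four, Real.pi_pos]
  nlinarith [hvar, hle, hfin]

lemma var_lipschitz (F : G → EE d) (L : ℝ) (hF : ContDiff ℝ 1 F)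
    (hL : ∀ ω, ‖fderiv ℝ F ω‖ ≤ L) :
    ∫ ω, ‖F ω - ∫ ω', F ω' ∂stdGaussian G‖ ^ 2 ∂stdGaussian G ≤ 2 * d * L ^ 2 := by
  rw [mul_assoc]
  refine var_le_deriv_sq F L _ hF hL fun ω => ?_
  rw [integral_apply_sq]
  calc _ ≤ ∑ _i : Fin d, L ^ 2 := Finset.sum_le_sum fun i _ => by
        refine pow_le_pow_left₀ (norm_nonneg _) ?_ 2
        refine (ContinuousLinearMap.le_opNorm _ _).trans ?_
        rw [LinearIsometryEquiv.norm_map, OrthonormalBasis.norm_eq_one, mul_one]
        exact hL ω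
    _ = _ := by simp

lemma var_comp (Ψ : EE d → EE d) (Y : G → EE d) (a L : ℝ) (hΨ : ContDiff ℝ 1 Ψ)
    (hY : ContDiff ℝ 1 Y) (ha : ∀ x, hsn (fderiv ℝ Ψ x) ≤ a)
    (hL : ∀ ω, ‖fderiv ℝ Y ω‖ ≤ L) :
    ∫ ω, ‖Ψ (Y ω) - ∫ ω', Ψ (Y ω') ∂stdGaussian G‖ ^ 2 ∂stdGaussian G ≤ 2 * (a * L) ^ 2 := by
  have ha0 : 0 ≤ a := (Real.sqrt_nonneg _).trans (ha 0)
  have hL0 : 0 ≤ L := (norm_nonneg _).trans (hL 0)
  have hd : ∀ ω, fderiv ℝ (fun ω => Ψ (Y ω)) ω = (fderiv ℝ Ψ (Y ω)).comp (fderiv ℝ Y ω) :=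
    fun ω => fderiv_comp ω (hΨ.differentiable one_ne_zero _) (hY.differentiable one_ne_zero _)
  have hop : ∀ x, ‖fderiv ℝ Ψ x‖ ≤ a := by
    intro x
    refine (fderiv ℝ Ψ x).opNorm_le_bound ha0 fun v => ?_
    calc ‖fderiv ℝ Ψ x v‖ ≤ ∑ i, ‖v i‖ * ‖fderiv ℝ Ψ x (EuclideanSpace.single i (1 : ℝ))‖ := by
          conv_lhs => rw [← (EuclideanSpace.basisFun (Fin d) ℝ).sum_repr v, map_sum]
          refine (norm_sum_le _ _).trans (le_of_eq (Finset.sum_congr rfl fun i _ => ?_))
          rw [map_smul, norm_smul, EuclideanSpace.basisFun_repr, EuclideanSpace.basisFun_apply]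
      _ ≤ Real.sqrt (∑ i, ‖v i‖ ^ 2) *
            Real.sqrt (∑ i, ‖fderiv ℝ Ψ x (EuclideanSpace.single i (1 : ℝ))‖ ^ 2) :=
          Real.sum_mul_le_sqrt_mul_sqrt _ _ _
      _ ≤ ‖v‖ * a := by
          rw [← EuclideanSpace.norm_eq]
          exact mul_le_mul_of_nonneg_left (ha x) (norm_nonneg _)
      _ = a * ‖v‖ := mul_comm _ _
  refine var_le_deriv_sq (fun ω => Ψ (Y ω)) (a * L) _ (hΨ.comp hY) ?_ fun ω => ?_
  · intro ω; rw [hd]
    exact (ContinuousLinearMap.opNorm_comp_le _ _).trans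
      (mul_le_mul (hop _) (hL _) (norm_nonneg _) ha0)
  · rw [integral_apply_sq, hd, ContinuousLinearMap.adjoint_comp]
    calc _ ≤ ∑ i, L ^ 2 * ‖ContinuousLinearMap.adjoint (fderiv ℝ Ψ (Y ω))
            (EuclideanSpace.basisFun (Fin d) ℝ i)‖ ^ 2 := Finset.sum_le_sum fun i _ => by
          rw [← mul_pow, ContinuousLinearMap.comp_apply]
          refine pow_le_pow_left₀ (norm_nonneg _) ?_ 2
          refine (ContinuousLinearMap.le_opNorm _ _).trans
            (mul_le_mul_of_nonneg_right ?_ (norm_nonneg _))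
          rw [LinearIsometryEquiv.norm_map]; exact hL ω
      _ ≤ L ^ 2 * a ^ 2 := by
          rw [← Finset.mul_sum, ← hsn_sq_adjoint]
          exact mul_le_mul_of_nonneg_left
            (pow_le_pow_left₀ (Real.sqrt_nonneg _) (ha _) 2) (sq_nonneg L)
      _ = _ := by ring

lemma cov_bound {Ω : Type*} [MeasurableSpace Ω] (μ : Measure Ω) [IsProbabilityMeasure μ]
    (F K : Ω → EE d) (hF : MemLp F 2 μ) (hK : MemLp K 2 μ) :
    |(∫ ω, ⟪F ω, K ω⟫ ∂μ) - ⟪∫ ω, F ω ∂μ, ∫ ω, K ω ∂μ⟫| ≤
      Real.sqrt (∫ ω, ‖F ω - ∫ ω', F ω' ∂μ‖ ^ 2 ∂μ) *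
        Real.sqrt (∫ ω, ‖K ω - ∫ ω', K ω' ∂μ‖ ^ 2 ∂μ) := by
  set m := ∫ ω, F ω ∂μ
  set n := ∫ ω, K ω ∂μ
  have hf : MemLp (fun ω => F ω - m) 2 μ := hF.sub (memLp_const m)
  have hk : MemLp (fun ω => K ω - n) 2 μ := hK.sub (memLp_const n)
  set f := hf.toLp _ with hfdef
  set k := hk.toLp _ with hkdef
  have hFi : Integrable F μ := hF.integrable (by norm_num)
  have hKi : Integrable K μ := hK.integrable (by norm_num)
  have hFK : Integrable (fun ω => ⟪F ω, K ω⟫) μ := by
    refine (L2.integrable_inner (𝕜 := ℝ) (hF.toLp F) (hK.toLp K)).congr ?_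
    filter_upwards [hF.coeFn_toLp, hK.coeFn_toLp] with ω h1 h2
    rw [h1, h2]
  have h1 : (∫ ω, ⟪F ω, K ω⟫ ∂μ) - ⟪m, n⟫ = ⟪f, k⟫ := by
    rw [L2.inner_def]
    have e0 : (fun ω => ⟪f ω, k ω⟫) =ᵐ[μ] fun ω => ⟪F ω - m, K ω - n⟫ := by
      filter_upwards [hf.coeFn_toLp, hk.coeFn_toLp] with ω h1 h2
      rw [hfdef, hkdef, h1, h2]
    rw [integral_congr_ae e0]
    simp_rw [inner_sub_left, inner_sub_right]
    have e1 : Integrable (fun ω => ⟪F ω, K ω⟫ - ⟪F ω, n⟫) μ := hFK.sub (hFi.inner_const n)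
    have e2 : Integrable (fun ω => ⟪m, K ω⟫ - ⟪m, n⟫) μ :=
      (hKi.const_inner m).sub (integrable_const _)
    rw [integral_sub e1 e2, integral_sub hFK (hFi.inner_const n),
      integral_sub (hKi.const_inner m) (integrable_const _), integral_inner hKi]
    simp only [real_inner_comm n, integral_inner hFi]
    simp [m, n]
    simp [real_inner_comm]
  have h2 : ∀ (Φ : Ω → EE d) (hΦ : MemLp Φ 2 μ),
      ‖hΦ.toLp Φ‖ = Real.sqrt (∫ ω, ‖Φ ω‖ ^ 2 ∂μ) := by
    intro Φ hΦ
    rw [← Real.sqrt_sq (norm_nonneg (hΦ.toLp Φ)), ← real_inner_self_eq_norm_sq, L2.inner_def]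
    congr 1
    refine integral_congr_ae ?_
    filter_upwards [hΦ.coeFn_toLp] with ω h
    rw [h, real_inner_self_eq_norm_sq]
  rw [h1, ← h2 _ hf, ← h2 _ hk]
  exact abs_real_inner_le_norm f k

/-- The Gaussian density. -/
noncomputable def gdens (d : ℕ) (x : EE d) : ℝ :=
  ((Real.pi / (1 / 2)) ^ ((d : ℝ) / 2))⁻¹ * Real.exp (-(1 / 2) * ‖x‖ ^ 2)

lemma gdens_nonneg (x : EE d) : 0 ≤ gdens d x := by unfold gdens; positivity

lemma continuous_gdens : Continuous (gdens d) := by unfold gdens; fun_prop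

lemma gam_withDensity :
    gam d = volume.withDensity (fun x : EE d => ENNReal.ofReal (gdens d x)) := by
  have hint : Integrable (gdens d) := by
    have h := GaussianFourier.integrable_cexp_neg_mul_sq_norm_add (V := EE d)
      (b := (1 / 2 : ℂ)) (by norm_num) 0 0
    refine (h.norm.const_mul ((Real.pi / (1 / 2)) ^ ((d : ℝ) / 2))⁻¹).congr
      (Eventually.of_forall fun x => ?_)
    simp [gdens, Complex.norm_exp, ← Complex.ofReal_pow]
  have hone : ∫ x, gdens d x = 1 := by
    simp only [gdens]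
    rw [integral_const_mul, GaussianFourier.integral_rexp_neg_mul_sq_norm (by norm_num),
      finrank_euclideanSpace_fin]
    exact inv_mul_cancel₀ (by positivity)
  have : IsFiniteMeasure (volume.withDensity fun x : EE d => ENNReal.ofReal (gdens d x)) :=
    isFiniteMeasure_withDensity_ofReal hint.hasFiniteIntegral
  refine Measure.ext_of_charFun ?_
  funext t
  rw [charFun_stdGaussian, charFun_apply,
    integral_withDensity_eq_integral_toReal_smul (by unfold gdens; fun_prop)
      (Eventually.of_forall fun x => ENNReal.ofReal_lt_top)]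
  simp_rw [ENNReal.toReal_ofReal (gdens_nonneg _)]
  have h2 : ∀ x : EE d, gdens d x • Complex.exp (⟪x, t⟫ * Complex.I) =
      ((((Real.pi / (1 / 2)) ^ ((d : ℝ) / 2))⁻¹ : ℝ) : ℂ) *
        Complex.exp (-(1 / 2 : ℂ) * ‖x‖ ^ 2 + Complex.I * ⟪t, x⟫) := by
    intro x
    rw [gdens, Complex.real_smul, real_inner_comm, Complex.exp_add]
    push_cast
    ring
  simp_rw [h2]
  rw [integral_const_mul, GaussianFourier.integral_cexp_neg_mul_sq_norm_add (by norm_num),
    finrank_euclideanSpace_fin]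
  rw [show ((Real.pi : ℂ) / (1 / 2)) ^ ((d : ℂ) / 2) =
      (((Real.pi / (1 / 2)) ^ ((d : ℝ) / 2) : ℝ) : ℂ) by
    rw [Complex.ofReal_cpow (by positivity)]; push_cast; rfl]
  rw [← mul_assoc, ← Complex.ofReal_mul, inv_mul_cancel₀ (by positivity), Complex.ofReal_one,
    one_mul]
  rw [Complex.I_sq]
  ring_nf

lemma integral_gam_shift {W : Type*} [NormedAddCommGroup W] [NormedSpace ℝ W] (w : EE d → W)
    (u : EE d) :
    ∫ ξ, w (u + ξ) ∂gam d = ∫ z, gdens d (z - u) • w z := by
  rw [gam_withDensity, integral_withDensity_eq_integral_toReal_smul (by unfold gdens; fun_prop)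
    (Eventually.of_forall fun x => ENNReal.ofReal_lt_top)]
  simp_rw [ENNReal.toReal_ofReal (gdens_nonneg _)]
  rw [← integral_add_left_eq_self (fun z => gdens d (z - u) • w z) u]
  simp

/-- Stein's formula at the origin for a bounded continuous map. -/
lemma gshift_deriv {K : ℝ} (w : EE d → G) (hw : Continuous w) (hK : ∀ x, ‖w x‖ ≤ K) :
    HasFDerivAt (fun u => ∫ ξ, w (u + ξ) ∂gam d)
      (∫ ξ, (innerSL ℝ ξ).smulRight (w ξ) ∂gam d) 0 := by
  have hK0 : 0 ≤ K := (norm_nonneg _).trans (hK 0)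
  simp_rw [integral_gam_shift]
  set c := ((Real.pi / (1 / 2)) ^ ((d : ℝ) / 2))⁻¹ with hc
  have hc0 : 0 ≤ c := by positivity
  have hgd : ∀ y : EE d, HasFDerivAt (gdens d) ((-gdens d y) • innerSL ℝ y) y := by
    intro y
    have h := (((hasFDerivAt_id y).norm_sq.const_mul (-(1 / 2 : ℝ))).exp).const_mul c
    refine h.congr_fderiv ?_
    ext v
    simp [gdens, hc]
    ring
  set F' : EE d → EE d → EE d →L[ℝ] G := fun u z =>
    (gdens d (z - u) • innerSL ℝ (z - u)).smulRight (w z) with hF'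
  have hd : ∀ u z, HasFDerivAt (fun u => gdens d (z - u) • w z) (F' u z) u := by
    intro u z
    have h := ((hgd (z - u)).comp u ((hasFDerivAt_id u).const_sub z)).smul_const (w z)
    refine h.congr_fderiv ?_
    ext v
    simp [hF']
  set b : EE d → ℝ := fun z => c * K * (4 * Real.exp (-(1 / 8) * ‖z‖ ^ 2 + 1)) with hb
  have hbi : Integrable b := by
    have h := GaussianFourier.integrable_cexp_neg_mul_sq_norm_add (V := EE d)
      (b := (1 / 8 : ℂ)) (by norm_num) 0 0
    refine ((h.norm.const_mul (4 * Real.exp 1)).const_mul (c * K)).congr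
      (Eventually.of_forall fun x => ?_)
    have e : ‖Complex.exp (-(1 / 8) * (‖x‖ : ℂ) ^ 2 + 0 * (⟪(0 : EE d), x⟫ : ℂ))‖ =
        Real.exp (-(1 / 8) * ‖x‖ ^ 2) := by
      simp [Complex.norm_exp, ← Complex.ofReal_pow]
    simp only [hb]
    rw [e, Real.exp_add]
    ring
  have hbd : ∀ u : EE d, ‖u‖ ≤ 1 → ∀ z, gdens d (z - u) * (1 + ‖z - u‖) ≤
      c * (4 * Real.exp (-(1 / 8) * ‖z‖ ^ 2 + 1)) := by
    intro u hu z
    have h2 : ‖z‖ ^ 2 / 2 ≤ ‖z - u‖ ^ 2 + 1 := by
      have h := norm_le_norm_add_norm_sub' z u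
      nlinarith [sq_nonneg (‖z - u‖ - ‖u‖), norm_nonneg (z - u), norm_nonneg z, norm_nonneg u]
    have h3 : 1 + ‖z - u‖ ≤ 4 * Real.exp (1 / 4 * ‖z - u‖ ^ 2) := by
      nlinarith [Real.add_one_le_exp (1 / 4 * ‖z - u‖ ^ 2), sq_nonneg (‖z - u‖ - 1 / 2)]
    simp only [gdens, ← hc]
    calc c * Real.exp (-(1 / 2) * ‖z - u‖ ^ 2) * (1 + ‖z - u‖)
        ≤ c * Real.exp (-(1 / 2) * ‖z - u‖ ^ 2) * (4 * Real.exp (1 / 4 * ‖z - u‖ ^ 2)) :=
          mul_le_mul_of_nonneg_left h3 (by positivity)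
      _ = c * (4 * Real.exp (-(1 / 4) * ‖z - u‖ ^ 2)) := by
          rw [show (-(1 / 4) * ‖z - u‖ ^ 2) =
            -(1 / 2) * ‖z - u‖ ^ 2 + 1 / 4 * ‖z - u‖ ^ 2 by ring, Real.exp_add]
          ring
      _ ≤ _ := by
          gcongr
          nlinarith
  have h := hasFDerivAt_integral_of_dominated_of_fderiv_le (μ := volume) (𝕜 := ℝ)
    (F := fun u z => gdens d (z - u) • w z) (F' := F') (bound := b)
    (Metric.closedBall_mem_nhds (0 : EE d) one_pos)
    (Eventually.of_forall fun u =>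
      ((continuous_gdens.comp (by fun_prop)).smul hw).aestronglyMeasurable)
    ?_ ?_ ?_ hbi (Eventually.of_forall fun z u _ => hd u z)
  · refine h.congr_fderiv ?_
    rw [gam_withDensity, integral_withDensity_eq_integral_toReal_smul (by unfold gdens; fun_prop)
      (Eventually.of_forall fun x => ENNReal.ofReal_lt_top)]
    simp_rw [ENNReal.toReal_ofReal (gdens_nonneg _)]
    refine integral_congr_ae (Eventually.of_forall fun z => ?_)
    ext v
    simp [hF', mul_smul]
  · refine hbi.mono' ((continuous_gdens.comp (by fun_prop)).smul hw).aestronglyMeasurable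
      (Eventually.of_forall fun z => ?_)
    simp only [norm_smul, Real.norm_eq_abs, abs_of_nonneg (gdens_nonneg _)]
    have h1 := hbd 0 (by simp) z
    calc gdens d (z - 0) * ‖w z‖ ≤ gdens d (z - 0) * (1 + ‖z - 0‖) * K := by
          rw [mul_assoc]
          refine mul_le_mul_of_nonneg_left ?_ (gdens_nonneg _)
          nlinarith [hK z, norm_nonneg (z - 0)]
      _ ≤ _ := by simp only [hb]; nlinarith
  · have hc1 : Continuous (F' 0) := by
      have h1 : Continuous (fun z : EE d => gdens d (z - 0) • innerSL ℝ (z - 0)) :=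
        (continuous_gdens.comp (by fun_prop)).smul ((innerSL ℝ).continuous.comp (by fun_prop))
      exact (ContinuousLinearMap.smulRightL ℝ (EE d) G).continuous₂.comp (h1.prodMk hw)
    exact hc1.aestronglyMeasurable
  · refine Eventually.of_forall fun z u hu => ?_
    simp only [Metric.mem_closedBall, dist_zero_right] at hu
    simp only [hF', ContinuousLinearMap.norm_smulRight_apply, norm_smul, innerSL_apply_norm,
      Real.norm_eq_abs, abs_of_nonneg (gdens_nonneg _)]
    calc gdens d (z - u) * ‖z - u‖ * ‖w z‖ ≤ gdens d (z - u) * (1 + ‖z - u‖) * K :=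
          mul_le_mul (mul_le_mul_of_nonneg_left (by linarith) (gdens_nonneg _)) (hK z)
            (norm_nonneg _) (mul_nonneg (gdens_nonneg _) (by positivity))
      _ ≤ _ := by simp only [hb]; nlinarith [hbd u hu z]

lemma gs_eq_shift {s : ℝ} (hs : 0 < s) (v : EE d → G) (x : EE d) :
    Gs s v = fun y => ∫ ξ, (fun z => v (x + Real.sqrt s • z))
      ((Real.sqrt s)⁻¹ • (y - x) + ξ) ∂gam d := by
  funext y
  unfold Gs
  congr 1
  funext ξ
  simp only
  rw [smul_add, smul_smul, mul_inv_cancel₀ (Real.sqrt_pos.2 hs).ne', one_smul]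
  congr 1
  abel

/-- The derivative of a smoothed bounded continuous map. -/
lemma gs_hasFDerivAt {s K : ℝ} (hs : 0 < s) (v : EE d → G) (hv : Continuous v)
    (hK : ∀ x, ‖v x‖ ≤ K) (x : EE d) :
    HasFDerivAt (Gs s v) ((Real.sqrt s)⁻¹ •
      ∫ ξ, (innerSL ℝ ξ).smulRight (v (x + Real.sqrt s • ξ)) ∂gam d) x := by
  rw [gs_eq_shift hs v x]
  have h0 := gshift_deriv (fun z => v (x + Real.sqrt s • z)) (by fun_prop) (fun z => hK _)
  have h1 : HasFDerivAt (fun y : EE d => (Real.sqrt s)⁻¹ • (y - x))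
      ((Real.sqrt s)⁻¹ • ContinuousLinearMap.id ℝ (EE d)) x :=
    HasFDerivAt.const_smul ((hasFDerivAt_id x).sub_const x) ((Real.sqrt s)⁻¹)
  rw [show (0 : EE d) = (Real.sqrt s)⁻¹ • (x - x) by simp] at h0
  have h2 := h0.comp x h1
  simp only [Function.comp_def] at h2
  refine h2.congr_fderiv ?_
  ext u
  simp

lemma gs_deriv {s K : ℝ} (hs : 0 < s) (v : EE d → G) (hv : Continuous v)
    (hK : ∀ x, ‖v x‖ ≤ K) :
    ContDiff ℝ 1 (Gs s v) ∧ ∀ x,
      hsn (fderiv ℝ (Gs s v) x) ^ 2 ≤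
        ((∫ ξ, ‖v (x + Real.sqrt s • ξ)‖ ^ 2 ∂gam d) - ‖Gs s v x‖ ^ 2) / s := by
  have hd := gs_hasFDerivAt hs v hv hK
  have hid : Integrable (fun ξ : EE d => ‖ξ‖) (gam d) :=
    (IsGaussian.integrable_id (μ := gam d)).norm
  have hK0 : 0 ≤ K := (norm_nonneg _).trans (hK 0)
  have hbd : ∀ x ξ : EE d,
      ‖(innerSL ℝ ξ).smulRight (v (x + Real.sqrt s • ξ))‖ ≤ K * ‖ξ‖ := by
    intro x ξ
    rw [ContinuousLinearMap.norm_smulRight_apply, innerSL_apply_norm, mul_comm]
    exact mul_le_mul_of_nonneg_right (hK _) (norm_nonneg _)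
  have hcξ : ∀ x, Continuous
      (fun ξ : EE d => (innerSL ℝ ξ).smulRight (v (x + Real.sqrt s • ξ))) := fun x =>
    (ContinuousLinearMap.smulRightL ℝ (EE d) G).continuous₂.comp
      ((innerSL ℝ).continuous.prodMk (by fun_prop))
  have hint : ∀ x, Integrable
      (fun ξ : EE d => (innerSL ℝ ξ).smulRight (v (x + Real.sqrt s • ξ))) (gam d) := fun x =>
    (hid.const_mul K).mono' (hcξ x).aestronglyMeasurable (Eventually.of_forall fun ξ => hbd x ξ)
  refine ⟨contDiff_one_iff_fderiv.2 ⟨fun x => (hd x).differentiableAt, ?_⟩, fun x => ?_⟩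
  · have : fderiv ℝ (Gs s v) = fun x => (Real.sqrt s)⁻¹ •
        ∫ ξ, (innerSL ℝ ξ).smulRight (v (x + Real.sqrt s • ξ)) ∂gam d :=
      funext fun x => (hd x).fderiv
    rw [this]
    suffices hI : Continuous fun x =>
        ∫ ξ, (innerSL ℝ ξ).smulRight (v (x + Real.sqrt s • ξ)) ∂gam d from
      (hI.const_smul ((Real.sqrt s)⁻¹) :)
    refine continuous_of_dominated (fun x => (hcξ x).aestronglyMeasurable)
      (fun x => Eventually.of_forall fun ξ => hbd x ξ) (hid.const_mul K)
      (Eventually.of_forall fun ξ => ?_)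
    have hc : Continuous fun x : EE d => v (x + Real.sqrt s • ξ) := by fun_prop
    exact (ContinuousLinearMap.smulRightL ℝ (EE d) G (innerSL ℝ ξ)).continuous.comp hc
  · set w := fun ξ : EE d => v (x + Real.sqrt s • ξ) with hw
    set m := Gs s v x with hm
    have hwc : Continuous w := by simp only [hw]; fun_prop
    have hw2 : MemLp w 2 (gam d) :=
      MemLp.of_bound hwc.aestronglyMeasurable K (Eventually.of_forall fun ξ => hK _)
    have hwm : MemLp (fun ξ => w ξ - m) 2 (gam d) := hw2.sub (memLp_const m)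
    have hvar : ∫ ξ, ‖w ξ - m‖ ^ 2 ∂gam d = (∫ ξ, ‖w ξ‖ ^ 2 ∂gam d) - ‖m‖ ^ 2 := by
      simp_rw [norm_sub_sq_real]
      have e2 : Integrable (fun ξ => 2 * ⟪w ξ, m⟫) (gam d) :=
        ((hw2.integrable (by norm_num)).inner_const m).const_mul 2
      have e1 : Integrable (fun ξ => ‖w ξ‖ ^ 2 - 2 * ⟪w ξ, m⟫) (gam d) :=
        hw2.norm.integrable_sq.sub e2
      rw [integral_add e1 (integrable_const _), integral_sub hw2.norm.integrable_sq e2,
        integral_const_mul]
      simp_rw [real_inner_comm m]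
      rw [integral_inner (hw2.integrable (by norm_num))]
      rw [show ∫ ξ, w ξ ∂gam d = m from rfl, real_inner_self_eq_norm_sq]
      simp; ring
    rw [← hvar]
    set f := stdOrthonormalBasis ℝ G
    set g : Fin (Module.finrank ℝ G) → EE d → ℝ := fun k ξ => ⟪f k, w ξ - m⟫ with hg
    have hgL : ∀ k, MemLp (g k) 2 (gam d) := fun k => hwm.const_inner (f k)
    have hbasis : ∀ (u : EE d) (k), ⟪f k, (fderiv ℝ (Gs s v) x) u⟫ =
        (Real.sqrt s)⁻¹ * ∫ ξ, ⟪ξ, u⟫ * g k ξ ∂gam d := by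
      intro u k
      rw [(hd x).fderiv, smul_apply, real_inner_smul_right,
        ContinuousLinearMap.integral_apply (hint x)]
      congr 1
      rw [← integral_inner ((hint x).apply_continuousLinearMap u)]
      simp only [hg, inner_sub_right, mul_sub, ContinuousLinearMap.smulRight_apply,
        innerSL_apply_apply, real_inner_smul_right, hw]
      have e1 : Integrable (fun ξ : EE d => ⟪ξ, u⟫ * ⟪f k, m⟫) (gam d) :=
        ((IsGaussian.integrable_id (μ := gam d)).inner_const u).mul_const _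
      have e2 : Integrable (fun ξ : EE d => ⟪ξ, u⟫ * ⟪f k, v (x + Real.sqrt s • ξ)⟫) (gam d) := by
        refine (((hint x).apply_continuousLinearMap u).const_inner (f k)).congr
          (Eventually.of_forall fun ξ => ?_)
        simp [real_inner_smul_right]
      rw [integral_sub e2 e1, integral_mul_const]
      have : ∫ ξ : EE d, ⟪ξ, u⟫ ∂gam d = 0 := by
        simp_rw [real_inner_comm u]
        rw [integral_inner IsGaussian.integrable_fun_id, integral_id_stdGaussian, inner_zero_right]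
      simp [this]
    have hone : ∀ k, ∑ i, (∫ ξ, ⟪ξ, EuclideanSpace.basisFun (Fin d) ℝ i⟫ * g k ξ ∂gam d) ^ 2
        ≤ ∫ ξ, g k ξ ^ 2 ∂gam d := by
      intro k
      set e := EuclideanSpace.basisFun (Fin d) ℝ
      set a : Fin d → ℝ := fun i => ∫ ξ, ⟪ξ, e i⟫ * g k ξ ∂gam d with ha
      set u : EE d := ∑ i, a i • e i with hu
      have hun : ‖u‖ ^ 2 = ∑ i, a i ^ 2 := by
        rw [← e.sum_sq_inner_right]
        refine Finset.sum_congr rfl fun i _ => ?_
        rw [hu, e.orthonormal.inner_right_fintype]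
      have hp : ∀ i, Integrable (fun ξ : EE d => ⟪ξ, e i⟫ * g k ξ) (gam d) := fun i =>
        ((IsGaussian.memLp_id (gam d) 2 (by norm_num)).inner_const (e i)).integrable_mul (hgL k)
      have he : ∀ ξ, 2 * (⟪u, ξ⟫ * g k ξ) = ∑ i, 2 * a i * (⟪ξ, e i⟫ * g k ξ) := by
        intro ξ
        rw [hu, sum_inner, Finset.sum_mul, Finset.mul_sum]
        refine Finset.sum_congr rfl fun i _ => ?_
        rw [real_inner_smul_left, real_inner_comm (e i) ξ]; ring
      have h1 : ∫ ξ, 2 * (⟪u, ξ⟫ * g k ξ) ∂gam d ≤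
          ∫ ξ, (⟪u, ξ⟫ ^ 2 + g k ξ ^ 2) ∂gam d := by
        refine integral_mono ?_ ((integrable_inner_sq u).add (hgL k).integrable_sq) fun ξ => ?_
        · simp_rw [he]
          exact integrable_finsetSum _ fun i _ => (hp i).const_mul _
        · show 2 * (⟪u, ξ⟫ * g k ξ) ≤ ⟪u, ξ⟫ ^ 2 + g k ξ ^ 2
          nlinarith [sq_nonneg (⟪u, ξ⟫ - g k ξ)]
      simp_rw [he] at h1
      rw [integral_finsetSum _ fun i _ => (hp i).const_mul _,
        integral_add (integrable_inner_sq u) (hgL k).integrable_sq, integral_inner_sq, hun] at h1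
      simp only [integral_const_mul] at h1
      have h2 : ∑ i, 2 * a i * a i = 2 * ∑ i, a i ^ 2 := by
        rw [Finset.mul_sum]; exact Finset.sum_congr rfl fun i _ => by ring
      linarith [h1, h2]
    rw [hsn, Real.sq_sqrt (by positivity)]
    calc _ = ∑ i : Fin d, ∑ k, ((Real.sqrt s)⁻¹ *
            ∫ ξ, ⟪ξ, EuclideanSpace.basisFun (Fin d) ℝ i⟫ * g k ξ ∂gam d) ^ 2 := by
          refine Finset.sum_congr rfl fun i _ => ?_
          simp only [← f.sum_sq_inner_right, hbasis, EuclideanSpace.basisFun_apply]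
      _ = s⁻¹ * ∑ k, ∑ i : Fin d,
            (∫ ξ, ⟪ξ, EuclideanSpace.basisFun (Fin d) ℝ i⟫ * g k ξ ∂gam d) ^ 2 := by
          rw [Finset.sum_comm, Finset.mul_sum]
          refine Finset.sum_congr rfl fun k _ => ?_
          rw [Finset.mul_sum]
          refine Finset.sum_congr rfl fun i _ => ?_
          rw [mul_pow, inv_pow, Real.sq_sqrt hs.le]
      _ ≤ s⁻¹ * ∑ k, ∫ ξ, g k ξ ^ 2 ∂gam d :=
          mul_le_mul_of_nonneg_left (Finset.sum_le_sum fun k _ => hone k) (by positivity)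
      _ = _ := by
          rw [← integral_finsetSum _ fun k _ => (hgL k).integrable_sq, div_eq_inv_mul]
          simp only [hg, f.sum_sq_inner_right]

lemma gs_fderiv {s K : ℝ} (v : EE d → G) (hv : ContDiff ℝ 1 v) (hK : ∀ x, ‖fderiv ℝ v x‖ ≤ K)
    (x : EE d) :
    HasFDerivAt (Gs s v) (∫ ξ, fderiv ℝ v (x + Real.sqrt s • ξ) ∂gam d) x := by
  have hK0 : 0 ≤ K := (norm_nonneg _).trans (hK 0)
  have hdiff := hv.differentiable one_ne_zero
  have hid : Integrable (fun ξ : EE d => ‖ξ‖) (gam d) :=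
    (IsGaussian.integrable_id (μ := gam d)).norm
  have hcd := hv.continuous_fderiv one_ne_zero
  refine hasFDerivAt_integral_of_dominated_of_fderiv_le (μ := gam d) (𝕜 := ℝ)
    (F := fun y ξ => v (y + Real.sqrt s • ξ)) (F' := fun y ξ => fderiv ℝ v (y + Real.sqrt s • ξ))
    (bound := fun _ => K) Filter.univ_mem
    (Eventually.of_forall fun y => (hv.continuous.comp (by fun_prop)).aestronglyMeasurable)
    ?_ (hcd.comp (by fun_prop)).aestronglyMeasurable
    (Eventually.of_forall fun ξ y _ => hK _) (integrable_const K)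
    (Eventually.of_forall fun ξ y _ => ?_)
  · refine ((integrable_const ‖v x‖).fun_add (hid.const_mul (K * |Real.sqrt s|))).mono'
      (hv.continuous.comp (by fun_prop)).aestronglyMeasurable (Eventually.of_forall fun ξ => ?_)
    have h := Convex.norm_image_sub_le_of_norm_fderiv_le (fun z _ => hdiff z) (fun z _ => hK z)
      convex_univ (Set.mem_univ x) (Set.mem_univ (x + Real.sqrt s • ξ))
    rw [add_sub_cancel_left, norm_smul, Real.norm_eq_abs] at h
    have := norm_le_insert' (v (x + Real.sqrt s • ξ)) (v x)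
    nlinarith
  · simpa [Function.comp_def] using (hdiff (y + Real.sqrt s • ξ)).hasFDerivAt.comp y
      ((hasFDerivAt_id y).add_const (Real.sqrt s • ξ))

lemma gs_gs {s t K : ℝ} (hs : 0 ≤ s) (ht : 0 ≤ t) (v : EE d → G) (hv : Continuous v)
    (hK : ∀ x, ‖v x‖ ≤ K) (x : EE d) : Gs s (Gs t v) x = Gs (s + t) v x := by
  rcases eq_or_lt_of_le (add_nonneg hs ht) with h | h
  · obtain ⟨rfl, rfl⟩ : s = 0 ∧ t = 0 := ⟨by linarith, by linarith⟩
    simp [Gs]
  set r := Real.sqrt (s + t) with hr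
  have hr0 : r ≠ 0 := (Real.sqrt_pos.2 h).ne'
  set T := (Real.sqrt s / r) • ContinuousLinearMap.id ℝ (EE d) with hT
  set U := (Real.sqrt t / r) • ContinuousLinearMap.id ℝ (EE d) with hU
  have hadd : T ∘L ContinuousLinearMap.adjoint T + U ∘L ContinuousLinearMap.adjoint U
      = .id ℝ (EE d) := by
    ext1 z
    simp only [hT, hU, map_smulₛₗ, ContinuousLinearMap.adjoint_id, RCLike.star_def, conj_trivial,
      ContinuousLinearMap.comp_smul, ContinuousLinearMap.smul_comp, ContinuousLinearMap.id_comp,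
      add_apply, smul_apply, ContinuousLinearMap.id_apply, smul_smul, ← add_smul]
    rw [show Real.sqrt s / r * (Real.sqrt s / r) + Real.sqrt t / r * (Real.sqrt t / r) = 1 by
      field_simp
      rw [Real.sq_sqrt hs, Real.sq_sqrt ht, hr, Real.sq_sqrt h.le], one_smul]
  have hmap := map_prod_coisometry T U hadd
  have hw : Continuous fun ζ : EE d => v (x + r • ζ) := by fun_prop
  calc Gs s (Gs t v) x
      = ∫ ξ, ∫ η, v (x + Real.sqrt s • ξ + Real.sqrt t • η) ∂gam d ∂gam d := rfl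
    _ = ∫ p : EE d × EE d, v (x + Real.sqrt s • p.1 + Real.sqrt t • p.2)
          ∂(gam d).prod (gam d) := by
        rw [integral_prod]
        refine (memLp_top_of_bound ?_ K (Eventually.of_forall fun p => hK _)).integrable le_top
        exact (hv.comp (by fun_prop)).aestronglyMeasurable
    _ = ∫ p : EE d × EE d, v (x + r • (T p.1 + U p.2)) ∂(gam d).prod (gam d) := by
        congr 1; funext p
        simp only [hT, hU, smul_apply, ContinuousLinearMap.id_apply, smul_add,
          smul_smul, mul_div_cancel₀ _ hr0, add_assoc]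
    _ = ∫ ζ, v (x + r • ζ) ∂gam d := by
        conv_rhs => rw [gam, ← hmap]
        rw [integral_map (by fun_prop) hw.aestronglyMeasurable]
    _ = _ := rfl

lemma adjoint_inp {j : ℕ} (hj : j < N + 1) (v : EE d) :
    ContinuousLinearMap.adjoint (inp d N j) v = PiLp.single 2 (⟨j, hj⟩ : Fin (N + 1)) v := by
  refine ext_inner_right ℝ fun w => ?_
  rw [ContinuousLinearMap.adjoint_inner_left, inp, dif_pos hj]
  conv_rhs => rw [PiLp.inner_apply, Finset.sum_eq_single (⟨j, hj⟩ : Fin (N + 1))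
    (fun b _ hb => by simp [hb]) (by simp)]
  simp

lemma inp_adjoint_inp {i j : ℕ} (hj : j < N + 1) (v : EE d) :
    inp d N i (ContinuousLinearMap.adjoint (inp d N j) v) = if i = j then v else 0 := by
  rw [adjoint_inp hj, inp]
  by_cases hi : i < N + 1
  · rw [dif_pos hi]
    by_cases hij : i = j
    · subst hij; simp
    · simp [hij]
  · rw [dif_neg hi, if_neg (by omega)]
    simp

lemma inp_eq_zero {j : ℕ} (hj : ¬ j < N + 1) : inp d N j = 0 := by rw [inp, dif_neg hj]

lemma beta_sq {h : ℝ} (h0 : 0 ≤ h) (h1 : h ≤ 1) : beta h * beta h = 1 - (1 - h) ^ 2 := by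
  rw [beta, Real.mul_self_sqrt]; nlinarith

lemma adjoint_pathW_succ (h : ℝ) (k : ℕ) (v : EE d) :
    ContinuousLinearMap.adjoint (pathW d N h (k + 1)) v =
      (1 - h) • ContinuousLinearMap.adjoint (pathW d N h k) v +
        beta h • ContinuousLinearMap.adjoint (inp d N (k + 1)) v := by
  simp only [pathW, map_add, map_smulₛₗ, RCLike.star_def, conj_trivial, add_apply,
    smul_apply]

lemma inp_adjoint_pathW (h : ℝ) : ∀ (k i : ℕ), k < i → ∀ v : EE d,
    inp d N i (ContinuousLinearMap.adjoint (pathW d N h k) v) = 0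
  | 0, i, hi, v => by
    simp only [pathW]
    rw [inp_adjoint_inp (by omega), if_neg (by omega)]
  | k + 1, i, hi, v => by
    rw [adjoint_pathW_succ, map_add, map_smul, map_smul, inp_adjoint_pathW h k i (by omega) v,
      smul_zero, zero_add]
    by_cases hk : k + 1 < N + 1
    · rw [inp_adjoint_inp hk, if_neg (by omega), smul_zero]
    · rw [inp_eq_zero hk]; simp

lemma pathW_adjoint_inp (h : ℝ) {i k : ℕ} (hk : k < i) (v : EE d) :
    pathW d N h k (ContinuousLinearMap.adjoint (inp d N i) v) = 0 := by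
  refine ext_inner_right ℝ fun w => ?_
  rw [← ContinuousLinearMap.adjoint_inner_right, ContinuousLinearMap.adjoint_inner_left,
    inp_adjoint_pathW h k i hk w]
  simp

lemma pathW_self {h : ℝ} (h0 : 0 ≤ h) (h1 : h ≤ 1) :
    ∀ k : ℕ, ∃ c : ℝ, 0 ≤ c ∧ c ≤ 1 ∧ (k ≤ N → c = 1) ∧ ∀ v : EE d,
      pathW d N h k (ContinuousLinearMap.adjoint (pathW d N h k) v) = c • v
  | 0 => ⟨1, by norm_num, le_rfl, fun _ => rfl, fun v => by
      simp only [pathW]; rw [inp_adjoint_inp (by omega), if_pos rfl, one_smul]⟩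
  | k + 1 => by
    obtain ⟨c, c0, c1, cN, hc⟩ := pathW_self h0 h1 k
    have ha : 0 ≤ (1 - h) ^ 2 ∧ (1 - h) ^ 2 ≤ 1 := ⟨sq_nonneg _, by nlinarith⟩
    by_cases hk : k + 1 < N + 1
    · refine ⟨(1 - h) ^ 2 * c + (1 - (1 - h) ^ 2), by nlinarith, by nlinarith,
        fun hN => by rw [cN (by omega)]; ring, fun v => ?_⟩
      rw [adjoint_pathW_succ]
      conv_lhs => simp only [pathW]
      rw [map_add, map_smul, map_smul]
      simp only [add_apply, smul_apply, hc, pathW_adjoint_inp h (Nat.lt_succ_self k),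
        inp_adjoint_pathW h k (k + 1) (Nat.lt_succ_self k), inp_adjoint_inp hk, if_true,
        smul_zero, add_zero, zero_add, smul_smul, beta_sq h0 h1, ← add_smul]
      congr 1; ring
    · refine ⟨(1 - h) ^ 2 * c, by positivity, by nlinarith, fun hN => absurd hN (by omega),
        fun v => ?_⟩
      rw [adjoint_pathW_succ]
      conv_lhs => simp only [pathW]
      simp [inp_eq_zero hk, hc, smul_smul]
      ring_nf

lemma pathW_coisometry {h : ℝ} (h0 : 0 ≤ h) (h1 : h ≤ 1) {k : ℕ} (hk : k ≤ N) :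
    pathW d N h k ∘L ContinuousLinearMap.adjoint (pathW d N h k) = .id ℝ (EE d) := by
  obtain ⟨c, -, -, hc1, hc⟩ := pathW_self (d := d) (N := N) h0 h1 k
  ext1 v
  simp [hc v, hc1 hk]

lemma pathW_corr {h : ℝ} (h0 : 0 ≤ h) (h1 : h ≤ 1) {j k : ℕ} (hjk : j ≤ k) (hk : k ≤ N) :
    pathW d N h j ∘L ContinuousLinearMap.adjoint (pathW d N h k) =
      (1 - h) ^ (k - j) • ContinuousLinearMap.id ℝ (EE d) := by
  induction k, hjk using Nat.le_induction with
  | base => rw [pathW_coisometry h0 h1 hk]; simp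
  | succ k hjk ih =>
    ext1 v
    have hv := DFunLike.congr_fun (ih (by omega)) v
    simp only [ContinuousLinearMap.comp_apply, smul_apply,
      ContinuousLinearMap.id_apply] at hv ⊢
    rw [adjoint_pathW_succ, map_add, map_smul, map_smul, hv,
      pathW_adjoint_inp h (by omega : j < k + 1), smul_zero, add_zero, smul_smul,
      show k + 1 - j = (k - j) + 1 by omega, pow_succ']

lemma pathW_norm {h : ℝ} (h0 : 0 ≤ h) (h1 : h ≤ 1) (k : ℕ) : ‖pathW d N h k‖ ≤ 1 := by
  obtain ⟨c, c0, c1, -, hc⟩ := pathW_self (d := d) (N := N) h0 h1 k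
  have e := ContinuousLinearMap.norm_adjoint_comp_self (ContinuousLinearMap.adjoint (pathW d N h k))
  rw [ContinuousLinearMap.adjoint_adjoint, LinearIsometryEquiv.norm_map] at e
  have h2 : ‖pathW d N h k ∘L ContinuousLinearMap.adjoint (pathW d N h k)‖ ≤ 1 := by
    refine ContinuousLinearMap.opNorm_le_bound _ zero_le_one fun v => ?_
    rw [ContinuousLinearMap.comp_apply, hc, norm_smul, Real.norm_eq_abs, abs_of_nonneg c0]
    exact mul_le_mul_of_nonneg_right c1 (norm_nonneg _)
  nlinarith [norm_nonneg (pathW d N h k)]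

lemma bridge_law {h : ℝ} (h0 : 0 ≤ h) (h1 : h ≤ 1) :
    ((gam d).prod (pgam d N)).map (fun p => bridge d N h p.1 p.2) = pgam d N := by
  set W := pathW d N h N
  set A := ContinuousLinearMap.adjoint W with hA
  set U := ContinuousLinearMap.id ℝ (Path d N) - A ∘L W with hU
  have hWA : ∀ v, W (A v) = v := fun v =>
    DFunLike.congr_fun (pathW_coisometry h0 h1 le_rfl) v
  have hUs : ContinuousLinearMap.adjoint U = U := by
    rw [hU, map_sub, ContinuousLinearMap.adjoint_id, ContinuousLinearMap.adjoint_comp, hA,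
      ContinuousLinearMap.adjoint_adjoint]
  have h2 : A ∘L ContinuousLinearMap.adjoint A + U ∘L ContinuousLinearMap.adjoint U = .id ℝ _ := by
    rw [hUs, hA, ContinuousLinearMap.adjoint_adjoint, ← hA]
    ext1 ω
    simp only [hU, add_apply, ContinuousLinearMap.comp_apply, sub_apply,
      ContinuousLinearMap.id_apply, map_sub, hWA]
    simp
  have h3 := map_prod_coisometry A U h2
  have e : (fun p : EE d × Path d N => bridge d N h p.1 p.2) = fun p => A p.1 + U p.2 := by
    funext p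
    show p.2 + A (p.1 - W p.2) = _
    simp only [hU, sub_apply, ContinuousLinearMap.id_apply, ContinuousLinearMap.comp_apply, map_sub]
    abel
  rw [e]
  exact h3

lemma pathW_bridge {h : ℝ} (h0 : 0 ≤ h) (h1 : h ≤ 1) (x : EE d) (ω : Path d N) {k : ℕ}
    (hk : k ≤ N) :
    pathW d N h k (bridge d N h x ω) =
      pathW d N h k ω + (1 - h) ^ (N - k) • (x - pathW d N h N ω) := by
  have hc := DFunLike.congr_fun (pathW_corr (d := d) h0 h1 hk le_rfl) (x - pathW d N h N ω)
  simp only [ContinuousLinearMap.comp_apply, smul_apply,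
    ContinuousLinearMap.id_apply] at hc
  rw [bridge, map_add, hc]

end Vale.Agent.P347
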