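import Vale.Agent.P347.Gauss

/-!
Module 5, first half: the Gaussian density, the weight `exp (-V)`, integration by parts and
translations in `L¹`.
-/

open MeasureTheory ProbabilityTheory
open scoped RealInnerProductSpace

namespace Vale.Agent.P347

variable {d : ℕ}

/-- The weight of a potential. -/
noncomputable def inv_wt (V : EE d → ℝ) (x : EE d) : ℝ := Real.exp (-V x)

/-- The standard Gaussian density. -/
noncomputable def inv_gd (x : EE d) : ℝ :=
  ((Real.sqrt (2 * Real.pi))⁻¹) ^ d * Real.exp (-(‖x‖ ^ 2 / 2))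

lemma inv_gd_nonneg (x : EE d) : 0 ≤ inv_gd x := by unfold inv_gd; positivity

lemma inv_gd_continuous : Continuous (inv_gd (d := d)) := by unfold inv_gd; fun_prop

lemma inv_pi_withDensity :
    Measure.pi (fun _ : Fin d => gaussianReal 0 1) =
      volume.withDensity (fun x => ENNReal.ofReal (∏ i, gaussianPDFReal 0 1 (x i))) := by
  classical
  refine Measure.pi_eq fun s hs => ?_
  have hm : MeasurableSet (Set.univ.pi s) := MeasurableSet.univ_pi hs
  have hint : Integrable (fun x : Fin d → ℝ => ∏ i, gaussianPDFReal 0 1 (x i)) :=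
    Integrable.fintype_prod (fun _ => integrable_gaussianPDFReal 0 1)
  rw [withDensity_apply _ hm, ← ofReal_integral_eq_lintegral_ofReal hint.integrableOn
    (ae_of_all _ fun x => Finset.prod_nonneg fun i _ => gaussianPDFReal_nonneg 0 1 _)]
  simp only [gaussianReal_apply_eq_integral _ one_ne_zero]
  rw [← ENNReal.ofReal_prod_of_nonneg
    fun i _ => integral_nonneg fun x => gaussianPDFReal_nonneg 0 1 x]
  congr 1
  simp only [← integral_indicator (hs _), ← integral_indicator hm]
  rw [← integral_fintype_prod_volume_eq_prod]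
  refine integral_congr_ae (ae_of_all _ fun x => ?_)
  by_cases hx : x ∈ Set.univ.pi s
  · rw [Set.indicator_of_mem hx]
    exact Finset.prod_congr rfl fun i _ => (Set.indicator_of_mem (hx i trivial) _).symm
  · rw [Set.indicator_of_notMem hx]
    simp only [Set.mem_univ_pi, not_forall] at hx
    obtain ⟨i, hi⟩ := hx
    exact (Finset.prod_eq_zero (Finset.mem_univ i) (Set.indicator_of_notMem hi _)).symm

lemma inv_prod_pdf (x : Fin d → ℝ) :
    ∏ i, gaussianPDFReal 0 1 (x i) = inv_gd (WithLp.toLp 2 x : EE d) := by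
  simp only [gaussianPDFReal, inv_gd, sub_zero, NNReal.coe_one, mul_one, Finset.prod_mul_distrib,
    Finset.prod_const, Finset.card_univ, Fintype.card_fin, ← Real.exp_sum]
  congr 2
  rw [EuclideanSpace.real_norm_sq_eq, ← neg_div, ← Finset.sum_neg_distrib, Finset.sum_div]

lemma inv_gam_eq :
    gam d = volume.withDensity (fun x => ENNReal.ofReal (inv_gd x)) := by
  have e : (WithLp.toLp 2 : (Fin d → ℝ) → EE d) = ⇑(MeasurableEquiv.toLp 2 (Fin d → ℝ)) := rfl
  show stdGaussian (EE d) = _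
  rw [← map_pi_eq_stdGaussian, inv_pi_withDensity]
  refine Measure.ext fun s hs => ?_
  rw [Measure.map_apply (by fun_prop) hs,
    withDensity_apply _ ((by fun_prop : Measurable (WithLp.toLp 2 : (Fin d → ℝ) → EE d)) hs),
    withDensity_apply _ hs,
    ← (PiLp.volume_preserving_toLp (Fin d)).setLIntegral_comp_preimage hs
      (f := fun x => ENNReal.ofReal (inv_gd x))
      (ENNReal.measurable_ofReal.comp inv_gd_continuous.measurable)]
  simp only [inv_prod_pdf]

lemma inv_integral_gam {G : Type*} [NormedAddCommGroup G] [NormedSpace ℝ G] (F : EE d → G) :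
    ∫ x, F x ∂gam d = ∫ x, inv_gd x • F x := by
  rw [inv_gam_eq, integral_withDensity_eq_integral_toReal_smul (by
    exact ENNReal.measurable_ofReal.comp inv_gd_continuous.measurable)
    (ae_of_all _ fun x => ENNReal.ofReal_lt_top)]
  exact integral_congr_ae (ae_of_all _ fun x => by simp [ENNReal.toReal_ofReal (inv_gd_nonneg x)])

lemma inv_integrable_gam_iff {G : Type*} [NormedAddCommGroup G] [NormedSpace ℝ G] (F : EE d → G) :
    Integrable F (gam d) ↔ Integrable fun x => inv_gd x • F x := by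
  rw [inv_gam_eq, integrable_withDensity_iff_integrable_smul'
    (by exact ENNReal.measurable_ofReal.comp inv_gd_continuous.measurable)
    (ae_of_all _ fun x => ENNReal.ofReal_lt_top)]
  simp only [ENNReal.toReal_ofReal (inv_gd_nonneg _)]

lemma inv_pow_gam (k : ℕ) : Integrable (fun x : EE d => ‖x‖ ^ k) (gam d) := by
  have h := IsGaussian.memLp_id (gam d) k ENNReal.coe_ne_top
  simpa using h.integrable_norm_pow'

/-- Polynomials are integrable against the Gaussian weight. -/
lemma inv_pow_exp_integrable (k : ℕ) :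
    Integrable fun x : EE d => ‖x‖ ^ k * Real.exp (-(‖x‖ ^ 2 / 2)) := by
  have h := ((inv_integrable_gam_iff _).1 (inv_pow_gam (d := d) k)).const_mul
    ((((Real.sqrt (2 * Real.pi))⁻¹) ^ d)⁻¹)
  refine h.congr (ae_of_all _ fun x => ?_)
  have : ((Real.sqrt (2 * Real.pi))⁻¹) ^ d ≠ 0 := by positivity
  simp only [inv_gd, smul_eq_mul]
  field_simp

lemma inv_grad_hasDeriv {V : EE d → ℝ} (hV : Admissible V) (x : EE d) :
    HasFDerivAt V (innerSL ℝ (gradient V x)) x := by
  have h := (hV.1.differentiable (by norm_num) x).hasGradientAt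
  exact h.hasFDerivAt.congr_fderiv (by ext v; simp)

lemma gradClass_gradient {V : EE d → ℝ} (hV : Admissible V) : GradClass (gradient V) := by
  obtain ⟨hc, -, h0, hb⟩ := hV
  let L : StrongDual ℝ (EE d) →L[ℝ] EE d :=
    (InnerProductSpace.toDual ℝ (EE d)).symm.toContinuousLinearEquiv.toContinuousLinearMap
  have hg : gradient V = L ∘ fderiv ℝ V := rfl
  have hd : ContDiff ℝ 1 (fderiv ℝ V) := hc.fderiv_right (by norm_num)
  have key : ∀ x u v, ⟪fderiv ℝ (gradient V) x u, v⟫ = fderiv ℝ (fderiv ℝ V) x u v := by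
    intro x u v
    rw [hg, fderiv_comp x L.differentiableAt (hd.differentiable (by norm_num) x), L.fderiv]
    simp only [ContinuousLinearMap.comp_apply]
    exact InnerProductSpace.toDual_symm_apply
  have hh : ∀ x v, hess V x v = fderiv ℝ (fderiv ℝ V) x v v := by
    intro x v
    simp [hess, fderiv_clm_apply (hd.differentiable (by norm_num) x) (differentiableAt_const v)]
  refine ⟨hg ▸ L.contDiff.comp hd, h0, fun x u v => ?_, fun x v => ?_, fun x v => ?_⟩
  · rw [key, real_inner_comm, key]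
    exact (hc.contDiffAt.isSymmSndFDerivAt (by simp)).eq u v
  · rw [key, ← hh]; exact (hb x v).1
  · rw [key, ← hh]; exact (hb x v).2

lemma inv_grad_mono {g : EE d → EE d} (hg : GradClass g) (x : EE d) :
    ‖x‖ ^ 2 ≤ ⟪g x, x⟫ := by
  have hd : ∀ t : ℝ, HasDerivAt (fun s : ℝ => ⟪g (s • x), x⟫) ⟪fderiv ℝ g (t • x) x, x⟫ t := by
    intro t
    have h1 : HasDerivAt (fun s : ℝ => s • x) x t := by
      simpa using (hasDerivAt_id t).smul_const x
    exact ((hg.smooth.differentiable (by norm_num) _).hasFDerivAt.comp_hasDerivAt t h1).inner ℝ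
      (hasDerivAt_const t x) |>.congr_deriv (by simp)
  have hm : Monotone fun s : ℝ => ⟪g (s • x), x⟫ - s * ‖x‖ ^ 2 := by
    refine monotone_of_hasDerivAt_nonneg (fun t => (hd t).sub ((hasDerivAt_id t).mul_const _))
      fun t => ?_
    simpa using sub_nonneg.2 (hg.lower (t • x) x)
  simpa [hg.zero, sub_nonneg] using hm zero_le_one

lemma inv_H_le {g : EE d → EE d} (hg : GradClass g) (y : EE d) : ‖fderiv ℝ g y‖ ≤ 2 := by
  have hs : ((fderiv ℝ g y : EE d →L[ℝ] EE d) : EE d →ₗ[ℝ] EE d).IsSymmetric := hg.symm y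
  rw [ContinuousLinearMap.norm_eq_iSup_rayleighQuotient _ hs]
  refine Real.iSup_le (fun v => ?_) (by norm_num)
  rw [ContinuousLinearMap.rayleighQuotient, ContinuousLinearMap.reApplyInnerSelf_apply]
  simp only [RCLike.re_to_real]
  rcases eq_or_ne v 0 with rfl | hv
  · simp
  · rw [abs_div, abs_of_pos (by positivity : 0 < ‖v‖ ^ 2), div_le_iff₀ (by positivity)]
    exact abs_le.2 ⟨by linarith [hg.lower y v, sq_nonneg ‖v‖], hg.upper y v⟩

lemma inv_grad_le {g : EE d → EE d} (hg : GradClass g) (x : EE d) : ‖g x‖ ≤ 2 * ‖x‖ := by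
  simpa [hg.zero] using convex_univ.norm_image_sub_le_of_norm_fderiv_le (s := Set.univ)
    (fun y _ => hg.smooth.differentiable (by norm_num) y) (fun y _ => inv_H_le hg y)
    (Set.mem_univ (0 : EE d)) (Set.mem_univ x)

lemma inv_V_lower {V : EE d → ℝ} (hV : Admissible V) (x : EE d) : ‖x‖ ^ 2 / 2 ≤ V x := by
  have hg := gradClass_gradient hV
  have hd : ∀ t : ℝ, HasDerivAt (fun s : ℝ => V (s • x)) ⟪gradient V (t • x), x⟫ t := by
    intro t
    have h1 : HasDerivAt (fun s : ℝ => s • x) x t := by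
      simpa using (hasDerivAt_id t).smul_const x
    exact ((inv_grad_hasDeriv hV (t • x)).comp_hasDerivAt t h1).congr_deriv (by simp)
  have hm : MonotoneOn (fun s : ℝ => V (s • x) - s ^ 2 * (‖x‖ ^ 2 / 2)) (Set.Icc 0 1) := by
    refine monotoneOn_of_hasDerivWithinAt_nonneg (convex_Icc 0 1)
      (f' := fun t => ⟪gradient V (t • x), x⟫ - 2 * t * (‖x‖ ^ 2 / 2)) ?_ ?_ ?_
    · exact Continuous.continuousOn (by have := hV.1.continuous; fun_prop)
    · intro t _
      exact ((hd t).sub (((hasDerivAt_pow 2 t).congr_deriv (by ring)).mul_const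
        (‖x‖ ^ 2 / 2))).hasDerivWithinAt
    · intro t ht
      rw [interior_Icc] at ht
      have := inv_grad_mono hg (t • x)
      rw [norm_smul, Real.norm_eq_abs, mul_pow, sq_abs, real_inner_smul_right] at this
      refine sub_nonneg.2 (le_of_mul_le_mul_left ?_ ht.1)
      nlinarith
  have := hm (Set.left_mem_Icc.2 zero_le_one) (Set.right_mem_Icc.2 zero_le_one) zero_le_one
  simpa [hV.2.1, sub_nonneg] using this

lemma inv_wt_le {V : EE d → ℝ} (hV : Admissible V) (x : EE d) :
    inv_wt V x ≤ Real.exp (-(‖x‖ ^ 2 / 2)) :=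
  Real.exp_le_exp.2 (neg_le_neg (inv_V_lower hV x))

lemma inv_wt_continuous {V : EE d → ℝ} (hV : Admissible V) : Continuous (inv_wt V) := by
  have := hV.1.continuous; unfold inv_wt; fun_prop

/-- Polynomial growth is integrable against the weight. -/
lemma inv_wt_integrable {V : EE d → ℝ} (hV : Admissible V) {G : Type*} [NormedAddCommGroup G]
    [NormedSpace ℝ G] [SecondCountableTopologyEither (EE d) G] (f : EE d → G) (hf : Continuous f)
    (C : ℝ) (k : ℕ) (hb : ∀ x, ‖f x‖ ≤ C * (1 + ‖x‖ ^ k)) :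
    Integrable fun x => inv_wt V x • f x := by
  refine (((inv_pow_exp_integrable 0).add (inv_pow_exp_integrable k)).const_mul C).mono'
    ((inv_wt_continuous hV).smul hf).aestronglyMeasurable (ae_of_all _ fun x => ?_)
  rw [norm_smul, Real.norm_eq_abs, inv_wt, Real.abs_exp]
  have h1 := mul_le_mul (inv_wt_le hV x) (hb x) (norm_nonneg _) (Real.exp_pos _).le
  rw [inv_wt] at h1
  refine h1.trans (le_of_eq ?_)
  simp; ring

lemma inv_wt_integrable₀ {V : EE d → ℝ} (hV : Admissible V) : Integrable (inv_wt V) := by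
  simpa using inv_wt_integrable hV (fun _ => (1 : ℝ)) continuous_const 1 0 (by simp)

lemma inv_Z_pos {V : EE d → ℝ} (hV : Admissible V) : 0 < ∫ x, inv_wt V x := by
  refine (integral_pos_iff_support_of_nonneg (fun x => (Real.exp_pos _).le)
    (inv_wt_integrable₀ hV)).2 ?_
  have : Function.support (inv_wt V) = Set.univ :=
    Function.support_eq_univ fun x => (Real.exp_pos _).ne'
  show 0 < volume (Function.support (inv_wt V))
  rw [this]
  exact isOpen_univ.measure_pos _ Set.univ_nonempty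

lemma inv_gibbs_eq {V : EE d → ℝ} (hV : Admissible V) :
    gibbs V = (ENNReal.ofReal (∫ x, inv_wt V x))⁻¹ •
      volume.withDensity (fun x => ENNReal.ofReal (inv_wt V x)) := by
  rw [ofReal_integral_eq_lintegral_ofReal (inv_wt_integrable₀ hV)
    (ae_of_all _ fun x => (Real.exp_pos _).le)]
  rfl

lemma gibbs_prob {V : EE d → ℝ} (hV : Admissible V) : IsProbabilityMeasure (gibbs V) := by
  constructor
  rw [inv_gibbs_eq hV, Measure.smul_apply, withDensity_apply _ MeasurableSet.univ,
    Measure.restrict_univ, ← ofReal_integral_eq_lintegral_ofReal (inv_wt_integrable₀ hV)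
      (ae_of_all _ fun x => (Real.exp_pos _).le), smul_eq_mul]
  exact ENNReal.inv_mul_cancel (by simpa using inv_Z_pos hV) ENNReal.ofReal_ne_top

lemma inv_gibbs_integral {V : EE d → ℝ} (hV : Admissible V) (f : EE d → ℝ) :
    ∫ x, f x ∂gibbs V = (∫ x, inv_wt V x)⁻¹ * ∫ x, inv_wt V x * f x := by
  rw [inv_gibbs_eq hV, integral_smul_measure,
    integral_withDensity_eq_integral_toReal_smul (f := fun x => ENNReal.ofReal (inv_wt V x))
      (ENNReal.measurable_ofReal.comp (inv_wt_continuous hV).measurable)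
      (ae_of_all _ fun x => ENNReal.ofReal_lt_top),
    ENNReal.toReal_inv, ENNReal.toReal_ofReal (inv_Z_pos hV).le, smul_eq_mul]
  simp [ENNReal.toReal_ofReal, inv_wt, (Real.exp_pos _).le]

lemma inv_gibbs_integrable {V : EE d → ℝ} (hV : Admissible V) (f : EE d → ℝ)
    (hf : Integrable fun x => inv_wt V x * f x) : Integrable f (gibbs V) := by
  rw [inv_gibbs_eq hV]
  refine Integrable.smul_measure ?_ (by simpa using inv_Z_pos hV)
  rw [integrable_withDensity_iff_integrable_smul' (f := fun x => ENNReal.ofReal (inv_wt V x))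
    (ENNReal.measurable_ofReal.comp (inv_wt_continuous hV).measurable)
    (ae_of_all _ fun x => ENNReal.ofReal_lt_top)]
  simpa [ENNReal.toReal_ofReal, inv_wt, (Real.exp_pos _).le] using hf

lemma inv_wt_deriv {V : EE d → ℝ} (hV : Admissible V) (x : EE d) :
    HasFDerivAt (inv_wt V) (-(inv_wt V x) • innerSL ℝ (gradient V x)) x := by
  exact (inv_grad_hasDeriv hV x).neg.exp.congr_fderiv (by ext v; simp [inv_wt])

/-- Integration by parts against the weight. -/
lemma inv_ibp {V : EE d → ℝ} (hV : Admissible V) (v : EE d) (f : EE d → ℝ) (f' : EE d → EE d)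
    (hf : ∀ x, HasGradientAt f (f' x) x) (hc : Continuous f') (C : ℝ) (k : ℕ)
    (h1 : ∀ x, |f x| ≤ C * (1 + ‖x‖ ^ k)) (h2 : ∀ x, ‖f' x‖ ≤ C * (1 + ‖x‖ ^ k)) :
    ∫ x, inv_wt V x * ⟪f' x, v⟫ = ∫ x, inv_wt V x * (f x * ⟪gradient V x, v⟫) := by
  have hg := gradClass_gradient hV
  have hgc : Continuous (gradient V) := hg.smooth.continuous
  have hfd : ∀ x, HasFDerivAt f (innerSL ℝ (f' x)) x := fun x =>
    (hf x).hasFDerivAt.congr_fderiv (by ext v; simp)
  have hfc : Continuous f := continuous_iff_continuousAt.2 fun x => (hfd x).continuousAt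
  have hC : 0 ≤ C := by
    have := (abs_nonneg _).trans (h1 0)
    nlinarith [pow_nonneg (norm_nonneg (0 : EE d)) k]
  have i1 : Integrable fun x => inv_wt V x * ⟪f' x, v⟫ := by
    refine inv_wt_integrable hV (fun x => ⟪f' x, v⟫) (by fun_prop) (C * ‖v‖) k fun x => ?_
    refine (norm_inner_le_norm _ _).trans ?_
    exact (mul_le_mul_of_nonneg_right (h2 x) (norm_nonneg v)).trans_eq (by ring)
  have i2 : Integrable fun x => inv_wt V x * (f x * ⟪gradient V x, v⟫) := by
    refine inv_wt_integrable hV (fun x => f x * ⟪gradient V x, v⟫) (by fun_prop)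
      (6 * C * ‖v‖) (k + 1) fun x => ?_
    rw [norm_mul, Real.norm_eq_abs]
    have ha : |f x| * ‖x‖ ≤ C * (‖x‖ + ‖x‖ ^ (k + 1)) :=
      (mul_le_mul_of_nonneg_right (h1 x) (norm_nonneg x)).trans_eq (by ring)
    have hb : ‖x‖ ≤ 1 + ‖x‖ ^ (k + 1) := by
      rcases le_total ‖x‖ 1 with h | h
      · linarith [pow_nonneg (norm_nonneg x) (k + 1)]
      · have h3 : ‖x‖ ≤ ‖x‖ ^ (k + 1) := le_self_pow₀ h (Nat.succ_ne_zero k)
        linarith
    have hi : ‖⟪gradient V x, v⟫‖ ≤ 2 * ‖x‖ * ‖v‖ :=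
      (norm_inner_le_norm _ _).trans (mul_le_mul_of_nonneg_right (inv_grad_le hg x) (norm_nonneg v))
    have e1 : C * (‖x‖ + ‖x‖ ^ (k + 1)) ≤ C * (3 * (1 + ‖x‖ ^ (k + 1))) :=
      mul_le_mul_of_nonneg_left (by linarith [pow_nonneg (norm_nonneg x) (k + 1)]) hC
    calc |f x| * ‖⟪gradient V x, v⟫‖ ≤ |f x| * (2 * ‖x‖ * ‖v‖) :=
          mul_le_mul_of_nonneg_left hi (abs_nonneg _)
      _ = 2 * ‖v‖ * (|f x| * ‖x‖) := by ring
      _ ≤ 2 * ‖v‖ * (C * (3 * (1 + ‖x‖ ^ (k + 1)))) :=
          mul_le_mul_of_nonneg_left (ha.trans e1) (by positivity)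
      _ = _ := by ring
  have i3 : Integrable fun x => inv_wt V x * f x :=
    inv_wt_integrable hV f hfc C k (by simpa using h1)
  have e1 : ∀ x, fderiv ℝ (inv_wt V) x v = -(inv_wt V x) * ⟪gradient V x, v⟫ := fun x => by
    rw [(inv_wt_deriv hV x).fderiv]; simp
  have e2 : ∀ x, fderiv ℝ f x v = ⟪f' x, v⟫ := fun x => by rw [(hfd x).fderiv]; simp
  have := integral_mul_fderiv_eq_neg_fderiv_mul_of_integrable (μ := volume) (v := v)
    (f := inv_wt V) (g := f) ?_ ?_ i3 (fun x _ => (inv_wt_deriv hV x).differentiableAt)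
    (fun x _ => (hfd x).differentiableAt)
  · simp only [e1, e2] at this
    rw [this, ← integral_neg]
    exact integral_congr_ae (ae_of_all _ fun x => by ring)
  · exact i2.neg.congr (ae_of_all _ fun x => by simp [e1]; ring)
  · exact i1.congr (ae_of_all _ fun x => by simp [e2])

/-- Translation in `L¹`, by the derivative along a direction. -/
lemma inv_L1shift {E F : Type*} [NormedAddCommGroup E] [NormedSpace ℝ E] [MeasurableSpace E]
    [BorelSpace E] [SecondCountableTopology E] [NormedAddCommGroup F] [NormedSpace ℝ F]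
    [CompleteSpace F] (μ : Measure E) [SFinite μ] [μ.IsAddRightInvariant] (b : E)
    (u : E → F) (u' : E → F) (hc : Continuous u')
    (hd : ∀ q, ∀ t : ℝ, HasDerivAt (fun s : ℝ => u (q + s • b)) (u' (q + t • b)) t) :
    ∫⁻ q, ‖u (q + b) - u q‖ₑ ∂μ ≤ ∫⁻ q, ‖u' q‖ₑ ∂μ := by
  calc ∫⁻ q, ‖u (q + b) - u q‖ₑ ∂μ
      ≤ ∫⁻ q, ∫⁻ t in Set.Ioc (0 : ℝ) 1, ‖u' (q + t • b)‖ₑ ∂volume ∂μ := by
        refine lintegral_mono fun q => ?_
        have h := intervalIntegral.integral_eq_sub_of_hasDerivAt (a := (0 : ℝ)) (b := 1)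
          (f := fun s : ℝ => u (q + s • b)) (fun t _ => hd q t)
          (Continuous.intervalIntegrable (by fun_prop) _ _)
        simp only [one_smul, zero_smul, add_zero] at h
        rw [← h, intervalIntegral.integral_of_le zero_le_one]
        exact enorm_integral_le_lintegral_enorm _
    _ = ∫⁻ t in Set.Ioc (0 : ℝ) 1, ∫⁻ q, ‖u' (q + t • b)‖ₑ ∂μ ∂volume :=
        lintegral_lintegral_swap (by fun_prop)
    _ = ∫⁻ q, ‖u' q‖ₑ ∂μ := by
        simp [lintegral_add_right_eq_self (μ := μ) (fun q => ‖u' q‖ₑ)]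

/-- Second-order translation in `L¹`. -/
lemma inv_L1second {E F : Type*} [NormedAddCommGroup E] [NormedSpace ℝ E] [MeasurableSpace E]
    [BorelSpace E] [SecondCountableTopology E] [NormedAddCommGroup F] [NormedSpace ℝ F]
    [CompleteSpace F] (μ : Measure E) [SFinite μ] [μ.IsAddRightInvariant] (b : E)
    (u u' u'' : E → F) (hc : Continuous u') (hc2 : Continuous u'')
    (hd : ∀ q, ∀ t : ℝ, HasDerivAt (fun s : ℝ => u (q + s • b)) (u' (q + t • b)) t)
    (hd' : ∀ q, ∀ t : ℝ, HasDerivAt (fun s : ℝ => u' (q + s • b)) (u'' (q + t • b)) t) :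
    ∫⁻ q, ‖u (q + b) - u q - u' q‖ₑ ∂μ ≤ ∫⁻ q, ‖u'' q‖ₑ ∂μ := by
  calc ∫⁻ q, ‖u (q + b) - u q - u' q‖ₑ ∂μ
      ≤ ∫⁻ q, ∫⁻ t in Set.Ioc (0 : ℝ) 1, ‖u' (q + t • b) - u' q‖ₑ ∂volume ∂μ := by
        refine lintegral_mono fun q => ?_
        have h := intervalIntegral.integral_eq_sub_of_hasDerivAt (a := (0 : ℝ)) (b := 1)
          (f := fun s : ℝ => u (q + s • b) - s • u' q)
          (f' := fun t => u' (q + t • b) - u' q)
          (fun t _ => (hd q t).sub (((hasDerivAt_id t).smul_const (u' q)).congr_deriv (one_smul _ _)))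
          (Continuous.intervalIntegrable (by fun_prop) _ _)
        simp only [one_smul, zero_smul, add_zero, sub_zero] at h
        rw [sub_right_comm, ← h, intervalIntegral.integral_of_le zero_le_one]
        exact enorm_integral_le_lintegral_enorm _
    _ = ∫⁻ t in Set.Ioc (0 : ℝ) 1, ∫⁻ q, ‖u' (q + t • b) - u' q‖ₑ ∂μ ∂volume :=
        lintegral_lintegral_swap (by fun_prop)
    _ ≤ ∫⁻ _ in Set.Ioc (0 : ℝ) 1, ∫⁻ q, ‖u'' q‖ₑ ∂μ ∂volume := by
        refine setLIntegral_mono measurable_const fun t ht => ?_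
        refine (inv_L1shift μ (t • b) u' (fun q => t • u'' q) (by fun_prop) fun q r => ?_).trans ?_
        · simp only [smul_smul]
          exact ((hd' q (r * t)).scomp r (((hasDerivAt_id r).mul_const t).congr_deriv (one_mul t)))
        · refine lintegral_mono fun q => ?_
          rw [enorm_smul]
          refine mul_le_of_le_one_left' ?_
          rw [Real.enorm_eq_ofReal ht.1.le]
          exact ENNReal.ofReal_le_one.2 ht.2
    _ = ∫⁻ q, ‖u'' q‖ₑ ∂μ := by simp

end Vale.Agent.P347
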