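import Vale.Agent.P347.InvBase

/-!
Module 5: second moment of the Gibbs law, the final blur, total variation from continuous tests.
-/

open MeasureTheory ProbabilityTheory
open scoped RealInnerProductSpace

namespace Vale.Agent.P347

variable {d : ℕ}

lemma invE_norm_sq_le (x : EE d) (i : Fin d) : |x i| ≤ ‖x‖ := by
  simpa [Real.norm_eq_abs] using PiLp.norm_apply_le x i

lemma invE_norm_sq_integrable {V : EE d → ℝ} (hV : Admissible V) :
    Integrable fun x => inv_wt V x * ‖x‖ ^ 2 := by
  simpa using inv_wt_integrable hV (fun x => ‖x‖ ^ 2) (by fun_prop) 1 2 (fun x => by simp)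

lemma invE_second {V : EE d → ℝ} (hV : Admissible V) :
    ∫ x, inv_wt V x * ‖x‖ ^ 2 ≤ d * ∫ x, inv_wt V x := by
  have hg := gradClass_gradient hV
  have hgc : Continuous (gradient V) := hg.smooth.continuous
  have hgrad : ∀ (i : Fin d) (x : EE d),
      HasGradientAt (fun y : EE d => y i) (EuclideanSpace.single i (1 : ℝ)) x := by
    intro i x
    have h : HasFDerivAt (fun y : EE d => y i) (innerSL ℝ (EuclideanSpace.single i (1 : ℝ))) x := by
      refine (innerSL ℝ (EuclideanSpace.single i (1 : ℝ))).hasFDerivAt.congr_of_eventuallyEq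
        (Filter.Eventually.of_forall fun y => ?_)
      simp [EuclideanSpace.inner_single_left]
    exact hasGradientAt_iff_hasFDerivAt.2 (h.congr_fderiv (by ext v; simp))
  have hint : ∀ i, Integrable fun x => inv_wt V x * (x i * ⟪gradient V x,
      EuclideanSpace.single i (1 : ℝ)⟫) := by
    intro i
    refine inv_wt_integrable hV (fun x => x i * ⟪gradient V x, EuclideanSpace.single i (1 : ℝ)⟫)
      (by fun_prop) 2 2 fun x => ?_
    rw [norm_mul, Real.norm_eq_abs]
    have h1 : ‖⟪gradient V x, EuclideanSpace.single i (1 : ℝ)⟫‖ ≤ 2 * ‖x‖ := by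
      refine (norm_inner_le_norm _ _).trans ?_
      rw [PiLp.norm_single, norm_one, mul_one]
      exact inv_grad_le hg x
    have h2 := mul_le_mul (invE_norm_sq_le x i) h1 (norm_nonneg _) (norm_nonneg x)
    refine h2.trans ?_
    nlinarith [sq_nonneg ‖x‖]
  have key : ∀ i, ∫ x, inv_wt V x = ∫ x, inv_wt V x * (x i * ⟪gradient V x,
      EuclideanSpace.single i (1 : ℝ)⟫) := by
    intro i
    have h := inv_ibp hV (EuclideanSpace.single i (1 : ℝ)) (fun y => y i)
      (fun _ => EuclideanSpace.single i (1 : ℝ)) (hgrad i) continuous_const 1 1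
      (fun x => by
        have := invE_norm_sq_le x i
        simp only [pow_one, one_mul]
        linarith)
      (fun x => by
        rw [PiLp.norm_single, norm_one]
        simp only [pow_one, one_mul]
        linarith [norm_nonneg x])
    simpa [PiLp.norm_single] using h
  calc ∫ x, inv_wt V x * ‖x‖ ^ 2
      ≤ ∫ x, ∑ i, inv_wt V x * (x i * ⟪gradient V x, EuclideanSpace.single i (1 : ℝ)⟫) := by
        refine integral_mono (invE_norm_sq_integrable hV) (integrable_finsetSum _ fun i _ => hint i)
          fun x => ?_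
        simp only [← Finset.mul_sum]
        refine mul_le_mul_of_nonneg_left ((inv_grad_mono hg x).trans (le_of_eq ?_))
          (Real.exp_pos _).le
        rw [PiLp.inner_apply]
        refine Finset.sum_congr rfl fun i _ => ?_
        rw [EuclideanSpace.inner_single_right]
        simp [mul_comm]
    _ = _ := by
        rw [integral_finsetSum _ fun i _ => hint i, ← Finset.sum_congr rfl fun i _ => key i]
        simp

lemma gibbs_moment {V : EE d → ℝ} (hV : Admissible V) :
    Integrable (fun x => ‖x‖ ^ 2) (gibbs V) ∧ ∫ x, ‖x‖ ^ 2 ∂gibbs V ≤ d := by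
  refine ⟨inv_gibbs_integrable hV _ (invE_norm_sq_integrable hV), ?_⟩
  rw [inv_gibbs_integral hV]
  have hZ := inv_Z_pos hV
  rw [← div_eq_inv_mul, div_le_iff₀ hZ]
  exact invE_second hV

/-- First moment of the weight. -/
lemma invE_first {V : EE d → ℝ} (hV : Admissible V) :
    ∫ x, inv_wt V x * ‖x‖ ≤ Real.sqrt d * ∫ x, inv_wt V x := by
  have h2 := invE_second hV
  have i1 : Integrable fun x => inv_wt V x * ‖x‖ := by
    simpa using inv_wt_integrable hV (fun x => ‖x‖) (by fun_prop) 1 1 (fun x => by simp)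
  rcases Nat.eq_zero_or_pos d with hd | hd
  · subst hd
    simp [Subsingleton.elim _ (0 : EE 0)]
  have hs : 0 < Real.sqrt d := Real.sqrt_pos.2 (by exact_mod_cast hd)
  have hs2 : Real.sqrt d * Real.sqrt d = d := Real.mul_self_sqrt (by positivity)
  calc ∫ x, inv_wt V x * ‖x‖
      ≤ ∫ x, ((2 * Real.sqrt d)⁻¹ * (inv_wt V x * ‖x‖ ^ 2) +
          Real.sqrt d / 2 * inv_wt V x) := by
        refine integral_mono i1 (((invE_norm_sq_integrable hV).const_mul _).add
          ((inv_wt_integrable₀ hV).const_mul _)) fun x => ?_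
        have h0 : 0 ≤ inv_wt V x := (Real.exp_pos _).le
        have h3 : ‖x‖ ≤ (2 * Real.sqrt d)⁻¹ * ‖x‖ ^ 2 + Real.sqrt d / 2 := by
          rw [← sub_nonneg]
          have e : (2 * Real.sqrt d)⁻¹ * ‖x‖ ^ 2 + Real.sqrt d / 2 - ‖x‖ =
              (2 * Real.sqrt d)⁻¹ * (‖x‖ - Real.sqrt d) ^ 2 := by
            field_simp; ring
          rw [e]; positivity
        calc inv_wt V x * ‖x‖
            ≤ inv_wt V x * ((2 * Real.sqrt d)⁻¹ * ‖x‖ ^ 2 + Real.sqrt d / 2) :=
              mul_le_mul_of_nonneg_left h3 h0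
          _ = _ := by ring
    _ ≤ _ := by
        rw [integral_add ((invE_norm_sq_integrable hV).const_mul _)
          ((inv_wt_integrable₀ hV).const_mul _), integral_const_mul, integral_const_mul]
        refine (add_le_add_left (mul_le_mul_of_nonneg_left h2 (by positivity)) _).trans
          (le_of_eq ?_)
        field_simp
        rw [Real.sq_sqrt (Nat.cast_nonneg' d)]
        ring

/-- One translation of the weight in `L¹`. -/
lemma invE_shift {V : EE d → ℝ} (hV : Admissible V) (b : EE d) :
    ∫ x, |inv_wt V (x + b) - inv_wt V x| ≤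
      ‖b‖ * (2 * Real.sqrt d * ∫ x, inv_wt V x) := by
  have hg := gradClass_gradient hV
  have hwc := inv_wt_continuous hV
  have hgc : Continuous (gradient V) := hg.smooth.continuous
  have hd : ∀ q : EE d, ∀ t : ℝ, HasDerivAt (fun s : ℝ => inv_wt V (q + s • b))
      (-(inv_wt V (q + t • b)) * ⟪gradient V (q + t • b), b⟫) t := by
    intro q t
    have h1 : HasDerivAt (fun s : ℝ => q + s • b) b t := by
      simpa using ((hasDerivAt_id t).smul_const b).const_add q
    exact ((inv_wt_deriv hV _).comp_hasDerivAt t h1).congr_deriv (by simp)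
  have h := inv_L1shift volume b (inv_wt V)
    (fun q => -(inv_wt V q) * ⟪gradient V q, b⟫) (by fun_prop) hd
  have iu : Integrable fun q => -(inv_wt V q) * ⟪gradient V q, b⟫ := by
    refine (inv_wt_integrable hV (fun q => ⟪gradient V q, b⟫) (by fun_prop) (2 * ‖b‖) 1
      fun q => ?_).neg.congr (ae_of_all _ fun q => by simp)
    refine (norm_inner_le_norm _ _).trans ?_
    have := mul_le_mul_of_nonneg_right (inv_grad_le hg q) (norm_nonneg b)
    nlinarith [norm_nonneg b]
  have iw : Integrable fun x => inv_wt V (x + b) - inv_wt V x :=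
    ((inv_wt_integrable₀ hV).comp_add_right b).sub (inv_wt_integrable₀ hV)
  rw [← ofReal_integral_norm_eq_lintegral_enorm iw,
    ← ofReal_integral_norm_eq_lintegral_enorm iu,
    ENNReal.ofReal_le_ofReal_iff (integral_nonneg fun x => norm_nonneg _)] at h
  simp only [Real.norm_eq_abs] at h
  refine h.trans ?_
  have i1 : Integrable fun x => inv_wt V x * ‖x‖ := by
    simpa using inv_wt_integrable hV (fun x => ‖x‖) (by fun_prop) 1 1 (fun x => by simp)
  calc ∫ x, |-(inv_wt V x) * ⟪gradient V x, b⟫|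
      ≤ ∫ x, 2 * ‖b‖ * (inv_wt V x * ‖x‖) := by
        refine integral_mono iu.abs (i1.const_mul _) fun x => ?_
        rw [abs_mul, abs_neg, abs_of_pos (show 0 < inv_wt V x from Real.exp_pos _)]
        calc inv_wt V x * |⟪gradient V x, b⟫|
            ≤ inv_wt V x * (2 * ‖x‖ * ‖b‖) := by
              refine mul_le_mul_of_nonneg_left ((abs_real_inner_le_norm _ _).trans
                (mul_le_mul_of_nonneg_right (inv_grad_le hg x) (norm_nonneg b))) (Real.exp_pos _).le
          _ = _ := by ring
    _ ≤ _ := by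
        rw [integral_const_mul]
        refine (mul_le_mul_of_nonneg_left (invE_first hV) (by positivity)).trans (le_of_eq ?_)
        ring

lemma blur {V : EE d → ℝ} (hV : Admissible V) {s : ℝ} (hs : 0 ≤ s) {ψ : EE d → ℝ}
    (hψ : Continuous ψ) (hb : ∀ x, |ψ x| ≤ 1) :
    |(∫ x, Gs s ψ x ∂gibbs V) - ∫ x, ψ x ∂gibbs V| ≤ 2 * d * Real.sqrt s := by
  have hZ := inv_Z_pos hV
  set Z := ∫ x, inv_wt V x with hZdef
  have hwc := inv_wt_continuous hV
  have hw0 : ∀ x, 0 ≤ inv_wt V x := fun x => (Real.exp_pos _).le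
  rw [inv_gibbs_integral hV, inv_gibbs_integral hV, ← hZdef, ← mul_sub, abs_mul,
    abs_of_pos (inv_pos.2 hZ)]
  have i2 : Integrable fun x => inv_wt V x * ψ x := by
    simpa using inv_wt_integrable hV ψ hψ 1 0 (fun x => by
      rw [Real.norm_eq_abs, pow_zero]; linarith [hb x])
  have ip : Integrable (Function.uncurry fun (x : EE d) (ξ : EE d) =>
      inv_wt V x * ψ (x + Real.sqrt s • ξ)) ((volume : Measure (EE d)).prod (gam d)) := by
    refine ((inv_wt_integrable₀ hV).mul_prod (integrable_const (1 : ℝ))).mono'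
      (by apply Continuous.aestronglyMeasurable; unfold Function.uncurry; fun_prop)
      (ae_of_all _ fun p => ?_)
    simp only [Function.uncurry, norm_mul, Real.norm_eq_abs, abs_of_nonneg (hw0 _)]
    exact mul_le_mul_of_nonneg_left (hb _) (hw0 _)
  have i1 : Integrable fun x => inv_wt V x * Gs s ψ x :=
    ip.integral_prod_left.congr (ae_of_all _ fun x => by
      simp only [Function.uncurry, Gs, integral_const_mul])
  have key : ∀ ξ : EE d, |(∫ x, inv_wt V x * ψ (x + Real.sqrt s • ξ)) -
      ∫ x, inv_wt V x * ψ x| ≤ Real.sqrt s * ‖ξ‖ * (2 * Real.sqrt d * Z) := by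
    intro ξ
    set b := Real.sqrt s • ξ
    have e : ∫ x, inv_wt V x * ψ (x + b) = ∫ x, inv_wt V (x + -b) * ψ x := by
      rw [← integral_add_right_eq_self (fun x => inv_wt V (x + -b) * ψ x) b]
      simp
    have i3 : Integrable fun x => inv_wt V (x + -b) * ψ x := by
      refine ((inv_wt_integrable₀ hV).comp_add_right (-b)).mul_bdd (c := 1)
        hψ.aestronglyMeasurable (ae_of_all _ fun x => by simpa [Real.norm_eq_abs] using hb x)
    rw [e, ← integral_sub i3 i2]
    refine abs_integral_le_integral_abs.trans ?_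
    refine (integral_mono (i3.sub i2).abs
      ((((inv_wt_integrable₀ hV).comp_add_right (-b)).sub (inv_wt_integrable₀ hV)).abs)
      fun x => ?_).trans ((invE_shift hV (-b)).trans (le_of_eq ?_))
    · simp only [Pi.sub_apply, ← sub_mul, abs_mul]
      exact mul_le_of_le_one_right (abs_nonneg _) (hb x)
    · rw [norm_neg, norm_smul, Real.norm_eq_abs, abs_of_nonneg (Real.sqrt_nonneg s)]
  have e1 : ∫ x, inv_wt V x * Gs s ψ x =
      ∫ ξ, ∫ x, inv_wt V x * ψ (x + Real.sqrt s • ξ) ∂volume ∂gam d := by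
    rw [← integral_integral_swap ip]
    simp only [Gs, integral_const_mul]
  have hn : Integrable (fun ξ : EE d => ‖ξ‖) (gam d) := by simpa using inv_pow_gam (d := d) 1
  have hsd : ∫ ξ, ‖ξ‖ ∂gam d ≤ Real.sqrt d := by
    have h2 := second_moment (EE d)
    rw [finrank_euclideanSpace_fin] at h2
    refine Real.le_sqrt_of_sq_le ?_
    have hv := variance_nonneg (fun ξ : EE d => ‖ξ‖) (gam d)
    have hm : MemLp (fun ξ : EE d => ‖ξ‖) 2 (gam d) :=
      (IsGaussian.memLp_id (gam d) 2 (by norm_num)).norm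
    rw [variance_eq_sub hm] at hv
    simp only [Pi.pow_apply] at hv
    linarith
  have ik := ip.integral_prod_right
  simp only [Function.uncurry] at ik
  rw [e1, ← sub_add_cancel (∫ ξ, ∫ x, inv_wt V x * ψ (x + Real.sqrt s • ξ) ∂volume ∂gam d)
    (∫ ξ, (∫ x, inv_wt V x * ψ x) ∂gam d), ← integral_sub ik (integrable_const _)]
  simp only [integral_const, probReal_univ, one_smul, add_sub_cancel_right]
  calc Z⁻¹ * |∫ ξ, ((∫ x, inv_wt V x * ψ (x + Real.sqrt s • ξ)) -
        ∫ x, inv_wt V x * ψ x) ∂gam d|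
      ≤ Z⁻¹ * ∫ ξ, Real.sqrt s * ‖ξ‖ * (2 * Real.sqrt d * Z) ∂gam d := by
        refine mul_le_mul_of_nonneg_left (abs_integral_le_integral_abs.trans ?_)
          (inv_nonneg.2 hZ.le)
        exact integral_mono (ik.sub (integrable_const _)).abs
          ((hn.const_mul _).mul_const _) key
    _ ≤ Z⁻¹ * (Real.sqrt s * Real.sqrt d * (2 * Real.sqrt d * Z)) := by
        refine mul_le_mul_of_nonneg_left ?_ (inv_nonneg.2 hZ.le)
        rw [integral_mul_const, integral_const_mul]
        exact mul_le_mul_of_nonneg_right (mul_le_mul_of_nonneg_left hsd (Real.sqrt_nonneg s))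
          (by positivity)
    _ = 2 * d * Real.sqrt s := by
        field_simp
        rw [Real.sq_sqrt (Nat.cast_nonneg' d)]

lemma tv_of_tests (μ ν : Measure (EE d)) [IsProbabilityMeasure μ] [IsProbabilityMeasure ν]
    (δ : ℝ) (hδ : ∀ ψ : EE d → ℝ, Continuous ψ → (∀ x, |ψ x| ≤ 1) →
      |(∫ x, ψ x ∂μ) - ∫ x, ψ x ∂ν| ≤ δ)
    (B : Set (EE d)) (hB : MeasurableSet B) : |(μ B).toReal - (ν B).toReal| ≤ δ := by
  have hF : ∀ F : Set (EE d), IsClosed F → |μ.real F - ν.real F| ≤ δ := by
    intro F hF
    have hpos : ∀ n : ℕ, (0 : ℝ) < 1 / ((n : ℝ) + 1) := fun n => by positivity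
    have hlim := tendsto_one_div_add_atTop_nhds_zero_nat (𝕜 := ℝ)
    refine le_of_tendsto (((tendsto_integral_thickenedIndicator_of_isClosed μ hF hpos hlim).sub
      (tendsto_integral_thickenedIndicator_of_isClosed ν hF hpos hlim)).abs)
      (Filter.Eventually.of_forall fun n => hδ _ ?_ fun x => ?_)
    · exact NNReal.continuous_coe.comp (thickenedIndicator (hpos n) F).continuous
    · rw [abs_of_nonneg (NNReal.coe_nonneg _)]
      exact_mod_cast thickenedIndicator_le_one (hpos n) F x
  refine le_of_forall_pos_le_add fun ε hε => ?_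
  have he : ENNReal.ofReal (ε / 2) ≠ 0 := by simpa using half_pos hε
  obtain ⟨F1, h1s, h1c, h1⟩ := hB.exists_isClosed_diff_lt (measure_ne_top μ B) he
  obtain ⟨F2, h2s, h2c, h2⟩ := hB.exists_isClosed_diff_lt (measure_ne_top ν B) he
  set F := F1 ∪ F2
  have hFs : F ⊆ B := Set.union_subset h1s h2s
  have hFm : MeasurableSet F := (h1c.union h2c).measurableSet
  have a : ∀ (ρ : Measure (EE d)) [IsFiniteMeasure ρ],
      ρ (B \ F) < ENNReal.ofReal (ε / 2) →
      ρ.real F ≤ (ρ B).toReal ∧ (ρ B).toReal ≤ ρ.real F + ε / 2 := by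
    intro ρ _ hρ
    refine ⟨measureReal_mono hFs, ?_⟩
    have h := measureReal_diff (μ := ρ) hFs hFm
    have h' : ρ.real (B \ F) ≤ ε / 2 := ENNReal.toReal_le_of_le_ofReal (by linarith) hρ.le
    simp only [measureReal_def] at h h' ⊢
    linarith
  obtain ⟨m1, m2⟩ := a μ ((measure_mono
    (Set.diff_subset_diff_right Set.subset_union_left)).trans_lt h1)
  obtain ⟨n1, n2⟩ := a ν ((measure_mono
    (Set.diff_subset_diff_right Set.subset_union_right)).trans_lt h2)
  have := abs_le.1 (hF F (h1c.union h2c))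
  exact abs_le.2 ⟨by linarith, by linarith⟩

end Vale.Agent.P347
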