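import Vale.Agent.P347.Defs

/-!
Module 5: the value functions of the fine proximal chain, as functions of the pair (centre, state).
-/

open MeasureTheory ProbabilityTheory
open scoped RealInnerProductSpace

namespace Vale.Agent.P347

variable {d : ℕ}

/-- A bounded function of (centre, state) with a bounded continuous gradient in the state. -/
structure InvSlice (F : EE d × EE d → ℝ) (Ψ : EE d × EE d → EE d) (b : ℝ) : Prop where
  cont : Continuous F
  contGrad : Continuous Ψ
  le_one : ∀ p, |F p| ≤ 1
  bound : ∀ p, ‖Ψ p‖ ≤ b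
  grad : ∀ y x, HasGradientAt (fun x' => F (y, x')) (Ψ (y, x)) x

/-- One fine step, acting on functions of (centre, state). -/
noncomputable def inv_upd (g : EE d → EE d) (η h : ℝ) (F : EE d × EE d → ℝ)
    (p : EE d × EE d) : ℝ :=
  Gs (η * (1 - (1 - h) ^ 2)) (fun x => F (p.1, x)) (p.2 - h • (p.2 - p.1 + η • g p.2))

/-- The value after k fine steps. -/
noncomputable def inv_Phi (g : EE d → EE d) (η h : ℝ) (φ : EE d → ℝ) : ℕ → EE d × EE d → ℝ
  | 0 => fun p => φ p.2
  | k + 1 => inv_upd g η h (inv_Phi g η h φ k)

end Vale.Agent.P347
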