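import Vale.Agent.P347.Gauss
import Vale.Agent.P347.Chain
import Vale.Agent.P347.InvBase
import Vale.Agent.P347.InvFamDefs

/-!
Module 5: the value functions of the fine chain are contractions in the state, represent the
reference kernel, and forget the state.
-/

open MeasureTheory ProbabilityTheory
open scoped RealInnerProductSpace

namespace Vale.Agent.P347

variable {d : ℕ} {g : EE d → EE d} {η h : ℝ}

lemma invF_step_norm (hg : GradClass g) (hη : 0 < η) (hη' : η ≤ 1 / 16) (hh : 0 < h)
    (hh' : h ≤ η / 4) (z : EE d) : ‖Chain.stepOp η h (fderiv ℝ g z)‖ ≤ 1 - h := by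
  obtain ⟨N, hN⟩ := exists_nat_ge (8 / h)
  rw [div_le_iff₀ hh] at hN
  have ok : Chain.Ok g η h N := ⟨hg, hη, hη', hh, hh', by linarith⟩
  exact (Chain.norm_stepOp_le ok z).trans (by linarith [mul_pos hh hη])

lemma invF_step_symm (hg : GradClass g) (z u v : EE d) :
    ⟪Chain.stepOp η h (fderiv ℝ g z) u, v⟫ = ⟪u, Chain.stepOp η h (fderiv ℝ g z) v⟫ := by
  simp only [Chain.stepOp, sub_apply, smul_apply, ContinuousLinearMap.id_apply, inner_sub_left,
    inner_sub_right, real_inner_smul_left, real_inner_smul_right, hg.symm z u v]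

lemma inv_upd_slice (hg : GradClass g) (hη : 0 < η) (hη' : η ≤ 1 / 16) (hh : 0 < h)
    (hh' : h ≤ η / 4) {F : EE d × EE d → ℝ} {Ψ : EE d × EE d → EE d} {b : ℝ}
    (hF : InvSlice F Ψ b) : ∃ Ψ', InvSlice (inv_upd g η h F) Ψ' ((1 - h) * b) := by
  have hgs := hg.smooth
  have hgc : Continuous g := hgs.continuous
  have hFc := hF.cont
  have hΨc := hF.contGrad
  have hb : 0 ≤ b := (norm_nonneg _).trans (hF.bound (0, 0))
  set v := η * (1 - (1 - h) ^ 2)
  set S : EE d → EE d →L[ℝ] EE d := fun x => Chain.stepOp η h (fderiv ℝ g x) with hS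
  have hSn : ∀ x, ‖S x‖ ≤ 1 - h := invF_step_norm hg hη hη' hh hh'
  have hSc : Continuous S := by
    have := hgs.continuous_fderiv one_ne_zero
    simp only [hS, Chain.stepOp]
    fun_prop
  set G : EE d × EE d → EE d := fun p =>
    ∫ ξ, Ψ (p.1, p.2 - h • (p.2 - p.1 + η • g p.2) + Real.sqrt v • ξ) ∂gam d
  have iΨ : ∀ p : EE d × EE d, Integrable
      (fun ξ => Ψ (p.1, p.2 - h • (p.2 - p.1 + η • g p.2) + Real.sqrt v • ξ)) (gam d) := fun p =>
    Integrable.of_bound (by apply Continuous.aestronglyMeasurable; fun_prop) b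
      (ae_of_all _ fun ξ => hF.bound _)
  have hGc : Continuous G :=
    continuous_of_dominated (bound := fun _ => b) (fun p => (iΨ p).1)
      (fun p => ae_of_all _ fun ξ => hF.bound _) (integrable_const _)
      (ae_of_all _ fun ξ => by fun_prop)
  have hGb : ∀ p, ‖G p‖ ≤ b := fun p => Chain.norm_integral_le_const _ fun ξ => hF.bound _
  refine ⟨fun p => S p.2 (G p), ?_, ?_, fun p => ?_, fun p => ?_, fun y x => ?_⟩
  · unfold inv_upd Gs
    refine continuous_of_dominated (bound := fun _ => (1 : ℝ))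
      (fun p => by apply Continuous.aestronglyMeasurable; fun_prop)
      (fun p => ae_of_all _ fun ξ => by rw [Real.norm_eq_abs]; exact hF.le_one _)
      (integrable_const _) (ae_of_all _ fun ξ => by fun_prop)
  · exact (hSc.comp continuous_snd).clm_apply hGc
  · rw [← Real.norm_eq_abs]
    exact Chain.norm_integral_le_const _ fun ξ => by rw [Real.norm_eq_abs]; exact hF.le_one _
  · exact ((S p.2).le_opNorm _).trans (mul_le_mul (hSn _) (hGb _) (norm_nonneg _)
      ((norm_nonneg _).trans (hSn p.2)))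
  · have hm : ∀ x', HasFDerivAt (fun x' => x' - h • (x' - y + η • g x')) (S x') x' := by
      intro x'
      have h1 := ((hgs.differentiable one_ne_zero) x').hasFDerivAt
      have h2 := (hasFDerivAt_id x').sub
        ((((hasFDerivAt_id x').sub_const y).add (h1.const_smul η)).const_smul h)
      refine h2.congr_fderiv ?_
      ext1 w
      simp only [hS, Chain.stepOp, sub_apply, add_apply, smul_apply, ContinuousLinearMap.id_apply]
      module
    have hd := hasFDerivAt_integral_of_dominated_of_fderiv_le (𝕜 := ℝ) (μ := gam d) (x₀ := x)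
      (F := fun x' ξ => F (y, x' - h • (x' - y + η • g x') + Real.sqrt v • ξ))
      (F' := fun x' ξ => (innerSL ℝ (Ψ (y, x' - h • (x' - y + η • g x') + Real.sqrt v • ξ))).comp
        (S x'))
      (bound := fun _ => b * 1) Filter.univ_mem
      (Filter.Eventually.of_forall fun x' => by apply Continuous.aestronglyMeasurable; fun_prop)
      (Integrable.of_bound (by apply Continuous.aestronglyMeasurable; fun_prop) 1
        (ae_of_all _ fun ξ => by rw [Real.norm_eq_abs]; exact hF.le_one _))
      (by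
        apply Continuous.aestronglyMeasurable
        exact Continuous.clm_comp (by fun_prop) continuous_const)
      (ae_of_all _ fun ξ x' _ => ?_) (integrable_const _) (ae_of_all _ fun ξ x' _ => ?_)
    · rw [hasGradientAt_iff_hasFDerivAt]
      refine hd.congr_fderiv ?_
      ext1 w
      rw [InnerProductSpace.toDual_apply_apply, ContinuousLinearMap.integral_apply]
      · refine ((integral_congr_ae (ae_of_all _ fun ξ => real_inner_comm (S x w) _)).trans
          ((integral_inner (iΨ (y, x)) (S x w)).trans ?_))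
        exact (invF_step_symm hg x w _).trans (real_inner_comm _ _)
      · exact Integrable.of_bound (by
          apply Continuous.aestronglyMeasurable
          exact Continuous.clm_comp (by fun_prop) continuous_const) (b * 1)
          (ae_of_all _ fun ξ => (ContinuousLinearMap.opNorm_comp_le _ _).trans (mul_le_mul
            ((innerSL_apply_norm ℝ _).trans_le (hF.bound _)) ((hSn x).trans (by linarith))
            (norm_nonneg _) hb))
    · refine (ContinuousLinearMap.opNorm_comp_le _ _).trans (mul_le_mul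
        ((innerSL_apply_norm ℝ _).trans_le (hF.bound _)) ((hSn x').trans (by linarith))
        (norm_nonneg _) hb)
    · have h3 : HasFDerivAt (fun z => F (y, z))
          (innerSL ℝ (Ψ (y, x' - h • (x' - y + η • g x') + Real.sqrt v • ξ)))
          (x' - h • (x' - y + η • g x') + Real.sqrt v • ξ) :=
        (hF.grad y _).hasFDerivAt.congr_fderiv (by ext w; simp)
      exact h3.comp x' ((hm x').add_const _)

lemma inv_Phi_slice (hg : GradClass g) (hη : 0 < η) (hη' : η ≤ 1 / 16) (hh : 0 < h)
    (hh' : h ≤ η / 4) {φ : EE d → ℝ} {Ψ : EE d → EE d} {B : ℝ}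
    (hφ : ∀ x, HasGradientAt φ (Ψ x) x) (hc : Continuous Ψ) (hB : ∀ x, ‖Ψ x‖ ≤ B)
    (h1 : ∀ x, |φ x| ≤ 1) (k : ℕ) :
    ∃ Ψ', InvSlice (inv_Phi g η h φ k) Ψ' ((1 - h) ^ k * B) := by
  induction k with
  | zero =>
    refine ⟨fun p => Ψ p.2, ⟨?_, hc.comp continuous_snd, fun p => h1 _,
      fun p => by simpa using hB p.2, fun y x => hφ x⟩⟩
    exact (continuous_iff_continuousAt.2 fun x => (hφ x).hasFDerivAt.continuousAt).comp
      continuous_snd
  | succ k ih =>
    obtain ⟨Ψ', h'⟩ := ih
    obtain ⟨Ψ'', h''⟩ := inv_upd_slice hg hη hη' hh hh' h'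
    exact ⟨Ψ'', by rw [pow_succ, mul_comm _ (1 - h), mul_assoc]; exact h''⟩

lemma invF_zchain_congr {N : ℕ} (y : EE d) : ∀ (k : ℕ) (ω ω' : Path d N),
    (∀ i ≤ k, inp d N i ω = inp d N i ω') →
      zchain g η h N y k ω = zchain g η h N y k ω'
  | 0, ω, ω', he => by simp only [zchain, he 0 le_rfl]
  | k + 1, ω, ω', he => by
    simp only [zchain, invF_zchain_congr y k ω ω' (fun i hi => he i (hi.trans k.le_succ)),
      he (k + 1) le_rfl]

/-- An input can be replaced by an independent Gaussian. -/
lemma invF_resample (hg : GradClass g) {N : ℕ} (y : EE d) {k : ℕ} (hk : k < N)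
    {f : EE d × EE d → ℝ} (hf : Continuous f) (hb : ∀ p, |f p| ≤ 1) :
    ∫ ω, ∫ ξ, f (zchain g η h N y k ω, ξ) ∂gam d ∂pgam d N =
      ∫ ω, f (zchain g η h N y k ω, inp d N (k + 1) ω) ∂pgam d N := by
  set A := ContinuousLinearMap.adjoint (inp d N (k + 1))
  set T := ContinuousLinearMap.id ℝ (Path d N) - A ∘L inp d N (k + 1) with hT
  have hjA : ∀ v, inp d N (k + 1) (A v) = v := fun v => by
    rw [inp_adjoint_inp (by omega), if_pos rfl]
  have hTU : T ∘L ContinuousLinearMap.adjoint T + A ∘L ContinuousLinearMap.adjoint A =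
      ContinuousLinearMap.id ℝ (Path d N) := by
    have e : ContinuousLinearMap.adjoint T = T := by
      refine (ContinuousLinearMap.ext fun a => ext_inner_right ℝ fun b => ?_)
      rw [ContinuousLinearMap.adjoint_inner_left]
      simp only [hT, sub_apply, ContinuousLinearMap.id_apply, ContinuousLinearMap.comp_apply,
        inner_sub_left, inner_sub_right]
      simp only [A, ContinuousLinearMap.adjoint_inner_left, ContinuousLinearMap.adjoint_inner_right]
    rw [e, ContinuousLinearMap.adjoint_adjoint]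
    ext1 ω
    simp only [hT, sub_apply, add_apply, ContinuousLinearMap.id_apply,
      ContinuousLinearMap.comp_apply, map_sub, hjA, sub_self, map_zero, sub_zero, sub_add_cancel]
  have hzc : Continuous (fun ω => zchain g η h N y k ω) :=
    (Chain.continuous_z hg.smooth k).comp (continuous_const.prodMk continuous_id)
  have hmap := map_prod_coisometry T A hTU
  have hTA : Continuous fun p : Path d N × EE d => T p.1 + A p.2 :=
    (T.continuous.comp continuous_fst).add (A.continuous.comp continuous_snd)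
  have hfz : Continuous fun ω => f (zchain g η h N y k ω, inp d N (k + 1) ω) :=
    hf.comp (hzc.prodMk (inp d N (k + 1)).continuous)
  conv_rhs => rw [pgam, ← hmap]
  rw [integral_map hTA.aemeasurable hfz.aestronglyMeasurable, integral_prod]
  · refine integral_congr_ae (ae_of_all _ fun ω => integral_congr_ae (ae_of_all _ fun ξ => ?_))
    have e1 : inp d N (k + 1) (T ω + A ξ) = ξ := by simp [hT, hjA]
    have e2 : zchain g η h N y k (T ω + A ξ) = zchain g η h N y k ω := by
      refine invF_zchain_congr y k _ _ fun i hi => ?_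
      have hz : ∀ v, inp d N i (A v) = 0 := fun v => by
        rw [inp_adjoint_inp (by omega), if_neg (by omega)]
      simp [hT, hz]
    simp only [e1, e2]
  · exact Integrable.of_bound (hfz.comp hTA).aestronglyMeasurable 1
      (ae_of_all _ fun p => by rw [Real.norm_eq_abs]; exact hb _)

lemma inv_Rop_eq (hg : GradClass g) (hη : 0 < η) (hη' : η ≤ 1 / 16) (hh : 0 < h)
    (hh' : h ≤ η / 4) {φ : EE d → ℝ} {Ψ : EE d → EE d} {B : ℝ}
    (hφ : ∀ x, HasGradientAt φ (Ψ x) x) (hc : Continuous Ψ) (hB : ∀ x, ‖Ψ x‖ ≤ B)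
    (h1 : ∀ x, |φ x| ≤ 1) (N : ℕ) (y : EE d) :
    Rop g η h N φ y = Gs η (fun x => inv_Phi g η h φ N (y, x)) y := by
  have hsl := fun j => inv_Phi_slice hg hη hη' hh hh' hφ hc hB h1 j
  have hgc : Continuous g := hg.smooth.continuous
  have key : ∀ j, j ≤ N →
      ∫ ω, inv_Phi g η h φ j (y, zchain g η h N y (N - j) ω) ∂pgam d N = Rop g η h N φ y := by
    intro j
    induction j with
    | zero => intro _; rfl
    | succ j ih =>
      intro hj
      rw [← ih (by omega)]
      obtain ⟨Ψ', hΦ⟩ := hsl j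
      have hΦc := hΦ.cont
      have hk : N - (j + 1) < N := by omega
      have hsq : Real.sqrt (η * (1 - (1 - h) ^ 2)) = Real.sqrt η * beta h := Real.sqrt_mul hη.le _
      have hr := invF_resample (η := η) (h := h) hg y hk
        (f := fun p => inv_Phi g η h φ j
          (y, p.1 - h • (p.1 - y + η • g p.1) + (Real.sqrt η * beta h) • p.2))
        (by fun_prop) (fun p => hΦ.le_one _)
      rw [show N - j = N - (j + 1) + 1 by omega]
      simp only [zchain]
      rw [← hr]
      simp only [inv_Phi, inv_upd, Gs, hsq]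
  rw [← key N le_rfl, Nat.sub_self]
  obtain ⟨Ψ', hΦ⟩ := hsl N
  have hΦc := hΦ.cont
  have h0 : inp d N 0 ∘L ContinuousLinearMap.adjoint (inp d N 0) = .id ℝ (EE d) := by
    ext1 v
    simp [inp_adjoint_inp (Nat.succ_pos N)]
  simp only [zchain, Gs]
  conv_rhs => rw [gam, ← map_coisometry (inp d N 0) h0]
  rw [integral_map (by fun_prop) (by apply Continuous.aestronglyMeasurable; fun_prop)]

lemma inv_Rop_near (hg : GradClass g) (hη : 0 < η) (hη' : η ≤ 1 / 16) (hh : 0 < h)
    (hh' : h ≤ η / 4) {φ : EE d → ℝ} {Ψ : EE d → EE d} {B : ℝ}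
    (hφ : ∀ x, HasGradientAt φ (Ψ x) x) (hc : Continuous Ψ) (hB : ∀ x, ‖Ψ x‖ ≤ B)
    (h1 : ∀ x, |φ x| ≤ 1) (N : ℕ) (y x : EE d) :
    |Rop g η h N φ y - inv_Phi g η h φ N (y, x)| ≤
      B * (1 - h) ^ N * (‖y - x‖ + Real.sqrt η * (d + 1)) := by
  obtain ⟨Ψ', hΦ⟩ := inv_Phi_slice hg hη hη' hh hh' hφ hc hB h1 N
  have hΦc := hΦ.cont
  have hb : 0 ≤ (1 - h) ^ N * B := (norm_nonneg _).trans (hΦ.bound (0, 0))
  have hlip : ∀ u w, |inv_Phi g η h φ N (y, u) - inv_Phi g η h φ N (y, w)| ≤
      (1 - h) ^ N * B * ‖u - w‖ := by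
    intro u w
    have hd : ∀ z, HasFDerivAt (fun x' => inv_Phi g η h φ N (y, x'))
        (innerSL ℝ (Ψ' (y, z))) z := fun z =>
      (hΦ.grad y z).hasFDerivAt.congr_fderiv (by ext v; simp)
    have := convex_univ.norm_image_sub_le_of_norm_fderiv_le (s := (Set.univ : Set (EE d)))
      (f := fun x' => inv_Phi g η h φ N (y, x')) (C := (1 - h) ^ N * B)
      (fun z _ => (hd z).differentiableAt) (fun z _ => by
        rw [(hd z).fderiv]; exact (innerSL_apply_norm ℝ _).trans_le (hΦ.bound _))
      (Set.mem_univ w) (Set.mem_univ u)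
    simpa [Real.norm_eq_abs] using this
  have i1 : Integrable (fun ξ => inv_Phi g η h φ N (y, y + Real.sqrt η • ξ)) (gam d) :=
    Integrable.of_bound (by apply Continuous.aestronglyMeasurable; fun_prop) 1
      (ae_of_all _ fun ξ => by rw [Real.norm_eq_abs]; exact hΦ.le_one _)
  have hn : Integrable (fun ξ : EE d => ‖ξ‖) (gam d) := by simpa using inv_pow_gam (d := d) 1
  have hn2 : ∫ ξ, ‖ξ‖ ∂gam d ≤ (d : ℝ) + 1 := by
    have h2 := second_moment (EE d)
    rw [finrank_euclideanSpace_fin] at h2
    refine le_trans (integral_mono hn ((inv_pow_gam (d := d) 2).add (integrable_const (1 : ℝ)))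
      fun ξ => ?_) (le_of_eq ?_)
    · simp only [Pi.add_apply]
      nlinarith [sq_nonneg (‖ξ‖ - 1), norm_nonneg ξ]
    · rw [integral_add' (inv_pow_gam (d := d) 2) (integrable_const _), h2]
      simp
  have e : Gs η (fun x' => inv_Phi g η h φ N (y, x')) y - inv_Phi g η h φ N (y, x) =
      ∫ ξ, (inv_Phi g η h φ N (y, y + Real.sqrt η • ξ) - inv_Phi g η h φ N (y, x)) ∂gam d := by
    rw [integral_sub i1 (integrable_const _)]
    simp [Gs]
  rw [inv_Rop_eq hg hη hη' hh hh' hφ hc hB h1 N y, e]
  refine abs_integral_le_integral_abs.trans ?_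
  refine (integral_mono (i1.sub (integrable_const _)).abs
    (((integrable_const ‖y - x‖).add (hn.const_mul (Real.sqrt η))).const_mul
      ((1 - h) ^ N * B)) fun ξ => ?_).trans ?_
  · refine (hlip _ _).trans (mul_le_mul_of_nonneg_left ?_ hb)
    simp only [Pi.add_apply]
    refine (le_of_eq (by congr 1; abel :
      ‖y + Real.sqrt η • ξ - x‖ = ‖(y - x) + Real.sqrt η • ξ‖)).trans ?_
    refine (norm_add_le _ _).trans (le_of_eq ?_)
    rw [norm_smul, Real.norm_eq_abs, abs_of_nonneg (Real.sqrt_nonneg η)]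
  · rw [integral_const_mul, integral_add' (integrable_const _) (hn.const_mul _),
      integral_const_mul, mul_comm B]
    refine mul_le_mul_of_nonneg_left ?_ hb
    simp only [integral_const, probReal_univ, one_smul]
    linarith [mul_le_mul_of_nonneg_left hn2 (Real.sqrt_nonneg η)]

end Vale.Agent.P347
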