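import Vale.Agent.P347.InvStep
import Vale.Agent.P347.InvFamDefs
import Vale.Agent.P347.Chain

/-!
Module 5: one fine step changes the integral of a value function against the joint law by
`O (b h √h)`.
-/

open MeasureTheory ProbabilityTheory
open scoped RealInnerProductSpace

namespace Vale.Agent.P347

local instance inv_right_invariant {d : ℕ} :
    (volume : Measure (EE d × EE d)).IsAddRightInvariant := by
  rw [Measure.volume_eq_prod]; infer_instance

variable {d : ℕ} {V : EE d → ℝ} {η h b : ℝ} {F : EE d × EE d → ℝ} {Ψ : EE d × EE d → EE d}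

/-- Centre and state of a joint point. -/
noncomputable def inv_P (η : ℝ) (q : EE d × EE d) : EE d × EE d := (inv_Y η q, q.1)

lemma inv_P_continuous (η : ℝ) : Continuous (inv_P (d := d) η) := by
  unfold inv_P inv_Y; fun_prop

lemma inv_P_shift (hη : 0 < η) (q : EE d × EE d) (a : EE d) :
    inv_P η (q + inv_inj η a) = (inv_Y η q, q.1 + a) := by
  refine Prod.ext (inv_Y_shift hη q a) ?_
  simp [inv_P, inv_inj]

lemma InvSlice.cd (hS : InvSlice F Ψ b) (y : EE d) :
    ContDiff ℝ 1 (fun x => F (y, x)) ∧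
      ∀ x, fderiv ℝ (fun x => F (y, x)) x = innerSL ℝ (Ψ (y, x)) := by
  have e : ∀ x, HasFDerivAt (fun x => F (y, x)) (innerSL ℝ (Ψ (y, x))) x := fun x =>
    (hS.grad y x).hasFDerivAt.congr_fderiv (by ext v; simp)
  refine ⟨contDiff_one_iff_fderiv.2 ⟨fun x => (e x).differentiableAt, ?_⟩, fun x => (e x).fderiv⟩
  rw [funext fun x => (e x).fderiv]
  exact (innerSL ℝ).continuous.comp (hS.contGrad.comp (by fun_prop))

lemma InvSlice.b_nonneg (hS : InvSlice F Ψ b) : 0 ≤ b := (norm_nonneg _).trans (hS.bound (0, 0))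

/-- Smoothing a slice gives a function with Lipschitz gradient. -/
lemma inv_smooth_taylor (hS : InvSlice F Ψ b) {s : ℝ} (hs : 0 < s) (y x a : EE d) :
    |Gs s (fun z => F (y, z)) (x - a) - Gs s (fun z => F (y, z)) x
        + ⟪Gs s (fun z => Ψ (y, z)) x, a⟫| ≤ b / Real.sqrt s * ‖a‖ ^ 2 := by
  obtain ⟨hcd, hfd⟩ := hS.cd y
  set GΨ := Gs s (fun z => Ψ (y, z)) with hGΨ
  have hΨc : Continuous fun z => Ψ (y, z) := hS.contGrad.comp (by fun_prop)
  have hd : ∀ z, HasFDerivAt (Gs s (fun z => F (y, z))) (innerSL ℝ (GΨ z)) z := fun z => by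
    refine (gs_fderiv _ hcd (K := b) (fun w => ?_) z).congr_fderiv ?_
    · rw [hfd, innerSL_apply_norm]; exact hS.bound _
    · simp only [hfd]
      exact (innerSL ℝ).integral_comp_comm
        (Integrable.of_bound (hΨc.comp (by fun_prop)).aestronglyMeasurable b
          (ae_of_all _ fun ξ => hS.bound _))
  obtain ⟨hc1, hb1⟩ := gs_deriv hs (fun z => Ψ (y, z)) hΨc (fun z => hS.bound _)
  have hL : ∀ z, ‖fderiv ℝ GΨ z‖ ≤ b / Real.sqrt s := fun z => by
    refine (Chain.norm_le_hsn _).trans ?_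
    refine le_of_pow_le_pow_left₀ two_ne_zero (div_nonneg hS.b_nonneg (Real.sqrt_nonneg s)) ?_
    rw [div_pow, Real.sq_sqrt hs.le]
    refine (hb1 z).trans (div_le_div_of_nonneg_right ?_ hs.le)
    have h1 : ∫ ξ, ‖Ψ (y, z + Real.sqrt s • ξ)‖ ^ 2 ∂gam d ≤ b ^ 2 := by
      refine (integral_mono_of_nonneg (ae_of_all _ fun ξ => sq_nonneg _) (integrable_const (b ^ 2))
        (ae_of_all _ fun ξ => pow_le_pow_left₀ (norm_nonneg _) (hS.bound _) 2)).trans ?_
      simp
    linarith [sq_nonneg ‖Gs s (fun z => Ψ (y, z)) z‖]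
  have hlip : ∀ z, ‖GΨ z - GΨ x‖ ≤ b / Real.sqrt s * ‖z - x‖ := fun z =>
    convex_univ.norm_image_sub_le_of_norm_fderiv_le
      (fun w _ => hc1.differentiable (by norm_num) w) (fun w _ => hL w) trivial trivial
  have hseg : ∀ z ∈ segment ℝ x (x - a),
      ‖innerSL ℝ (GΨ z) - innerSL ℝ (GΨ x)‖ ≤ b / Real.sqrt s * ‖a‖ := fun z hz => by
    rw [← map_sub, innerSL_apply_norm]
    refine (hlip z).trans (mul_le_mul_of_nonneg_left ?_
      (div_nonneg hS.b_nonneg (Real.sqrt_nonneg s)))
    simpa using norm_sub_le_of_mem_segment hz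
  have := (convex_segment x (x - a)).norm_image_sub_le_of_norm_hasFDerivWithin_le'
    (fun z _ => (hd z).hasFDerivWithinAt) hseg (left_mem_segment ℝ x (x - a))
    (right_mem_segment ℝ x (x - a))
  rw [show x - a - x = -a by abel, map_neg, sub_neg_eq_add, norm_neg, Real.norm_eq_abs,
    mul_assoc, ← pow_two] at this
  simpa using this

section measure

variable (hV : Admissible V) (hη : 0 < η) (hη1 : η ≤ 1 / 16)

include hV in
lemma inv_w_int : Integrable (inv_w V) := by
  simpa using inv_w_integrable hV (fun _ => (1 : ℝ)) continuous_const 1 0 fun q => by norm_num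

omit hV hη hη1 in
lemma inv_norm_le_of_lintegral {α G : Type*} [MeasurableSpace α] [NormedAddCommGroup G]
    (μ : Measure α) (f : α → G) (hf : Integrable f μ) (r : ℝ) (hr : 0 ≤ r)
    (h : ∫⁻ x, ‖f x‖ₑ ∂μ ≤ ENNReal.ofReal r) : ∫ x, ‖f x‖ ∂μ ≤ r := by
  rw [integral_norm_eq_lintegral_enorm hf.aestronglyMeasurable]
  exact ENNReal.toReal_le_of_le_ofReal hr h

include hV hη hη1 in
lemma inv_G2_lintegral (v : EE d) :
    ∫⁻ q, ‖inv_G2 V η v q‖ₑ ≤ ENNReal.ofReal (‖v‖ * ∫ q, inv_K V η q) := by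
  rw [← integral_const_mul, ofReal_integral_eq_lintegral_ofReal ((inv_K_int hV hη).const_mul _)
    (ae_of_all _ fun q => mul_nonneg (norm_nonneg _) (mul_nonneg (inv_w_pos q) (by positivity)))]
  refine lintegral_mono fun q => ?_
  rw [← ofReal_norm]
  exact ENNReal.ofReal_le_ofReal (inv_G2_norm hV hη hη1 v q)

include hη in
omit hV hη1 in
lemma inv_K_nonneg : 0 ≤ ∫ q, inv_K V η q :=
  integral_nonneg fun q => mul_nonneg (inv_w_pos q) (by positivity)

lemma inv_G2_continuous (hV : Admissible V) (η : ℝ) (v : EE d) : Continuous (inv_G2 V η v) := by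
  have := inv_w_continuous hV; have := inv_D_continuous (η := η) hV
  have := inv_G_continuous (η := η) hV
  have h : Continuous fun q : EE d × EE d => fderiv ℝ (gradient V) q.1 v :=
    (((gradClass_gradient hV).smooth.continuous_fderiv (by norm_num)).comp
      continuous_fst).clm_apply continuous_const
  unfold inv_G2; fun_prop

include hV hη hη1 in
/-- Translation of the first derivative of the weight. -/
lemma inv_G_shift (v : EE d) :
    ∫ q, ‖inv_G V η (q + inv_inj η v) - inv_G V η q‖ ≤ ‖v‖ * ∫ q, inv_K V η q := by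
  have hi := (inv_G_le hV hη hη1).1
  refine inv_norm_le_of_lintegral _ _ ((hi.comp_add_right _).sub hi) _
    (mul_nonneg (norm_nonneg _) (inv_K_nonneg hη)) ?_
  exact (inv_L1shift volume (inv_inj η v) (inv_G V η) (inv_G2 V η v) (inv_G2_continuous hV η v)
    (fun q t => inv_G_deriv hV hη q v t)).trans (inv_G2_lintegral hV hη hη1 v)

include hV hη hη1 in
/-- Second-order translation of the weight. -/
lemma inv_w_second (v : EE d) :
    ∫ q, |inv_w V (q + inv_inj η v) - inv_w V q - ⟪inv_G V η q, v⟫| ≤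
      ‖v‖ ^ 2 * ∫ q, inv_K V η q := by
  have hi := inv_w_int hV
  have hG := (inv_G_le hV hη hη1).1.inner_const (𝕜 := ℝ) v
  refine inv_norm_le_of_lintegral volume _ (((hi.comp_add_right _).sub hi).sub hG) _
    (mul_nonneg (sq_nonneg _) (inv_K_nonneg hη)) ?_
  refine (inv_L1second volume (inv_inj η v) (inv_w V) (fun q => ⟪inv_G V η q, v⟫)
    (fun q => ⟪inv_G2 V η v q, v⟫) ((inv_G_continuous hV).inner continuous_const)
    ((inv_G2_continuous hV η v).inner continuous_const) (fun q t => inv_w_deriv hV hη q v t)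
    (fun q t => ((inv_G_deriv hV hη q v t).inner ℝ (hasDerivAt_const t v)).congr_deriv
      (by simp))).trans ?_
  refine (lintegral_mono (g := fun q => ENNReal.ofReal ‖v‖ * ‖inv_G2 V η v q‖ₑ)
    fun q => ?_).trans ?_
  · dsimp only
    rw [← ofReal_norm, ← ofReal_norm, ← ENNReal.ofReal_mul (norm_nonneg _)]
    exact ENNReal.ofReal_le_ofReal ((norm_inner_le_norm _ _).trans_eq (mul_comm _ _))
  · rw [lintegral_const_mul' _ _ ENNReal.ofReal_ne_top, pow_two, mul_assoc,
      ENNReal.ofReal_mul (norm_nonneg _)]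
    gcongr
    exact inv_G2_lintegral hV hη hη1 v

include hV hη in
omit hη1 in
/-- The first difference of a slice, moved onto the weight. -/
lemma inv_swap (hS : InvSlice F Ψ b) (v : EE d) :
    ∫ q, inv_w V q * (F (inv_P η (q + inv_inj η v)) - F (inv_P η q)) =
      ∫ t in (0 : ℝ)..1, ∫ q, inv_w V (q - t • inv_inj η v) * ⟪Ψ (inv_P η q), v⟫ := by
  set a := inv_inj η v
  have hP := inv_P_continuous (d := d) η
  have hc := inv_w_continuous hV
  have := hS.contGrad
  have e : ∀ q, F (inv_P η (q + a)) - F (inv_P η q) =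
      ∫ t in (0 : ℝ)..1, ⟪Ψ (inv_P η (q + t • a)), v⟫ := fun q => by
    have hd : ∀ t : ℝ, HasDerivAt (fun r : ℝ => F (inv_P η (q + r • a)))
        ⟪Ψ (inv_P η (q + t • a)), v⟫ t := fun t => by
      have e1 : ∀ r : ℝ, inv_P η (q + r • a) = (inv_Y η q, q.1 + r • v) := fun r => by
        rw [← map_smul, inv_P_shift hη]
      simp only [e1]
      refine (((hS.grad (inv_Y η q) (q.1 + t • v)).hasFDerivAt).comp_hasDerivAt t
        (((hasDerivAt_id t).smul_const v).const_add q.1)).congr_deriv ?_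
      simp
    rw [intervalIntegral.integral_eq_sub_of_hasDerivAt (fun t _ => hd t)
      (Continuous.intervalIntegrable (by fun_prop) _ _)]
    simp
  simp only [e, intervalIntegral.integral_of_le zero_le_one, ← integral_const_mul]
  rw [integral_integral_swap]
  · refine setIntegral_congr_fun measurableSet_Ioc fun t _ => ?_
    rw [← integral_sub_right_eq_self (fun q => inv_w V q * ⟪Ψ (inv_P η (q + t • a)), v⟫) (t • a)]
    simp
  · refine (((inv_w_int hV).mul_const (b * ‖v‖)).comp_fst (volume.restrict (Set.Ioc (0 : ℝ) 1))).mono'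
      (by fun_prop) (ae_of_all _ fun p => ?_)
    rw [Function.uncurry, norm_mul, Real.norm_eq_abs, abs_of_nonneg (inv_w_pos _)]
    exact mul_le_mul_of_nonneg_left ((norm_inner_le_norm _ _).trans
      (mul_le_mul_of_nonneg_right (hS.bound _) (norm_nonneg _))) (inv_w_pos _)

include hV hη hη1 in
/-- The symmetrised second difference of a slice. -/
lemma inv_sym_diff (hS : InvSlice F Ψ b) (v : EE d) :
    |(∫ q, inv_w V q * (F (inv_P η (q + inv_inj η v)) - F (inv_P η q))) +
        (∫ q, inv_w V q * (F (inv_P η (q + inv_inj η (-v))) - F (inv_P η q))) +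
        ∫ q, ⟪inv_G V η q, v⟫ * ⟪Ψ (inv_P η q), v⟫| ≤
      2 * b * ‖v‖ ^ 3 * ∫ q, inv_K V η q := by
  have hb := hS.b_nonneg
  have hK := inv_K_nonneg (V := V) hη
  have hP := inv_P_continuous (d := d) η
  have hw := inv_w_continuous hV
  have := hS.contGrad
  have hwi := inv_w_int hV
  have hGi := (inv_G_le hV hη hη1).1
  set a := inv_inj η v
  set X := ∫ q, ⟪inv_G V η q, v⟫ * ⟪Ψ (inv_P η q), v⟫
  set p := fun q => ⟪Ψ (inv_P η q), v⟫
  have hpc : Continuous p := by fun_prop
  have hp : ∀ q, ‖p q‖ ≤ b * ‖v‖ := fun q => (norm_inner_le_norm _ _).trans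
    (mul_le_mul_of_nonneg_right (hS.bound _) (norm_nonneg _))
  have hi : ∀ t : ℝ, Integrable fun q => inv_w V (q + t • a) * p q := fun t =>
    ((hwi.comp_add_right (t • a)).bdd_mul hpc.aestronglyMeasurable (ae_of_all _ hp)).congr
      (ae_of_all _ fun q => mul_comm _ _)
  have hcI : ∀ r : ℝ, Continuous fun t : ℝ => ∫ q, inv_w V q * p (q + (r * t) • a) := fun r => by
    refine continuous_of_dominated (bound := fun q => inv_w V q * (b * ‖v‖))
      (fun t => (by fun_prop : Continuous fun q => inv_w V q * p (q + (r * t) • a)).aestronglyMeasurable)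
      (fun t => ae_of_all _ fun q => ?_) (hwi.mul_const _) (ae_of_all _ fun q => by fun_prop)
    rw [norm_mul, Real.norm_eq_abs, abs_of_nonneg (inv_w_pos _)]
    exact mul_le_mul_of_nonneg_left (hp _) (inv_w_pos _)
  have hsh : ∀ t : ℝ, ∫ q, inv_w V (q + t • a) * p q = ∫ q, inv_w V q * p (q + (-1 * t) • a) :=
    fun t => by
      rw [← integral_add_right_eq_self (fun q => inv_w V q * p (q + (-1 * t) • a)) (t • a)]
      simp
  have hsh' : ∀ t : ℝ, ∫ q, inv_w V (q - t • a) * p q = ∫ q, inv_w V q * p (q + (1 * t) • a) :=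
    fun t => by
      rw [← integral_add_right_eq_self (fun q => inv_w V (q - t • a) * p q) (t • a)]
      simp
  have e1 := inv_swap hV hη hS v
  have e2 : ∫ q, inv_w V q * (F (inv_P η (q + inv_inj η (-v))) - F (inv_P η q)) =
      ∫ t in (0 : ℝ)..1, -∫ q, inv_w V (q + t • a) * p q := by
    rw [inv_swap hV hη hS (-v)]
    refine intervalIntegral.integral_congr fun t _ => ?_
    simp [p, a, ← integral_neg]
  have e3 : X = ∫ t in (0 : ℝ)..1, 2 * t * X := by
    rw [intervalIntegral.integral_mul_const, intervalIntegral.integral_const_mul, integral_id]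
    ring
  have hc1 : Continuous fun t : ℝ => ∫ q, inv_w V (q - t • a) * p q := by
    simp only [hsh']; exact hcI 1
  have hc2 : Continuous fun t : ℝ => ∫ q, inv_w V (q + t • a) * p q := by
    simp only [hsh]; exact hcI (-1)
  rw [e1, e2, e3, ← intervalIntegral.integral_add, ← intervalIntegral.integral_add,
    ← Real.norm_eq_abs]
  rotate_left
  all_goals try first
    | exact (hc1.add hc2.neg).intervalIntegrable _ _
    | exact hc1.intervalIntegrable _ _
    | exact hc2.neg.intervalIntegrable _ _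
    | exact Continuous.intervalIntegrable (by fun_prop) _ _
  refine (intervalIntegral.norm_integral_le_of_norm_le_const
    (C := 2 * b * ‖v‖ ^ 3 * ∫ q, inv_K V η q) fun t ht => ?_).trans_eq (by simp)
  rw [Set.uIoc_of_le zero_le_one] at ht
  have h2 : ∀ r : ℝ, |r| = t → ∫ q, |inv_w V (q + r • a) - inv_w V q - r * ⟪inv_G V η q, v⟫| ≤
      ‖v‖ ^ 2 * ∫ q, inv_K V η q := fun r hr => by
    have := inv_w_second hV hη hη1 (r • v)
    simp only [map_smul, inner_smul_right] at this
    refine this.trans (mul_le_mul_of_nonneg_right ?_ hK)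
    rw [norm_smul, Real.norm_eq_abs, hr]
    exact pow_le_pow_left₀ (mul_nonneg ht.1.le (norm_nonneg _))
      (mul_le_of_le_one_left (norm_nonneg _) ht.2) 2
  have hplus := h2 t (abs_of_pos ht.1)
  have hminus := h2 (-t) (by rw [abs_neg, abs_of_pos ht.1])
  have hGv : Integrable fun q => ⟪inv_G V η q, v⟫ := hGi.inner_const (𝕜 := ℝ) v
  have hI : ∀ r : ℝ, Integrable fun q =>
      |inv_w V (q + r • a) - inv_w V q - r * ⟪inv_G V η q, v⟫| := fun r =>
    (((hwi.comp_add_right (r • a)).sub hwi).sub (hGv.const_mul r)).abs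
  have e4 : (∫ q, inv_w V (q - t • a) * p q) + -(∫ q, inv_w V (q + t • a) * p q) + 2 * t * X =
      ∫ q, p q * ((inv_w V (q + (-t) • a) - inv_w V q - (-t) * ⟪inv_G V η q, v⟫)
        - (inv_w V (q + t • a) - inv_w V q - t * ⟪inv_G V η q, v⟫)) := by
    have i1 : Integrable fun q => inv_w V (q - t • a) * p q := by
      simpa [neg_smul, ← sub_eq_add_neg] using hi (-t)
    have i3 : Integrable fun q => 2 * t * (⟪inv_G V η q, v⟫ * ⟪Ψ (inv_P η q), v⟫) :=
      ((hGv.bdd_mul hpc.aestronglyMeasurable (ae_of_all _ hp)).congr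
        (ae_of_all _ fun q => mul_comm _ _)).const_mul _
    have i2 : Integrable fun q => -(inv_w V (q + t • a) * p q) := (hi t).neg
    have i12 : Integrable fun q => inv_w V (q - t • a) * p q + -(inv_w V (q + t • a) * p q) :=
      i1.add i2
    rw [← integral_neg, ← integral_const_mul (2 * t), ← integral_add i1 i2,
      ← integral_add i12 i3]
    refine integral_congr_ae (ae_of_all _ fun q => ?_)
    simp only [neg_smul, ← sub_eq_add_neg, p]
    ring
  rw [e4]
  refine (norm_integral_le_integral_norm _).trans ?_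
  refine (integral_mono_of_nonneg (ae_of_all _ fun q => norm_nonneg _)
    (((hI (-t)).add (hI t)).const_mul (b * ‖v‖)) (ae_of_all _ fun q => ?_)).trans ?_
  · dsimp only [Pi.add_apply]
    rw [norm_mul]
    exact mul_le_mul (hp q) (abs_sub _ _) (norm_nonneg _) (mul_nonneg hb (norm_nonneg _))
  · simp only [Pi.add_apply]
    rw [integral_const_mul, integral_add (hI _) (hI _)]
    refine (mul_le_mul_of_nonneg_left (add_le_add hminus hplus)
      (mul_nonneg hb (norm_nonneg _))).trans_eq ?_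
    ring

omit hV hη hη1 in
lemma inv_gam_neg : (gam d).map (fun x : EE d => -x) = gam d := by
  have h := map_coisometry (-ContinuousLinearMap.id ℝ (EE d))
    (by ext x; simp [ContinuousLinearMap.adjoint_id])
  exact h

omit hV hη hη1 in
lemma inv_gam_neg_integral (c : EE d → ℝ) : ∫ ξ, c (-ξ) ∂gam d = ∫ ξ, c ξ ∂gam d := by
  have e := integral_map_equiv (μ := gam d) (MeasurableEquiv.neg (EE d)) c
  rw [show ⇑(MeasurableEquiv.neg (EE d)) = fun x => -x from rfl, inv_gam_neg] at e
  exact e.symm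

include hV hη hη1 in
/-- The diffusion part of one fine step. -/
lemma inv_partB (hS : InvSlice F Ψ b) {s : ℝ} (hs : 0 ≤ s) :
    |(∫ q, inv_w V q * (Gs s (fun x => F (inv_Y η q, x)) q.1 - F (inv_P η q))) +
        s / 2 * ∫ q, ⟪inv_G V η q, Ψ (inv_P η q)⟫| ≤
      b * (s * Real.sqrt s) * (2 * (d + 1) ^ 2) * ∫ q, inv_K V η q := by
  have hb := hS.b_nonneg
  have hP := inv_P_continuous (d := d) η
  have hw := inv_w_continuous hV
  have := hS.cont
  have := hS.contGrad
  have hG := inv_G_continuous (η := η) hV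
  set σ := Real.sqrt s
  set c := fun ξ : EE d => ∫ q, inv_w V q * (F (inv_P η (q + inv_inj η (σ • ξ))) - F (inv_P η q))
  have hfub : Integrable (Function.uncurry fun (q : EE d × EE d) (ξ : EE d) =>
      inv_w V q * (F (inv_P η (q + inv_inj η (σ • ξ))) - F (inv_P η q))) (volume.prod (gam d)) := by
    refine (((inv_w_int hV).mul_const 2).comp_fst (gam d)).mono' (by fun_prop)
      (ae_of_all _ fun p => ?_)
    rw [Function.uncurry, norm_mul, Real.norm_eq_abs, abs_of_nonneg (inv_w_pos _)]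
    exact mul_le_mul_of_nonneg_left ((abs_sub _ _).trans
      ((add_le_add (hS.le_one _) (hS.le_one _)).trans_eq one_add_one_eq_two)) (inv_w_pos _)
  have e1 : ∫ q, inv_w V q * (Gs s (fun x => F (inv_Y η q, x)) q.1 - F (inv_P η q)) =
      ∫ ξ, c ξ ∂gam d := by
    rw [← integral_integral_swap hfub]
    refine integral_congr_ae (ae_of_all _ fun q => ?_)
    simp only [inv_P_shift hη, Gs]
    rw [integral_const_mul, integral_sub (Integrable.of_bound (by fun_prop) 1
      (ae_of_all _ fun ξ => hS.le_one _)) (integrable_const _)]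
    simp [σ]
  have hci : Integrable c (gam d) := hfub.integral_prod_right
  have hcn : Integrable (fun ξ => c (-ξ)) (gam d) := by
    rw [← inv_gam_neg] at hci
    exact hci.comp_measurable (by fun_prop)
  set k := fun ξ : EE d => ∫ q, ⟪inv_G V η q, σ • ξ⟫ * ⟪Ψ (inv_P η q), σ • ξ⟫
  have hfub2 : Integrable (Function.uncurry fun (q : EE d × EE d) (ξ : EE d) =>
      ⟪inv_G V η q, σ • ξ⟫ * ⟪Ψ (inv_P η q), σ • ξ⟫) (volume.prod (gam d)) := by
    refine ((((inv_G_le hV hη hη1).1.norm).mul_const (b * σ ^ 2)).mul_prod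
      (inv_pow_gam (d := d) 2)).mono' (by fun_prop) (ae_of_all _ fun p => ?_)
    rw [Function.uncurry, norm_mul]
    refine (mul_le_mul (norm_inner_le_norm _ _) ((norm_inner_le_norm _ _).trans
      (mul_le_mul_of_nonneg_right (hS.bound _) (norm_nonneg _))) (norm_nonneg _)
      (mul_nonneg (norm_nonneg _) (norm_nonneg _))).trans_eq ?_
    rw [norm_smul, Real.norm_eq_abs, abs_of_nonneg (Real.sqrt_nonneg s)]
    ring
  have e2 : ∫ ξ, k ξ ∂gam d = s * ∫ q, ⟪inv_G V η q, Ψ (inv_P η q)⟫ := by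
    rw [← integral_integral_swap hfub2, ← integral_const_mul]
    refine integral_congr_ae (ae_of_all _ fun q => ?_)
    simp only [inner_smul_right]
    rw [← inv_gam_inner2 (inv_G V η q) (Ψ (inv_P η q)), ← integral_const_mul]
    refine integral_congr_ae (ae_of_all _ fun ξ => ?_)
    linear_combination (⟪inv_G V η q, ξ⟫ * ⟪Ψ (inv_P η q), ξ⟫) * Real.sq_sqrt hs
  have hki : Integrable k (gam d) := hfub2.integral_prod_right
  rw [e1, show (∫ ξ, c ξ ∂gam d) + s / 2 * ∫ q, ⟪inv_G V η q, Ψ (inv_P η q)⟫ =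
    (1 / 2 : ℝ) * ∫ ξ, (c ξ + c (-ξ) + k ξ) ∂gam d by
      rw [integral_add (f := fun ξ => c ξ + c (-ξ)) (hci.add hcn) hki, integral_add hci hcn,
        inv_gam_neg_integral, e2]
      ring, abs_mul, abs_of_pos (by norm_num : (0 : ℝ) < 1 / 2), ← Real.norm_eq_abs]
  have hbd : ∀ ξ, ‖c ξ + c (-ξ) + k ξ‖ ≤
      2 * b * σ ^ 3 * (∫ q, inv_K V η q) * ‖ξ‖ ^ 3 := fun ξ => by
    refine le_of_eq_of_le ?_ ((inv_sym_diff hV hη hη1 hS (σ • ξ)).trans_eq ?_)
    · simp only [c, k, smul_neg, Real.norm_eq_abs]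
    · rw [norm_smul, Real.norm_eq_abs, abs_of_nonneg (Real.sqrt_nonneg s)]; ring
  refine (mul_le_mul_of_nonneg_left ((norm_integral_le_integral_norm _).trans
    (integral_mono ((hci.add hcn).add hki).norm ((inv_pow_gam 3).const_mul _) hbd))
    (by norm_num)).trans ?_
  rw [integral_const_mul]
  refine le_of_le_of_eq (mul_le_mul_of_nonneg_left (mul_le_mul_of_nonneg_left inv_gam_three ?_)
    (by norm_num)) ?_
  · have := inv_K_nonneg (V := V) hη; have := Real.sqrt_nonneg s; positivity
  · rw [show σ ^ 3 = σ * σ ^ 2 by ring, Real.sq_sqrt hs]; ring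

include hV hη hη1 in
/-- The drift part of one fine step. -/
lemma inv_partA (hS : InvSlice F Ψ b) {s : ℝ} (hs : 0 < s) (hh : 0 ≤ h) :
    |(∫ q, inv_w V q * (Gs s (fun x => F (inv_Y η q, x)) (q.1 - h • inv_D (gradient V) η q)
          - Gs s (fun x => F (inv_Y η q, x)) q.1)) -
        h * η * ∫ q, ⟪inv_G V η q, Ψ (inv_P η q)⟫| ≤
      b / Real.sqrt s * h ^ 2 * (3 * η * d * ∫ x, inv_wt V x) +
        h * η * (b * (Real.sqrt s * (d + 1)) * ∫ q, inv_K V η q) := by
  have hb := hS.b_nonneg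
  have hK := inv_K_nonneg (V := V) hη
  have hP := inv_P_continuous (d := d) η
  have hD := inv_D_continuous (η := η) hV
  have hw := inv_w_continuous hV
  have hwi := inv_w_int hV
  have := hS.contGrad
  have := hS.cont
  have hG := inv_G_continuous (η := η) hV
  have hGi := (inv_G_le hV hη hη1).1
  set σ := Real.sqrt s
  have hσ : 0 ≤ σ := Real.sqrt_nonneg s
  set GP := fun q : EE d × EE d => ∫ ξ, Ψ (inv_P η (q + inv_inj η (σ • ξ))) ∂gam d
  have hGPc : Continuous GP := continuous_of_dominated (bound := fun _ => b)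
    (fun q => (by fun_prop : Continuous fun ξ => Ψ (inv_P η (q + inv_inj η (σ • ξ)))).aestronglyMeasurable)
    (fun q => ae_of_all _ fun ξ => hS.bound _) (integrable_const _)
    (ae_of_all _ fun ξ => by fun_prop)
  have hGP : ∀ q, Gs s (fun x => Ψ (inv_Y η q, x)) q.1 = GP q := fun q => by
    simp only [GP, inv_P_shift hη, Gs]; rfl
  have hGPb : ∀ q, ‖GP q‖ ≤ b := fun q =>
    (norm_integral_le_of_norm_le_const (ae_of_all _ fun ξ => hS.bound _)).trans_eq (by simp)
  have hi : ∀ f : EE d × EE d → EE d, Continuous f → (∀ q, ‖f q‖ ≤ b) →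
      Integrable fun q => ⟪inv_G V η q, f q⟫ := fun f hf hfb => by
    refine (hGi.norm.mul_const b).mono' (hG.inner hf).aestronglyMeasurable
      (ae_of_all _ fun q => ?_)
    exact (norm_inner_le_norm _ _).trans (mul_le_mul_of_nonneg_left (hfb q) (norm_nonneg _))
  set A := fun q : EE d × EE d => inv_w V q *
    (Gs s (fun x => F (inv_Y η q, x)) (q.1 - h • inv_D (gradient V) η q)
      - Gs s (fun x => F (inv_Y η q, x)) q.1)
  have hAc : ∀ f : EE d × EE d → EE d, Continuous f →
      Continuous fun q => Gs s (fun x => F (inv_Y η q, x)) (f q) := fun f hf => by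
    unfold Gs
    exact continuous_of_dominated (bound := fun _ => 1)
      (fun q => (by fun_prop : Continuous fun ξ => F (inv_Y η q, f q + σ • ξ)).aestronglyMeasurable)
      (fun q => ae_of_all _ fun ξ => hS.le_one _) (integrable_const _)
      (ae_of_all _ fun ξ => hS.cont.comp ((continuous_fst.comp hP).prodMk (hf.add continuous_const)))
  have hGb : ∀ q x, |Gs s (fun x => F (inv_Y η q, x)) x| ≤ 1 := fun q x =>
    (norm_integral_le_of_norm_le_const (μ := gam d) (C := (1 : ℝ))
      (f := fun ξ => F (inv_Y η q, x + σ • ξ)) (ae_of_all _ fun ξ => hS.le_one _)).trans_eq (by simp)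
  have hAi : Integrable A := by
    refine (hwi.mul_const 2).mono'
      (hw.mul ((hAc _ (continuous_fst.sub (hD.const_smul h))).sub
        (hAc _ continuous_fst))).aestronglyMeasurable (ae_of_all _ fun q => ?_)
    rw [norm_mul, Real.norm_eq_abs, abs_of_nonneg (inv_w_pos _)]
    exact mul_le_mul_of_nonneg_left ((abs_sub _ _).trans
      ((add_le_add (hGb _ _) (hGb _ _)).trans_eq one_add_one_eq_two)) (inv_w_pos _)
  have h1 : |(∫ q, A q) - h * η * ∫ q, ⟪inv_G V η q, GP q⟫| ≤
      b / σ * h ^ 2 * (3 * η * d * ∫ x, inv_wt V x) := by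
    rw [← integral_const_mul, ← integral_sub hAi ((hi _ hGPc hGPb).const_mul _), ← Real.norm_eq_abs]
    refine (norm_integral_le_integral_norm _).trans ?_
    refine (integral_mono_of_nonneg (ae_of_all _ fun q => norm_nonneg _)
      ((inv_w_D2_int hV hη).const_mul (b / σ * h ^ 2)) (ae_of_all _ fun q => ?_)).trans ?_
    · have e : A q - h * η * ⟪inv_G V η q, GP q⟫ = inv_w V q *
          (Gs s (fun x => F (inv_Y η q, x)) (q.1 - h • inv_D (gradient V) η q)
            - Gs s (fun x => F (inv_Y η q, x)) q.1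
            + ⟪Gs s (fun x => Ψ (inv_Y η q, x)) q.1, h • inv_D (gradient V) η q⟫) := by
        rw [hGP, real_inner_comm (GP q)]
        simp only [A, inv_G, inner_smul_right]
        field_simp
        ring
      dsimp only
      rw [e, norm_mul, Real.norm_eq_abs, abs_of_nonneg (inv_w_pos _), Real.norm_eq_abs]
      refine (mul_le_mul_of_nonneg_left (inv_smooth_taylor hS hs _ _ _) (inv_w_pos _)).trans_eq ?_
      rw [norm_smul, Real.norm_eq_abs, abs_of_nonneg hh]
      ring
    · rw [integral_const_mul]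
      exact mul_le_mul_of_nonneg_left (inv_D_moment hV hη hη1)
        (mul_nonneg (div_nonneg hb hσ) (sq_nonneg h))
  have h2 : |(∫ q, ⟪inv_G V η q, GP q⟫) - ∫ q, ⟪inv_G V η q, Ψ (inv_P η q)⟫| ≤
      b * (σ * (d + 1)) * ∫ q, inv_K V η q := by
    have hfub : Integrable (Function.uncurry fun (q : EE d × EE d) (ξ : EE d) =>
        ⟪inv_G V η q, Ψ (inv_P η (q + inv_inj η (σ • ξ)))⟫) (volume.prod (gam d)) := by
      refine ((hGi.norm.mul_const b).comp_fst (gam d)).mono' (by fun_prop) (ae_of_all _ fun p => ?_)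
      exact (norm_inner_le_norm _ _).trans
        (mul_le_mul_of_nonneg_left (hS.bound _) (norm_nonneg _))
    have e : ∫ q, ⟪inv_G V η q, GP q⟫ =
        ∫ ξ, (∫ q, ⟪inv_G V η q, Ψ (inv_P η (q + inv_inj η (σ • ξ)))⟫) ∂gam d := by
      rw [← integral_integral_swap hfub]
      refine integral_congr_ae (ae_of_all _ fun q => ?_)
      exact (integral_inner (𝕜 := ℝ) (Integrable.of_bound (by fun_prop) b
        (ae_of_all _ fun ξ => hS.bound _)) (inv_G V η q)).symm
    have ir : Integrable
        (fun ξ => ∫ q, ⟪inv_G V η q, Ψ (inv_P η (q + inv_inj η (σ • ξ)))⟫) (gam d) :=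
      hfub.integral_prod_right
    rw [e, show ∫ q, ⟪inv_G V η q, Ψ (inv_P η q)⟫ =
      ∫ _ξ, (∫ q, ⟪inv_G V η q, Ψ (inv_P η q)⟫) ∂gam d by simp,
      ← integral_sub ir (integrable_const _), ← Real.norm_eq_abs]
    refine (norm_integral_le_integral_norm _).trans ?_
    refine (integral_mono_of_nonneg (ae_of_all _ fun ξ => norm_nonneg _)
      (((inv_pow_gam (d := d) 1).const_mul (b * σ * ∫ q, inv_K V η q))) (ae_of_all _ fun ξ => ?_)).trans ?_
    · set a := inv_inj η (σ • ξ) with ha
      have hs1 : ∫ q, ⟪inv_G V η q, Ψ (inv_P η (q + a))⟫ =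
          ∫ q, ⟪inv_G V η (q - a), Ψ (inv_P η q)⟫ := by
        rw [← integral_add_right_eq_self (fun q => ⟪inv_G V η (q - a), Ψ (inv_P η q)⟫) a]
        simp
      have i1 : Integrable fun q => ⟪inv_G V η (q - a), Ψ (inv_P η q)⟫ :=
        ((hGi.comp_sub_right a).norm.mul_const b).mono' (by fun_prop) (ae_of_all _ fun q =>
          (norm_inner_le_norm _ _).trans (mul_le_mul_of_nonneg_left (hS.bound _) (norm_nonneg _)))
      simp only [← ha, hs1]
      rw [← integral_sub i1 (hi _ (by fun_prop) fun q => hS.bound _)]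
      refine (norm_integral_le_integral_norm _).trans ?_
      refine (integral_mono_of_nonneg (ae_of_all _ fun q => norm_nonneg _)
        (((hGi.comp_sub_right a).sub hGi).norm.mul_const b) (ae_of_all _ fun q => ?_)).trans ?_
      · simp only [Pi.sub_apply, ← inner_sub_left]
        exact (norm_inner_le_norm _ _).trans
          (mul_le_mul_of_nonneg_left (hS.bound _) (norm_nonneg _))
      · rw [integral_mul_const]
        have := inv_G_shift hV hη hη1 (-(σ • ξ))
        simp only [map_neg, ← sub_eq_add_neg, norm_neg, ← ha, norm_smul, Real.norm_eq_abs,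
          abs_of_nonneg hσ] at this
        refine (mul_le_mul_of_nonneg_right this hb).trans_eq ?_
        simp; ring
    · rw [integral_const_mul]
      simp only [pow_one]
      refine (mul_le_mul_of_nonneg_left inv_gam_norm (by positivity)).trans_eq (by ring)
  have h3 := mul_le_mul_of_nonneg_left h2 (mul_nonneg hh hη.le)
  calc _ ≤ |(∫ q, A q) - h * η * ∫ q, ⟪inv_G V η q, GP q⟫| +
        |h * η * (∫ q, ⟪inv_G V η q, GP q⟫) - h * η * ∫ q, ⟪inv_G V η q, Ψ (inv_P η q)⟫| :=
      abs_sub_le _ _ _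
    _ ≤ _ := by
      refine add_le_add h1 ?_
      rwa [← mul_sub, abs_mul, abs_of_nonneg (mul_nonneg hh hη.le)]

end measure

/-- The arithmetic of one fine step. -/
lemma inv_arith {d b h η s Z K X I J L : ℝ} (hd0 : 0 ≤ d) (hb : 0 ≤ b) (hη : 0 < η)
    (hη1 : η ≤ 1 / 16) (hh : 0 < h) (hh1 : h ≤ η / 4) (hs_def : s = η * (1 - (1 - h) ^ 2))
    (hZ : 0 < Z) (hK0 : 0 ≤ K) (hK : K ≤ (3 * d + 2) / η * Z)
    (hA : |I - J - h * η * X| ≤
      b / Real.sqrt s * h ^ 2 * (3 * η * d * Z) + h * η * (b * (Real.sqrt s * (d + 1)) * K))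
    (hB : |J - L + s / 2 * X| ≤ b * (s * Real.sqrt s) * (2 * (d + 1) ^ 2) * K)
    (hX : |X| ≤ b * ((d + 1) / η * Z)) :
    |I - L| ≤ 25 * (d + 1) ^ 3 * (b * (h * Real.sqrt h)) * Z := by
  have hs2 : s ≤ 2 * η * h := by rw [hs_def]; nlinarith [mul_nonneg hη.le (sq_nonneg h)]
  have hs1 : η * h ≤ s := by
    rw [hs_def]; nlinarith [mul_nonneg (mul_nonneg hη.le hh.le) (by linarith : (0 : ℝ) ≤ 1 - h)]
  have hs : 0 < s := lt_of_lt_of_le (mul_pos hη hh) hs1
  have hsq : Real.sqrt s ≤ Real.sqrt h := Real.sqrt_le_sqrt (hs2.trans (by nlinarith))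
  have hsh : s * Real.sqrt s ≤ 2 * η * h * Real.sqrt h :=
    mul_le_mul hs2 hsq (Real.sqrt_nonneg _) (by positivity)
  have t1 : b / Real.sqrt s * h ^ 2 * (3 * η * d * Z) ≤ 3 * d * (b * (h * Real.sqrt h)) * Z := by
    have h0 : η * Real.sqrt h ≤ Real.sqrt s := by
      rw [← Real.sqrt_sq hη.le, ← Real.sqrt_mul (sq_nonneg η)]
      refine Real.sqrt_le_sqrt (le_trans ?_ hs1)
      exact mul_le_mul_of_nonneg_right (by nlinarith) hh.le
    have hσ : 0 < Real.sqrt s := Real.sqrt_pos.2 hs
    rw [div_mul_eq_mul_div, div_mul_eq_mul_div, div_le_iff₀ hσ]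
    calc b * h ^ 2 * (3 * η * d * Z) = 3 * d * (b * h) * Z * (η * (Real.sqrt h * Real.sqrt h)) := by
          rw [Real.mul_self_sqrt hh.le]; ring
      _ = 3 * d * (b * (h * Real.sqrt h)) * Z * (η * Real.sqrt h) := by ring
      _ ≤ _ := mul_le_mul_of_nonneg_left h0 (by positivity)
  have t2 : h * η * (b * (Real.sqrt s * (d + 1)) * K) ≤
      (d + 1) * (3 * d + 2) * (b * (h * Real.sqrt h)) * Z := by
    calc _ ≤ h * η * (b * (Real.sqrt h * (d + 1)) * ((3 * d + 2) / η * Z)) := by gcongr
      _ = _ := by field_simp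
  have t3 : b * (s * Real.sqrt s) * (2 * (d + 1) ^ 2) * K ≤
      4 * (d + 1) ^ 2 * (3 * d + 2) * (b * (h * Real.sqrt h)) * Z := by
    calc _ ≤ b * (2 * η * h * Real.sqrt h) * (2 * (d + 1) ^ 2) * ((3 * d + 2) / η * Z) := by gcongr
      _ = _ := by field_simp; ring
  have t4 : |(h * η - s / 2) * X| ≤ (d + 1) * (b * (h * Real.sqrt h)) * Z := by
    rw [abs_mul, show h * η - s / 2 = η * h ^ 2 / 2 by rw [hs_def]; ring,
      abs_of_nonneg (by positivity)]
    calc η * h ^ 2 / 2 * |X| ≤ η * h ^ 2 / 2 * (b * ((d + 1) / η * Z)) := by gcongr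
      _ = (d + 1) * (b * (h * (h / 2))) * Z := by field_simp
      _ ≤ _ := by
        have h5 : h / 2 ≤ Real.sqrt h := by
          rw [← Real.sqrt_sq (by positivity : (0 : ℝ) ≤ h / 2)]
          exact Real.sqrt_le_sqrt (by nlinarith)
        gcongr
  have hc : 3 * d + (d + 1) * (3 * d + 2) + 4 * (d + 1) ^ 2 * (3 * d + 2) + (d + 1) ≤
      25 * (d + 1) ^ 3 := by nlinarith [sq_nonneg d, pow_nonneg hd0 3]
  have hfin := mul_le_mul_of_nonneg_right hc (by positivity : 0 ≤ b * (h * Real.sqrt h) * Z)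
  calc |I - L| = |(I - J - h * η * X) + (J - L + s / 2 * X) + (h * η - s / 2) * X| := by
        congr 1; ring
    _ ≤ |I - J - h * η * X| + |J - L + s / 2 * X| + |(h * η - s / 2) * X| := abs_add_three _ _ _
    _ ≤ _ := by linarith

/-- One fine step almost preserves the joint law. -/
theorem inv_step (hV : Admissible V) (hη : 0 < η) (hη1 : η ≤ 1 / 16) (hh : 0 < h)
    (hh1 : h ≤ η / 4) (hS : InvSlice F Ψ b) :
    |(∫ q, inv_w V q * inv_upd (gradient V) η h F (inv_P η q)) -
        ∫ q, inv_w V q * F (inv_P η q)| ≤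
      25 * (d + 1) ^ 3 * (b * (h * Real.sqrt h)) * ∫ x, inv_wt V x := by
  have hb := hS.b_nonneg
  have hP := inv_P_continuous (d := d) η
  have := hS.cont
  set s := η * (1 - (1 - h) ^ 2) with hs_def
  have hs2 : s ≤ 2 * η * h := by rw [hs_def]; nlinarith [mul_nonneg hη.le (sq_nonneg h)]
  have hs1 : η * h ≤ s := by
    rw [hs_def]; nlinarith [mul_nonneg (mul_nonneg hη.le hh.le) (by linarith : (0 : ℝ) ≤ 1 - h)]
  have hs : 0 < s := lt_of_lt_of_le (mul_pos hη hh) hs1
  set X := ∫ q, ⟪inv_G V η q, Ψ (inv_P η q)⟫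
  set Z := ∫ x, inv_wt V x
  have hZ : 0 < Z := inv_Z_pos hV
  have hwi := inv_w_int hV
  have hw := inv_w_continuous hV
  have hA := inv_partA hV hη hη1 hS hs hh.le
  have hB := inv_partB hV hη hη1 hS hs.le
  have hX : |X| ≤ b * ((d + 1) / η * Z) := by
    obtain ⟨hGi, hGl⟩ := inv_G_le hV hη hη1
    rw [← Real.norm_eq_abs]
    refine (norm_integral_le_integral_norm _).trans ?_
    refine (integral_mono_of_nonneg (ae_of_all _ fun q => norm_nonneg _) (hGi.norm.mul_const b)
      (ae_of_all _ fun q => (norm_inner_le_norm _ _).trans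
        (mul_le_mul_of_nonneg_left (hS.bound _) (norm_nonneg _)))).trans ?_
    rw [integral_mul_const, mul_comm]
    exact mul_le_mul_of_nonneg_left hGl hb
  have hint : ∀ f : EE d × EE d → EE d, Continuous f →
      Integrable fun q => inv_w V q * Gs s (fun x => F (inv_Y η q, x)) (f q) := fun f hf => by
    have hc : Continuous fun q => Gs s (fun x => F (inv_Y η q, x)) (f q) := by
      unfold Gs
      exact continuous_of_dominated (bound := fun _ => 1)
        (fun q => (by fun_prop :
          Continuous fun ξ => F (inv_Y η q, f q + Real.sqrt s • ξ)).aestronglyMeasurable)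
        (fun q => ae_of_all _ fun ξ => hS.le_one _) (integrable_const _)
        (ae_of_all _ fun ξ => hS.cont.comp
          ((continuous_fst.comp hP).prodMk (hf.add continuous_const)))
    refine (hwi.mul_const 1).mono' (hw.mul hc).aestronglyMeasurable (ae_of_all _ fun q => ?_)
    rw [norm_mul, Real.norm_eq_abs, abs_of_nonneg (inv_w_pos _)]
    exact mul_le_mul_of_nonneg_left ((norm_integral_le_of_norm_le_const
      (ae_of_all _ fun ξ => hS.le_one _)).trans_eq (by simp)) (inv_w_pos _)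
  have i1 := hint (fun q => q.1 - h • inv_D (gradient V) η q)
    (continuous_fst.sub ((inv_D_continuous hV).const_smul h))
  have i2 := hint (fun q => q.1) continuous_fst
  have i3 : Integrable fun q => inv_w V q * F (inv_P η q) := by
    refine (hwi.mul_const 1).mono' (by fun_prop) (ae_of_all _ fun q => ?_)
    rw [norm_mul, Real.norm_eq_abs, abs_of_nonneg (inv_w_pos _)]
    exact mul_le_mul_of_nonneg_left (hS.le_one _) (inv_w_pos _)
  have hu : ∀ q : EE d × EE d, inv_upd (gradient V) η h F (inv_P η q) =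
      Gs s (fun x => F (inv_Y η q, x)) (q.1 - h • inv_D (gradient V) η q) := fun q => by
    simp only [inv_upd, inv_P, ← hs_def]
    congr 3
    simp [inv_D, inv_Y]
    abel
  simp only [hu]
  have hA' := hA
  have hB' := hB
  simp only [mul_sub] at hA' hB'
  exact inv_arith (d := (d : ℝ)) (Nat.cast_nonneg d) hb hη hη1 hh hh1 hs_def hZ
    (inv_K_nonneg hη) (inv_K_le hV hη hη1) (by rwa [integral_sub i1 i2] at hA') (by rwa [integral_sub i2 i3] at hB') hX

end Vale.Agent.P347
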