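import Vale.Agent.P347.InvEnd

/-!
Module 5, second half: the joint weight of a point and its smoothing noise, and the defect of
invariance of one fine step.
-/

open MeasureTheory ProbabilityTheory
open scoped RealInnerProductSpace

namespace Vale.Agent.P347

variable {d : ℕ}

/-- The Gaussian potential. -/
noncomputable def inv_V0 (x : EE d) : ℝ := ‖x‖ ^ 2 / 2

lemma inv_V0_grad (x : EE d) : HasGradientAt inv_V0 x x := by
  rw [hasGradientAt_iff_hasFDerivAt]
  have e : inv_V0 (d := d) = fun x => (1 / 2 : ℝ) * ‖x‖ ^ 2 := by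
    funext x; simp [inv_V0]; ring
  rw [e]
  exact ((hasFDerivAt_id x).norm_sq.const_mul _).congr_fderiv (by ext v; simp)

lemma inv_V0_admissible : Admissible (inv_V0 (d := d)) := by
  have hg : gradient (inv_V0 (d := d)) = id := funext fun x => (inv_V0_grad x).gradient
  refine ⟨(contDiff_norm_sq ℝ).div_const 2, by simp [inv_V0], by simp [hg], fun x v => ?_⟩
  have e : fderiv ℝ (inv_V0 (d := d)) = fun y => innerSL ℝ y := funext fun y => by
    rw [(inv_V0_grad y).hasFDerivAt.fderiv]; ext u; simp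
  have e2 : hess (inv_V0 (d := d)) x v = ⟪v, v⟫ := by
    unfold hess
    rw [e]
    have : HasFDerivAt (fun y : EE d => ⟪y, v⟫) ((innerSL ℝ).flip v) x :=
      ((innerSL ℝ (E := EE d)).flip v).hasFDerivAt
    simp only [innerSL_apply_apply]
    rw [this.fderiv]
    rfl
  rw [e2, real_inner_self_eq_norm_sq]
  exact ⟨le_rfl, by nlinarith [sq_nonneg ‖v‖]⟩

lemma inv_gd_eq (x : EE d) :
    inv_gd x = ((Real.sqrt (2 * Real.pi))⁻¹) ^ d * inv_wt inv_V0 x := rfl

lemma inv_gd_integral_one : ∫ x : EE d, inv_gd x = 1 := by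
  simpa using (inv_integral_gam (d := d) fun _ => (1 : ℝ)).symm

lemma inv_gd_pow_integrable (k : ℕ) : Integrable fun x : EE d => inv_gd x * ‖x‖ ^ k := by
  simpa using (inv_integrable_gam_iff _).1 (inv_pow_gam (d := d) k)

lemma inv_gd_ibp (v : EE d) (f : EE d → ℝ) (f' : EE d → EE d)
    (hf : ∀ x, HasGradientAt f (f' x) x) (hc : Continuous f') (C : ℝ) (k : ℕ)
    (h1 : ∀ x, |f x| ≤ C * (1 + ‖x‖ ^ k)) (h2 : ∀ x, ‖f' x‖ ≤ C * (1 + ‖x‖ ^ k)) :
    ∫ x, ⟪f' x, v⟫ ∂gam d = ∫ x, f x * ⟪x, v⟫ ∂gam d := by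
  have h := inv_ibp inv_V0_admissible v f f' hf hc C k h1 h2
  simp only [(inv_V0_grad _).gradient] at h
  simp only [inv_integral_gam, smul_eq_mul, inv_gd_eq, mul_assoc, integral_const_mul, h]

lemma inv_inner_grad (u : EE d) (x : EE d) : HasGradientAt (fun y => ⟪u, y⟫) u x := by
  rw [hasGradientAt_iff_hasFDerivAt]
  exact ((innerSL ℝ u).hasFDerivAt).congr_fderiv (by ext v; simp)

lemma inv_gam_inner2 (u v : EE d) : ∫ x, ⟪u, x⟫ * ⟪v, x⟫ ∂gam d = ⟪u, v⟫ := by
  have h := inv_gd_ibp v (fun y => ⟪u, y⟫) (fun _ => u) (inv_inner_grad u) continuous_const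
    ‖u‖ 1 (fun x => by
      simpa [mul_add] using (abs_real_inner_le_norm u x).trans
        (le_add_of_nonneg_left (norm_nonneg u)))
    (fun x => le_mul_of_one_le_right (norm_nonneg u) (by simp))
  simp only [integral_const, probReal_univ, one_smul] at h
  simp only [h, real_inner_comm v]

lemma inv_gam_sq : ∫ x, ‖x‖ ^ 2 ∂gam d = d := by
  simp_rw [EuclideanSpace.real_norm_sq_eq]
  have hi : ∀ i : Fin d, Integrable (fun x : EE d => x i ^ 2) (gam d) := fun i => by
    refine (inv_pow_gam (d := d) 2).mono' (by fun_prop) (ae_of_all _ fun x => ?_)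
    rw [norm_pow]; exact pow_le_pow_left₀ (norm_nonneg _) (PiLp.norm_apply_le x i) 2
  rw [integral_finsetSum _ fun i _ => hi i]
  have : ∀ i : Fin d, ∫ x : EE d, x i ^ 2 ∂gam d = 1 := fun i => by
    simpa [EuclideanSpace.inner_single_left, pow_two] using
      inv_gam_inner2 (EuclideanSpace.single i (1 : ℝ) : EE d) (EuclideanSpace.single i 1)
  simp [this]

lemma inv_gam_four : ∫ x, ‖x‖ ^ 4 ∂gam d = (d + 2) * d := by
  have hf : ∀ (e x : EE d), HasGradientAt (fun y => ‖y‖ ^ 2 * ⟪e, y⟫)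
      (‖x‖ ^ 2 • e + (2 * ⟪e, x⟫) • x) x := by
    intro e x
    rw [hasGradientAt_iff_hasFDerivAt]
    exact ((hasFDerivAt_id x).norm_sq.mul (innerSL ℝ e).hasFDerivAt).congr_fderiv
      (by ext v; simp; ring)
  have hp : ∀ (a : ℝ), 0 ≤ a → a ^ 2 ≤ 1 + a ^ 3 := fun a ha => by
    nlinarith [mul_nonneg ha (sq_nonneg (a - 1))]
  have he : ∀ i, ‖(EuclideanSpace.single i 1 : EE d)‖ = 1 := fun i => by simp
  have hi4 : ∀ i : Fin d, Integrable (fun x : EE d => ‖x‖ ^ 2 * (x i * x i)) (gam d) := fun i => by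
    refine (inv_pow_gam (d := d) 4).mono' (by fun_prop) (ae_of_all _ fun x => ?_)
    rw [norm_mul, norm_mul, norm_pow, norm_norm]
    calc ‖x‖ ^ 2 * (‖x i‖ * ‖x i‖) ≤ ‖x‖ ^ 2 * (‖x‖ * ‖x‖) := by
          gcongr <;> exact PiLp.norm_apply_le x i
      _ = ‖x‖ ^ 4 := by ring
  have h : ∀ i : Fin d, (∫ x, ‖x‖ ^ 2 ∂gam d) + 2 * ∫ x : EE d, x i * x i ∂gam d =
      ∫ x : EE d, ‖x‖ ^ 2 * (x i * x i) ∂gam d := fun i => by
    have h := inv_gd_ibp (EuclideanSpace.single i (1 : ℝ) : EE d) _ _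
      (hf (EuclideanSpace.single i (1 : ℝ))) (by fun_prop) 3 3
      (fun x => by
        have := abs_real_inner_le_norm (EuclideanSpace.single i (1 : ℝ) : EE d) x
        rw [he, one_mul] at this
        rw [abs_mul, abs_of_nonneg (sq_nonneg ‖x‖)]
        calc ‖x‖ ^ 2 * _ ≤ ‖x‖ ^ 2 * ‖x‖ := mul_le_mul_of_nonneg_left this (sq_nonneg _)
          _ ≤ _ := by nlinarith [pow_nonneg (norm_nonneg x) 3])
      (fun x => by
        refine (norm_add_le _ _).trans ?_
        have := abs_real_inner_le_norm (EuclideanSpace.single i (1 : ℝ) : EE d) x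
        rw [he, one_mul] at this
        rw [norm_smul, norm_smul, norm_pow, norm_norm, he, mul_one, Real.norm_eq_abs, abs_mul,
          abs_two]
        nlinarith [hp ‖x‖ (norm_nonneg x),
          mul_le_mul_of_nonneg_right this (norm_nonneg x)])
    simp only [EuclideanSpace.inner_single_left, EuclideanSpace.inner_single_right, inner_add_left,
      real_inner_smul_left, map_one, one_mul, PiLp.single_apply, PiLp.smul_apply, smul_eq_mul,
      if_true, mul_one, conj_trivial] at h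
    rw [integral_add (inv_pow_gam 2) ?_] at h
    · rw [← integral_const_mul]
      simpa [mul_assoc] using h
    · refine ((inv_pow_gam (d := d) 2).const_mul 2).mono' (by fun_prop) (ae_of_all _ fun x => ?_)
      rw [norm_mul, norm_mul, Real.norm_ofNat, mul_assoc, pow_two]
      gcongr <;> exact PiLp.norm_apply_le x i
  have hi2 : ∀ i : Fin d, Integrable (fun x : EE d => x i * x i) (gam d) := fun i => by
    refine (inv_pow_gam (d := d) 2).mono' (by fun_prop) (ae_of_all _ fun x => ?_)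
    rw [norm_mul, pow_two]; gcongr <;> exact PiLp.norm_apply_le x i
  have e4 : ∀ x : EE d, ‖x‖ ^ 4 = ∑ i, ‖x‖ ^ 2 * (x i * x i) := fun x => by
    rw [← Finset.mul_sum, show ∑ i, x i * x i = ‖x‖ ^ 2 by
      rw [EuclideanSpace.real_norm_sq_eq]; simp [pow_two]]
    ring
  have e2 : ∑ i : Fin d, ∫ x : EE d, x i * x i ∂gam d = d := by
    rw [← integral_finsetSum _ fun i _ => hi2 i]
    simp_rw [← pow_two, ← EuclideanSpace.real_norm_sq_eq]
    exact inv_gam_sq
  simp_rw [e4]
  rw [integral_finsetSum _ fun i _ => hi4 i, ← Finset.sum_congr rfl fun i _ => h i,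
    Finset.sum_add_distrib, ← Finset.mul_sum, e2, inv_gam_sq]
  simp; ring

lemma inv_gam_three : ∫ x, ‖x‖ ^ 3 ∂gam d ≤ 2 * (d + 1) ^ 2 := by
  refine (integral_mono (inv_pow_gam 3) ((inv_pow_gam 2).add (inv_pow_gam 4)) fun x => ?_).trans ?_
  · simp only [Pi.add_apply]
    nlinarith [sq_nonneg (‖x‖ - 1), sq_nonneg ‖x‖, norm_nonneg x,
      mul_nonneg (sq_nonneg ‖x‖) (sq_nonneg (‖x‖ - 1))]
  · simp only [Pi.add_apply]
    rw [integral_add (inv_pow_gam 2) (inv_pow_gam 4), inv_gam_sq, inv_gam_four]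
    nlinarith [(Nat.cast_nonneg d : (0 : ℝ) ≤ d)]

lemma inv_gam_norm : ∫ x, ‖x‖ ∂gam d ≤ d + 1 := by
  have h1 : Integrable (fun x : EE d => ‖x‖) (gam d) := by simpa using inv_pow_gam (d := d) 1
  refine (integral_mono h1 ((inv_pow_gam 2).add (integrable_const 1)) fun x => ?_).trans ?_
  · simp only [Pi.add_apply]; nlinarith [sq_nonneg (‖x‖ - 1)]
  · simp only [Pi.add_apply]
    rw [integral_add (inv_pow_gam 2) (integrable_const 1), inv_gam_sq]
    simp

/-- Moving along a fixed second variable. -/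
noncomputable def inv_inj (η : ℝ) : EE d →L[ℝ] EE d × EE d :=
  (ContinuousLinearMap.id ℝ (EE d)).prod (-(Real.sqrt η)⁻¹ • ContinuousLinearMap.id ℝ (EE d))

/-- The blurred point. -/
noncomputable def inv_Y (η : ℝ) (q : EE d × EE d) : EE d := q.1 + Real.sqrt η • q.2

/-- The drift at a point with its noise. -/
noncomputable def inv_D (g : EE d → EE d) (η : ℝ) (q : EE d × EE d) : EE d :=
  η • g q.1 - Real.sqrt η • q.2

/-- The joint weight. -/
noncomputable def inv_w (V : EE d → ℝ) (q : EE d × EE d) : ℝ := inv_wt V q.1 * inv_gd q.2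

/-- The derivative of the joint weight along the fibre. -/
noncomputable def inv_G (V : EE d → ℝ) (η : ℝ) (q : EE d × EE d) : EE d :=
  (-(inv_w V q / η)) • inv_D (gradient V) η q

/-- The second derivative of the joint weight along the fibre. -/
noncomputable def inv_G2 (V : EE d → ℝ) (η : ℝ) (b : EE d) (q : EE d × EE d) : EE d :=
  (-(⟪inv_G V η q, b⟫ / η)) • inv_D (gradient V) η q +
    (-(inv_w V q / η)) • (η • fderiv ℝ (gradient V) q.1 b + b)

section joint

variable {V : EE d → ℝ} {η : ℝ}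

lemma inv_Y_shift (hη : 0 < η) (q : EE d × EE d) (a : EE d) :
    inv_Y η (q + inv_inj η a) = inv_Y η q := by
  have : Real.sqrt η ≠ 0 := (Real.sqrt_pos.2 hη).ne'
  simp [inv_Y, inv_inj, smul_smul, this]
  abel

lemma inv_w_continuous (hV : Admissible V) : Continuous (inv_w V) :=
  ((inv_wt_continuous hV).comp continuous_fst).mul (inv_gd_continuous.comp continuous_snd)

lemma inv_w_pos (q : EE d × EE d) : 0 ≤ inv_w V q :=
  mul_nonneg (Real.exp_pos _).le (inv_gd_nonneg _)

lemma inv_D_continuous (hV : Admissible V) : Continuous (inv_D (gradient V) η) := by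
  have := (gradClass_gradient hV).smooth.continuous; unfold inv_D; fun_prop

lemma inv_G_continuous (hV : Admissible V) : Continuous (inv_G V η) := by
  have := inv_w_continuous hV; have := inv_D_continuous (η := η) hV; unfold inv_G; fun_prop

lemma inv_w_integrable (hV : Admissible V) {G : Type*} [NormedAddCommGroup G] [NormedSpace ℝ G]
    [SecondCountableTopologyEither (EE d × EE d) G] (f : EE d × EE d → G) (hf : Continuous f)
    (C : ℝ) (k : ℕ) (hb : ∀ q, ‖f q‖ ≤ C * ((1 + ‖q.1‖ ^ k) * (1 + ‖q.2‖ ^ k))) :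
    Integrable fun q => inv_w V q • f q := by
  have h1 := inv_wt_integrable hV (fun x : EE d => 1 + ‖x‖ ^ k) (by fun_prop) 1 k
    (fun x => by rw [one_mul, Real.norm_eq_abs, abs_of_nonneg (by positivity)])
  have h2 : Integrable fun x : EE d => inv_gd x * (1 + ‖x‖ ^ k) := by
    exact ((inv_gd_pow_integrable 0).add (inv_gd_pow_integrable k)).congr
      (ae_of_all _ fun x => by simp [mul_add])
  refine ((h1.mul_prod h2).const_mul C).mono'
    ((inv_w_continuous hV).smul hf).aestronglyMeasurable (ae_of_all _ fun q => ?_)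
  rw [norm_smul, Real.norm_eq_abs, abs_of_nonneg (inv_w_pos q)]
  refine (mul_le_mul_of_nonneg_left (hb q) (inv_w_pos q)).trans (le_of_eq ?_)
  simp only [inv_w, smul_eq_mul]; ring

lemma inv_D_sq (hV : Admissible V) (hη : 0 < η) (q : EE d × EE d) :
    ‖inv_D (gradient V) η q‖ ^ 2 ≤ 8 * η ^ 2 * ‖q.1‖ ^ 2 + 2 * η * ‖q.2‖ ^ 2 := by
  have h := norm_sub_le (η • gradient V q.1) (Real.sqrt η • q.2)
  have h1 : ‖η • gradient V q.1‖ ≤ 2 * η * ‖q.1‖ := by
    rw [norm_smul, Real.norm_eq_abs, abs_of_pos hη, show 2 * η * ‖q.1‖ = η * (2 * ‖q.1‖) by ring]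
    exact mul_le_mul_of_nonneg_left (inv_grad_le (gradClass_gradient hV) _) hη.le
  have h2 : ‖Real.sqrt η • q.2‖ = Real.sqrt η * ‖q.2‖ := by
    rw [norm_smul, Real.norm_eq_abs, abs_of_nonneg (Real.sqrt_nonneg η)]
  rw [h2] at h
  have h3 := pow_le_pow_left₀ (norm_nonneg _) (h.trans (add_le_add h1 le_rfl)) 2
  refine h3.trans ?_
  nlinarith [sq_nonneg (2 * η * ‖q.1‖ - Real.sqrt η * ‖q.2‖), Real.sq_sqrt hη.le,
    sq_nonneg ‖q.2‖]

lemma inv_w_total (hV : Admissible V) : ∫ q, inv_w V q = ∫ x, inv_wt V x := by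
  show ∫ q, inv_wt V q.1 * inv_gd q.2 ∂(volume.prod volume) = _
  rw [integral_prod_mul, inv_gd_integral_one, mul_one]

lemma inv_w_D2_int (hV : Admissible V) (hη : 0 < η) :
    Integrable fun q => inv_w V q * ‖inv_D (gradient V) η q‖ ^ 2 := by
  refine inv_w_integrable hV (fun q => ‖inv_D (gradient V) η q‖ ^ 2)
    (by have := inv_D_continuous (η := η) hV; fun_prop) (8 * η ^ 2 + 2 * η) 2 fun q => ?_
  rw [Real.norm_eq_abs, abs_of_nonneg (by positivity)]
  refine (inv_D_sq hV hη q).trans ?_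
  nlinarith [sq_nonneg ‖q.1‖, sq_nonneg ‖q.2‖, mul_nonneg (sq_nonneg ‖q.1‖) (sq_nonneg ‖q.2‖),
    sq_nonneg η]

lemma inv_D_moment (hV : Admissible V) (hη : 0 < η) (hη1 : η ≤ 1 / 16) :
    ∫ q, inv_w V q * ‖inv_D (gradient V) η q‖ ^ 2 ≤ 3 * η * d * ∫ x, inv_wt V x := by
  have i1 : Integrable fun q : EE d × EE d => inv_w V q * ‖q.1‖ ^ 2 :=
    inv_w_integrable hV (fun q => ‖q.1‖ ^ 2) (by fun_prop) 1 2 fun q => by
      rw [Real.norm_eq_abs, abs_of_nonneg (by positivity)]
      nlinarith [sq_nonneg ‖q.1‖, sq_nonneg ‖q.2‖, mul_nonneg (sq_nonneg ‖q.1‖) (sq_nonneg ‖q.2‖)]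
  have i2 : Integrable fun q : EE d × EE d => inv_w V q * ‖q.2‖ ^ 2 :=
    inv_w_integrable hV (fun q => ‖q.2‖ ^ 2) (by fun_prop) 1 2 fun q => by
      rw [Real.norm_eq_abs, abs_of_nonneg (by positivity)]
      nlinarith [sq_nonneg ‖q.1‖, sq_nonneg ‖q.2‖, mul_nonneg (sq_nonneg ‖q.1‖) (sq_nonneg ‖q.2‖)]
  have e1 : ∫ q : EE d × EE d, inv_w V q * ‖q.1‖ ^ 2 = ∫ x, inv_wt V x * ‖x‖ ^ 2 := by
    rw [show (fun q : EE d × EE d => inv_w V q * ‖q.1‖ ^ 2) =
      fun q => (inv_wt V q.1 * ‖q.1‖ ^ 2) * inv_gd q.2 from funext fun q => by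
        unfold inv_w; ring]
    exact (integral_prod_mul (μ := volume) (ν := volume) (fun x => inv_wt V x * ‖x‖ ^ 2)
      inv_gd).trans (by simp [inv_gd_integral_one])
  have e2 : ∫ q : EE d × EE d, inv_w V q * ‖q.2‖ ^ 2 = (∫ x, inv_wt V x) * d := by
    rw [show (fun q : EE d × EE d => inv_w V q * ‖q.2‖ ^ 2) =
      fun q => inv_wt V q.1 * (inv_gd q.2 * ‖q.2‖ ^ 2) from funext fun q => by
        unfold inv_w; ring]
    refine (integral_prod_mul (μ := volume) (ν := volume) (inv_wt V)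
      (fun x => inv_gd x * ‖x‖ ^ 2)).trans ?_
    have := inv_integral_gam (d := d) fun x => ‖x‖ ^ 2
    rw [inv_gam_sq] at this
    simp only [smul_eq_mul] at this
    rw [← this]
  refine (integral_mono (inv_w_D2_int hV hη)
    ((i1.const_mul (8 * η ^ 2)).add (i2.const_mul (2 * η))) fun q => ?_).trans ?_
  · simp only [Pi.add_apply]
    nlinarith [mul_le_mul_of_nonneg_left (inv_D_sq hV hη q) (inv_w_pos (V := V) q)]
  · simp only [Pi.add_apply]
    rw [integral_add (i1.const_mul _) (i2.const_mul _), integral_const_mul, integral_const_mul,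
      e1, e2]
    have h := mul_le_mul_of_nonneg_left (invE_second hV) (by positivity : 0 ≤ 8 * η ^ 2)
    have : 0 ≤ η * (d : ℝ) * ∫ x, inv_wt V x := by
      have := (inv_Z_pos hV).le; positivity
    nlinarith

lemma inv_line (q : EE d × EE d) (a : EE d) (t : ℝ) :
    HasDerivAt (fun s : ℝ => q + s • inv_inj η a) (inv_inj η a) t := by
  simpa using ((hasDerivAt_id t).smul_const (inv_inj η a)).const_add q

lemma inv_w_deriv (hV : Admissible V) (hη : 0 < η) (q : EE d × EE d) (a : EE d) (t : ℝ) :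
    HasDerivAt (fun s : ℝ => inv_w V (q + s • inv_inj η a))
      ⟪inv_G V η (q + t • inv_inj η a), a⟫ t := by
  set p := q + t • inv_inj η a
  have h1 := ((inv_wt_deriv hV p.1).comp p hasFDerivAt_fst).mul
    (((inv_wt_deriv inv_V0_admissible p.2).const_mul
      (((Real.sqrt (2 * Real.pi))⁻¹) ^ d)).comp p hasFDerivAt_snd)
  refine (h1.comp_hasDerivAt t (inv_line q a t)).congr_deriv ?_
  have hs : Real.sqrt η ≠ 0 := (Real.sqrt_pos.2 hη).ne'
  simp only [inv_G, inv_w, inv_D, inv_inj, inv_gd_eq, (inv_V0_grad p.2).gradient,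
    Function.comp_apply, add_apply, smul_apply,
    ContinuousLinearMap.comp_apply, ContinuousLinearMap.prod_apply,
    ContinuousLinearMap.coe_fst', ContinuousLinearMap.coe_snd', ContinuousLinearMap.id_apply,
    innerSL_apply_apply, smul_eq_mul, inner_smul_left, inner_smul_right, inner_sub_left,
    conj_trivial, smul_sub]
  field_simp
  linear_combination (inv_wt V p.1 * inv_wt inv_V0 p.2 * ⟪p.2, a⟫) * (Real.sq_sqrt hη.le).symm

lemma inv_D_deriv (hV : Admissible V) (hη : 0 < η) (q : EE d × EE d) (a : EE d) (t : ℝ) :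
    HasDerivAt (fun s : ℝ => inv_D (gradient V) η (q + s • inv_inj η a))
      (η • fderiv ℝ (gradient V) (q + t • inv_inj η a).1 a + a) t := by
  set p := q + t • inv_inj η a
  have hd := ((gradClass_gradient hV).smooth.differentiable (by norm_num) p.1).hasFDerivAt
  have h1 := ((hd.comp p hasFDerivAt_fst).const_smul η).sub
    ((hasFDerivAt_snd (p := p)).const_smul (Real.sqrt η))
  refine (h1.comp_hasDerivAt t (inv_line q a t)).congr_deriv ?_
  have hs : Real.sqrt η ≠ 0 := (Real.sqrt_pos.2 hη).ne'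
  simp [inv_inj, smul_smul, hs]

lemma inv_G_deriv (hV : Admissible V) (hη : 0 < η) (q : EE d × EE d) (b : EE d) (t : ℝ) :
    HasDerivAt (fun s : ℝ => inv_G V η (q + s • inv_inj η b))
      (inv_G2 V η b (q + t • inv_inj η b)) t := by
  refine (((inv_w_deriv hV hη q b t).div_const η).neg.smul (inv_D_deriv hV hη q b t)).congr_deriv ?_
  simp only [inv_G2, Pi.neg_apply]
  abel

/-- The bound on the second derivative. -/
noncomputable def inv_K (V : EE d → ℝ) (η : ℝ) (q : EE d × EE d) : ℝ :=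
  inv_w V q * (‖inv_D (gradient V) η q‖ ^ 2 / η ^ 2 + 2 / η)

lemma inv_G2_norm (hV : Admissible V) (hη : 0 < η) (hη1 : η ≤ 1 / 16) (b : EE d)
    (q : EE d × EE d) : ‖inv_G2 V η b q‖ ≤ ‖b‖ * inv_K V η q := by
  have hw := inv_w_pos (V := V) q
  set D := ‖inv_D (gradient V) η q‖ with hD
  refine (norm_add_le _ _).trans ?_
  have hG : ‖inv_G V η q‖ = inv_w V q / η * D := by
    rw [inv_G, norm_smul, norm_neg, Real.norm_eq_abs, abs_of_nonneg (div_nonneg hw hη.le)]
  have h1 : ‖(-(⟪inv_G V η q, b⟫ / η)) • inv_D (gradient V) η q‖ ≤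
      inv_w V q / η * D * ‖b‖ / η * D := by
    rw [norm_smul, norm_neg, Real.norm_eq_abs, abs_div, abs_of_pos hη]
    refine mul_le_mul_of_nonneg_right (div_le_div_of_nonneg_right ?_ hη.le) (norm_nonneg _)
    rw [← hG]; exact abs_real_inner_le_norm _ _
  have h2 : ‖(-(inv_w V q / η)) • (η • fderiv ℝ (gradient V) q.1 b + b)‖ ≤
      inv_w V q / η * (2 * ‖b‖) := by
    rw [norm_smul, norm_neg, Real.norm_eq_abs, abs_of_nonneg (div_nonneg hw hη.le)]
    refine mul_le_mul_of_nonneg_left ((norm_add_le _ _).trans ?_) (div_nonneg hw hη.le)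
    rw [norm_smul, Real.norm_eq_abs, abs_of_pos hη]
    nlinarith [mul_le_mul_of_nonneg_left ((fderiv ℝ (gradient V) q.1).le_of_opNorm_le
      (inv_H_le (gradClass_gradient hV) q.1) b) hη.le, norm_nonneg b]
  refine (add_le_add h1 h2).trans (le_of_eq ?_)
  rw [inv_K, ← hD]
  field_simp

lemma inv_K_int (hV : Admissible V) (hη : 0 < η) : Integrable (inv_K V η) := by
  have h1 := (inv_w_D2_int (η := η) hV hη).div_const (η ^ 2)
  have h2 : Integrable fun q => inv_w V q * (2 / η) :=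
    inv_w_integrable hV (fun _ => 2 / η) continuous_const (2 / η) 0 fun q => by
      rw [Real.norm_eq_abs, abs_of_pos (by positivity)]
      have : (0 : ℝ) < 2 / η := by positivity
      simp; linarith
  refine (h1.add h2).congr (ae_of_all _ fun q => ?_)
  simp [inv_K]; ring

lemma inv_K_le (hV : Admissible V) (hη : 0 < η) (hη1 : η ≤ 1 / 16) :
    ∫ q, inv_K V η q ≤ (3 * d + 2) / η * ∫ x, inv_wt V x := by
  have h1 := inv_w_D2_int (η := η) hV hη
  have h0 : Integrable (inv_w V) := by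
    simpa using inv_w_integrable hV (fun _ => (1 : ℝ)) continuous_const 1 0 fun q => by norm_num
  rw [show inv_K V η = fun q => inv_w V q * ‖inv_D (gradient V) η q‖ ^ 2 / η ^ 2
    + 2 / η * inv_w V q from funext fun q => by simp [inv_K]; ring,
    integral_add (h1.div_const _) (h0.const_mul _), integral_div, integral_const_mul,
    inv_w_total hV]
  have h2 := div_le_div_of_nonneg_right (inv_D_moment hV hη hη1) (sq_nonneg η)
  calc _ ≤ 3 * η * d * (∫ x, inv_wt V x) / η ^ 2 + 2 / η * ∫ x, inv_wt V x := by linarith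
    _ = _ := by field_simp

lemma inv_G_le (hV : Admissible V) (hη : 0 < η) (hη1 : η ≤ 1 / 16) :
    Integrable (inv_G V η) ∧
      ∫ q, ‖inv_G V η q‖ ≤ (d + 1) / η * ∫ x, inv_wt V x := by
  have h1 := inv_w_D2_int (η := η) hV hη
  have h0 : Integrable (inv_w V) := by
    simpa using inv_w_integrable hV (fun _ => (1 : ℝ)) continuous_const 1 0 fun q => by norm_num
  have hd : Integrable fun q =>
      (inv_w V q * ‖inv_D (gradient V) η q‖ ^ 2 + inv_w V q) / (2 * η) := (h1.add h0).div_const _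
  have hb : ∀ q, ‖inv_G V η q‖ ≤
      (inv_w V q * ‖inv_D (gradient V) η q‖ ^ 2 + inv_w V q) / (2 * η) := fun q => by
    rw [inv_G, norm_smul, norm_neg, Real.norm_eq_abs,
      abs_of_nonneg (div_nonneg (inv_w_pos q) hη.le), div_mul_eq_mul_div, div_le_div_iff₀ hη (by positivity)]
    nlinarith [mul_nonneg (mul_nonneg (inv_w_pos (V := V) q) hη.le)
      (sq_nonneg (‖inv_D (gradient V) η q‖ - 1))]
  have hi : Integrable (inv_G V η) :=
    hd.mono' (inv_G_continuous hV).aestronglyMeasurable (ae_of_all _ hb)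
  refine ⟨hi, (integral_mono hi.norm hd hb).trans ?_⟩
  rw [integral_div, integral_add h1 h0, inv_w_total hV, div_le_iff₀ (by positivity)]
  have h2 := inv_D_moment hV hη hη1
  have hZ := (inv_Z_pos hV).le
  have h3 : 3 * η * (d : ℝ) * (∫ x, inv_wt V x) ≤ (d : ℝ) * ∫ x, inv_wt V x := by
    have : 3 * η ≤ 1 := by linarith
    nlinarith [mul_nonneg (mul_nonneg (sub_nonneg.2 this) (Nat.cast_nonneg d)) hZ]
  have e : (d + 1) / η * (∫ x, inv_wt V x) * (2 * η) = 2 * (d + 1) * ∫ x, inv_wt V x := by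
    field_simp
  rw [e]
  nlinarith [mul_nonneg (Nat.cast_nonneg (α := ℝ) d) hZ]

end joint

end Vale.Agent.P347
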