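import Vale.Agent.P347.InvEnd
import Vale.Agent.P347.InvFam
import Vale.Agent.P347.InvOne

/-!
Module 5: near-invariance of the Gibbs law under one reference step. The second moment, the final
blur and the total variation bound from continuous tests are in `InvEnd`.
-/

open MeasureTheory ProbabilityTheory
open scoped RealInnerProductSpace

namespace Vale.Agent.P347

variable {d : ℕ}

/-- A bounded continuous function of (centre, state) against the joint law. -/
lemma inv_joint_int {V : EE d → ℝ} (hV : Admissible V) (f : EE d × EE d → ℝ) (hf : Continuous f)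
    (C : ℝ) (hb : ∀ q, |f q| ≤ C) : Integrable fun q => inv_w V q * f q := by
  refine ((inv_w_int hV).mul_const C).mono' ((inv_w_continuous hV).mul hf).aestronglyMeasurable
    (ae_of_all _ fun q => ?_)
  rw [norm_mul, Real.norm_eq_abs, abs_of_nonneg (inv_w_pos q)]
  exact mul_le_mul_of_nonneg_left (hb q) (inv_w_pos q)

theorem invariance :
    ∃ C : ℝ, 0 < C ∧ ∀ (d : ℕ) (V : EE d → ℝ) (η h : ℝ) (N : ℕ) (φ : EE d → ℝ)
      (Ψ : EE d → EE d) (B : ℝ),
      Admissible V → 0 < η → η ≤ 1 / 16 → 0 < h → h ≤ η / 4 → 8 ≤ h * N →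
      (∀ x, HasGradientAt φ (Ψ x) x) → Continuous Ψ → (∀ x, ‖Ψ x‖ ≤ B) → (∀ x, |φ x| ≤ 1) →
        |(∫ x, Mop (gradient V) η h N φ x ∂gibbs V) - ∫ x, φ x ∂gibbs V| ≤
          C * B * ((d + 1) ^ 3 / η) * (h * N * Real.sqrt h + Real.exp (-(h * N) / 4)) := by
  refine ⟨25, by norm_num, fun d V η h N φ Ψ B hV hη hη' hh hh' _ hφ hc hB h1 => ?_⟩
  have hg := gradClass_gradient hV
  set g := gradient V
  set Z := ∫ x, inv_wt V x with hZdef
  have hZ : 0 < Z := inv_Z_pos hV
  have hB0 : 0 ≤ B := (norm_nonneg _).trans (hB 0)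
  have hd0 : (0 : ℝ) ≤ d := Nat.cast_nonneg d
  have hP := inv_P_continuous (d := d) η
  have hYc : Continuous (inv_Y (d := d) η) := by unfold inv_Y; fun_prop
  set J := fun k => ∫ q, inv_w V q * inv_Phi g η h φ k (inv_P η q)
  have hh1 : 0 ≤ 1 - h := by linarith
  have hstep : ∀ k, |J (k + 1) - J k| ≤ 25 * (d + 1) ^ 3 * (B * (h * Real.sqrt h)) * Z := fun k => by
    obtain ⟨Ψ', hS⟩ := inv_Phi_slice hg hη hη' hh hh' hφ hc hB h1 k
    refine (inv_step hV hη hη' hh hh' hS).trans ?_
    gcongr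
    exact mul_le_of_le_one_left hB0 (pow_le_one₀ hh1 (by linarith))
  have htel : |J N - J 0| ≤ N * (25 * (d + 1) ^ 3 * (B * (h * Real.sqrt h)) * Z) := by
    rw [← Finset.sum_range_sub J N]
    refine (Finset.abs_sum_le_sum_abs _ _).trans ((Finset.sum_le_sum fun k _ => hstep k).trans ?_)
    simp
  obtain ⟨ΨN, hSN⟩ := inv_Phi_slice hg hη hη' hh hh' hφ hc hB h1 N
  have hRc : Continuous (Rop g η h N φ) := by
    rw [funext (inv_Rop_eq hg hη hη' hh hh' hφ hc hB h1 N)]
    have := hSN.cont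
    exact continuous_of_dominated (bound := fun _ => 1)
      (fun y => (by fun_prop : Continuous fun ξ => inv_Phi g η h φ N (y, y + Real.sqrt η • ξ)).aestronglyMeasurable)
      (fun y => ae_of_all _ fun ξ => hSN.le_one _) (integrable_const _)
      (ae_of_all _ fun ξ => by fun_prop)
  have hRb : ∀ y, |Rop g η h N φ y| ≤ 1 := fun y => by
    rw [inv_Rop_eq hg hη hη' hh hh' hφ hc hB h1 N y, ← Real.norm_eq_abs]
    exact (norm_integral_le_of_norm_le_const (ae_of_all _ fun ξ => hSN.le_one _)).trans_eq (by simp)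
  have hRi := inv_joint_int hV (fun q => Rop g η h N φ (inv_Y η q)) (hRc.comp hYc) 1 fun q => hRb _
  have hNi := inv_joint_int hV (fun q => inv_Phi g η h φ N (inv_P η q)) (hSN.cont.comp hP) 1
    fun q => hSN.le_one _
  have e1 : ∫ x, Mop g η h N φ x ∂gibbs V = Z⁻¹ * ∫ q, inv_w V q * Rop g η h N φ (inv_Y η q) := by
    rw [inv_gibbs_integral hV]
    congr 1
    rw [Measure.volume_eq_prod, integral_prod _ hRi]
    refine integral_congr_ae (ae_of_all _ fun x => ?_)
    simp only [Mop, Gs, inv_w, mul_assoc]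
    rw [integral_const_mul, inv_integral_gam]
    rfl
  have e2 : ∫ x, φ x ∂gibbs V = Z⁻¹ * J 0 := by
    rw [inv_gibbs_integral hV]
    congr 1
    simp only [J, inv_Phi, inv_P, inv_w, mul_right_comm _ (inv_gd _), Measure.volume_eq_prod]
    exact ((integral_prod_mul (fun x => inv_wt V x * φ x) inv_gd).trans
      (by rw [inv_gd_integral_one, mul_one])).symm
  set E := Real.exp (-(h * N) / 4)
  have hE : (1 - h) ^ N ≤ E := by
    calc (1 - h) ^ N ≤ Real.exp (-h) ^ N :=
          pow_le_pow_left₀ hh1 (by linarith [Real.add_one_le_exp (-h)]) N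
      _ = Real.exp (-(h * N)) := by rw [← Real.exp_nat_mul]; congr 1; ring
      _ ≤ E := Real.exp_le_exp.2 (by linarith [mul_nonneg hh.le (Nat.cast_nonneg (α := ℝ) N)])
  have hsη : Real.sqrt η ≤ 1 := Real.sqrt_le_one.2 (by linarith)
  have hn1 : Integrable fun q : EE d × EE d => inv_w V q * ‖q.2‖ :=
    inv_w_integrable hV (fun q => ‖q.2‖) (by fun_prop) 1 1 fun q => by
      rw [norm_norm]; nlinarith [norm_nonneg q.1, norm_nonneg q.2,
        mul_nonneg (norm_nonneg q.1) (norm_nonneg q.2)]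
  have hn2 : ∫ q : EE d × EE d, inv_w V q * ‖q.2‖ ≤ Z * (d + 1) := by
    simp only [inv_w, mul_assoc, Measure.volume_eq_prod]
    refine (integral_prod_mul (inv_wt V) (fun x => inv_gd x * ‖x‖)).trans_le ?_
    refine mul_le_mul_of_nonneg_left (le_of_eq_of_le ?_ inv_gam_norm) hZ.le
    rw [inv_integral_gam]
    rfl
  have htail : |(∫ q, inv_w V q * Rop g η h N φ (inv_Y η q)) - J N| ≤ B * E * (2 * (d + 1)) * Z := by
    rw [← integral_sub hRi hNi, ← Real.norm_eq_abs]
    refine (norm_integral_le_integral_norm _).trans ((integral_mono_of_nonneg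
      (ae_of_all _ fun q => norm_nonneg _)
      ((hn1.const_mul (B * E)).add ((inv_w_int hV).const_mul (B * E * (d + 1))))
      (ae_of_all _ fun q => ?_)).trans ?_)
    · simp only [Pi.add_apply, ← mul_sub, norm_mul, Real.norm_eq_abs,
        abs_of_nonneg (inv_w_pos q)]
      have h2 : |Rop g η h N φ (inv_Y η q) - inv_Phi g η h φ N (inv_P η q)| ≤
          B * (1 - h) ^ N * (‖q.2‖ + (d + 1)) := by
        refine (inv_Rop_near hg hη hη' hh hh' hφ hc hB h1 N (inv_Y η q) q.1).trans ?_
        refine mul_le_mul_of_nonneg_left ?_ (mul_nonneg hB0 (pow_nonneg hh1 N))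
        simp only [inv_Y, add_sub_cancel_left, norm_smul, Real.norm_eq_abs,
          abs_of_nonneg (Real.sqrt_nonneg η)]
        exact add_le_add (mul_le_of_le_one_left (norm_nonneg _) hsη)
          (mul_le_of_le_one_left (by positivity) hsη)
      refine (mul_le_mul_of_nonneg_left (h2.trans
        (mul_le_mul_of_nonneg_right (mul_le_mul_of_nonneg_left hE hB0) (by positivity)))
        (inv_w_pos q)).trans_eq ?_
      ring
    · simp only [Pi.add_apply]
      rw [integral_add (hn1.const_mul _) ((inv_w_int hV).const_mul _), integral_const_mul,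
        integral_const_mul, inv_w_total hV]
      nlinarith [mul_le_mul_of_nonneg_left hn2 (mul_nonneg hB0 (Real.exp_nonneg (-(h * N) / 4)))]
  rw [e1, e2, ← mul_sub, abs_mul, abs_of_pos (inv_pos.2 hZ), inv_mul_le_iff₀ hZ]
  refine ((abs_sub_le _ (J N) _).trans (add_le_add htail htel)).trans ?_
  have hp : (d + 1 : ℝ) ^ 3 ≤ (d + 1) ^ 3 / η :=
    le_div_self (by positivity) hη (by linarith)
  have hp1 : 2 * (d + 1 : ℝ) ≤ 25 * ((d + 1) ^ 3 / η) := by
    nlinarith [le_self_pow₀ (show (1 : ℝ) ≤ d + 1 by linarith) (three_ne_zero (α := ℕ))]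
  have a1 := mul_le_mul_of_nonneg_left hp1
    (by positivity : 0 ≤ B * Real.exp (-(h * N) / 4) * Z)
  have a2 := mul_le_mul_of_nonneg_left hp
    (by positivity : 0 ≤ 25 * B * (h * N * Real.sqrt h) * Z)
  linarith

end Vale.Agent.P347
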