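import Vale.Agent.P347.KernelMean

/-!
Module 4 (one step): K1, K2, K4, K5 of note 865 — one step of the kernel against the reference
chain, and its second moment.
-/

open MeasureTheory ProbabilityTheory
open scoped RealInnerProductSpace

namespace Vale.Agent.P347

/-- The size of the drift in one step. -/
noncomputable def R0 (P : Params) {d : ℕ} (y : EE d) : ℝ :=
  2 * P.eta * Real.sqrt d + (2 * P.eta) ^ P.n * (2 * Real.sqrt P.eta * ‖y‖)

/-- The size of the forgetting error in one step. -/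
noncomputable def tail0 (P : Params) {d : ℕ} (y : EE d) : ℝ :=
  Real.exp (-(P.h * P.N) / 4) * (Real.sqrt d + ‖y‖ + 1)

namespace K

variable {d : ℕ} {P : Params} {Cw δ : ℝ} {g : EE d → EE d}

lemma grad_norm (hg : GradClass g) (x : EE d) : ‖g x‖ ≤ 2 * ‖x‖ := by
  have := (grad_LC hg).lip x 0
  rwa [hg.zero, sub_zero, sub_zero] at this

lemma centre_bound (hg : GradClass g) {η : ℝ} (h0 : 0 ≤ η) (h1 : η ≤ 1 / 16) (y : EE d) :
    ∀ n, ‖centre g η n y‖ ≤ (1 + 4 * η) * ‖y‖ ∧
      ‖centre g η n y - y‖ ≤ 4 * η * ‖y‖ ∧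
      ‖centre g η n y - (y - η • g (centre g η n y))‖ ≤ (2 * η) ^ n * (2 * η * ‖y‖)
  | 0 => by
      have e : centre g η 0 y = y := rfl
      rw [e]
      refine ⟨le_mul_of_one_le_left (norm_nonneg _) (by linarith), ?_, ?_⟩
      · simpa using by positivity
      · rw [sub_sub_cancel, norm_smul, Real.norm_eq_abs, abs_of_nonneg h0, pow_zero, one_mul,
          mul_assoc, mul_left_comm]
        exact mul_le_mul_of_nonneg_left (grad_norm hg y) h0
  | n + 1 => by
      obtain ⟨hc, hd, hr⟩ := centre_bound hg h0 h1 y n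
      set c := centre g η n y
      have e : centre g η (n + 1) y = y - η • g c := by
        simp only [centre, Function.iterate_succ_apply', c]
      rw [e]
      have hd' : ‖y - η • g c - y‖ ≤ 4 * η * ‖y‖ := by
        rw [sub_sub_cancel_left, norm_neg, norm_smul, Real.norm_eq_abs, abs_of_nonneg h0]
        calc η * ‖g c‖ ≤ η * (2 * ((1 + 4 * η) * ‖y‖)) :=
              mul_le_mul_of_nonneg_left ((grad_norm hg c).trans (by linarith)) h0
          _ ≤ η * (4 * ‖y‖) := by
              refine mul_le_mul_of_nonneg_left ?_ h0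
              nlinarith [norm_nonneg y]
          _ = _ := by ring
      refine ⟨?_, hd', ?_⟩
      · have := norm_le_norm_add_norm_sub' (y - η • g c) y
        linarith
      · rw [sub_sub_sub_cancel_left, ← smul_sub, norm_smul, Real.norm_eq_abs, abs_of_nonneg h0]
        calc η * ‖g (y - η • g c) - g c‖ ≤ η * (2 * ((2 * η) ^ n * (2 * η * ‖y‖))) := by
              refine mul_le_mul_of_nonneg_left (((grad_LC hg).lip _ _).trans ?_) h0
              rw [norm_sub_rev]
              exact mul_le_mul_of_nonneg_left hr zero_le_two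
          _ = _ := by rw [pow_succ]; ring

lemma ghat_LC (hg : GradClass g) {η : ℝ} (h0 : 0 ≤ η) (y c : EE d) :
    LC (ghat g η y c) (2 * η) := by
  have hs := Real.sqrt_nonneg η
  refine (((((grad_LC hg).comp ((LC.const c).add ((LC.clm (ContinuousLinearMap.id ℝ (EE d))
    ContinuousLinearMap.norm_id_le).smul (Real.sqrt η))) zero_le_two).smul
      (Real.sqrt η)).add (LC.const ((Real.sqrt η)⁻¹ • (c - y))))).mono ?_
  rw [abs_of_nonneg hs]
  have := Real.mul_self_sqrt h0
  nlinarith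

lemma ghat_zero (hg : GradClass g) {η : ℝ} (h0 : 0 < η) (h1 : η ≤ 1 / 16) (n : ℕ) (y : EE d) :
    ‖ghat g η y (centre g η n y) 0‖ ≤ (2 * η) ^ n * (2 * Real.sqrt η * ‖y‖) := by
  set c := centre g η n y
  have hs : 0 < Real.sqrt η := Real.sqrt_pos.2 h0
  have e : ghat g η y c 0 = (Real.sqrt η)⁻¹ • (c - (y - η • g c)) := by
    simp only [ghat, smul_zero, add_zero]
    rw [sub_sub_eq_add_sub, add_comm c, add_sub_assoc, smul_add, smul_smul]
    congr 2
    rw [inv_mul_eq_div, Real.div_sqrt]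
  rw [e, norm_smul, norm_inv, Real.norm_eq_abs, abs_of_pos hs, inv_mul_le_iff₀ hs]
  refine ((centre_bound hg h0.le h1 y n).2.2).trans (le_of_eq ?_)
  have := Real.mul_self_sqrt h0.le
  linear_combination -((2 * η) ^ n * 2 * ‖y‖) * this

/-- The correction is at most the quadrature. -/
lemma Scorr_le {f : EE d → EE d} (hP : P.Good d Cw δ) (hf : LC f (2 * P.eta)) (ω : Path d P.N)
    (ξ : EE d) : ‖Scorr P f ω ξ‖ ≤ 2 * P.eta * ‖Asum P f ω‖ := by
  have he := hP.eta_pos
  refine (hf.lip _ _).trans (mul_le_mul_of_nonneg_left ?_ (by positivity))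
  have hh1 := good_h1' hP
  have hp : 0 ≤ (1 - P.h) ^ P.m := pow_nonneg (by linarith) _
  rw [add_sub_add_right_eq_sub, smul_sub, sub_sub_cancel_left, norm_neg, norm_smul,
    Real.norm_eq_abs, abs_of_nonneg hp]
  exact mul_le_of_le_one_left (norm_nonneg _)
    (pow_le_one₀ (by linarith) (by linarith [good_h0 hP]))

lemma Scorr_cont {f : EE d → EE d} (hP : P.Good d Cw δ) (hf : LC f (2 * P.eta)) :
    Continuous fun p : Path d P.N × EE d => Scorr P f p.1 p.2 := by
  have hA : Continuous fun p : Path d P.N × EE d => Asum P f p.1 :=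
    (wsum_LC hP hf (node := P.node) (w := P.w) hP.w_abs).cd.continuous.comp continuous_fst
  have hf' := hf.cd.continuous
  unfold Scorr
  fun_prop

/-- The mean of the correction. -/
lemma Scorr_mean {f : EE d → EE d} (hP : P.Good d Cw δ) (hf : LC f (2 * P.eta)) :
    ∫ p, Scorr P f p.1 p.2 ∂(pgam d P.N).prod (gam d)
      = (∫ ω, Gf P f (pathW d P.N P.h P.N ω - Asum P f ω) ∂pgam d P.N) - ∫ x, f x ∂gam d := by
  have he := hP.eta_pos
  have h0 := good_h0 hP
  have h1 := good_h1' hP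
  have hCw := good_Cw hP
  set q := (1 - P.h) ^ P.m with hq
  set b := Real.sqrt (1 - (1 - P.h) ^ (2 * P.m)) with hb
  set T : Path d P.N →L[ℝ] EE d := q • pathW d P.N P.h P.N with hT
  set U : EE d →L[ℝ] EE d := b • ContinuousLinearMap.id ℝ (EE d) with hU
  have hTU : T ∘L ContinuousLinearMap.adjoint T + U ∘L ContinuousLinearMap.adjoint U
      = .id ℝ (EE d) := by
    have hbb : b * b = 1 - q * q := by
      rw [hb, Real.mul_self_sqrt (by linarith [noise_ge hP]), hq, two_mul, pow_add]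
    refine ContinuousLinearMap.ext fun u => ?_
    simp only [hT, hU, map_smulₛₗ, conj_trivial, ContinuousLinearMap.add_apply,
      ContinuousLinearMap.comp_apply, ContinuousLinearMap.smul_apply,
      ContinuousLinearMap.adjoint_id, ContinuousLinearMap.id_apply, RingHom.id_apply,
      pathW_corr' h0 h1 le_rfl le_rfl, Nat.sub_self, pow_zero, one_smul, smul_smul, ← add_smul]
    rw [hbb]
    simp
  have hid : LC (fun x : EE d => x) 1 := ⟨contDiff_id, fun x y => by simp⟩
  obtain ⟨hi2, he2⟩ := int_map_prod (μ := pgam d P.N) (ν := gam d)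
    (Φ := fun p => T p.1 + U p.2) (Continuous.measurable (by fun_prop))
    (map_prod_coisometry T U hTU) (hf.int (by positivity) : Integrable f (gam d))
  have hWA := (pathW_LC hP hf P.N).sub (wsum_LC hP hf (node := P.node) (w := P.w) hP.w_abs)
  have hcA : Continuous fun ω : Path d P.N => Asum P f ω :=
    (wsum_LC hP hf (node := P.node) (w := P.w) hP.w_abs).cd.continuous
  have hsub : Integrable (fun p : Path d P.N × EE d => Scorr P f p.1 p.2)
      ((pgam d P.N).prod (gam d)) := by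
    refine Integrable.mono' ((((wsum_LC hP hf (node := P.node) (w := P.w) hP.w_abs).int
      (by positivity)).norm.comp_fst (gam d)).const_mul (2 * P.eta))
      (Scorr_cont hP hf).aestronglyMeasurable (Filter.Eventually.of_forall fun p => ?_)
    exact Scorr_le hP hf p.1 p.2
  have hi1 : Integrable (fun p : Path d P.N × EE d =>
      f (q • (pathW d P.N P.h P.N p.1 - Asum P f p.1) + b • p.2))
      ((pgam d P.N).prod (gam d)) := by
    refine (hsub.add hi2).congr (Filter.Eventually.of_forall fun p => ?_)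
    simp only [Pi.add_apply, Scorr, hT, hU]
    simp [q, b]
  have e : ∀ p : Path d P.N × EE d, Scorr P f p.1 p.2
      = f (q • (pathW d P.N P.h P.N p.1 - Asum P f p.1) + b • p.2) - f (T p.1 + U p.2) := fun p => by
    simp [Scorr, hT, hU, q, b]
  simp only [e]
  rw [integral_sub hi1 hi2, integral_prod _ hi1, integral_prod _ hi2, ← he2]
  rfl

end K

open K in
theorem one_step :
    ∃ C : ℝ, 0 < C ∧ ∀ (d : ℕ) (g : EE d → EE d) (P : Params) (Cw δ : ℝ),
      GradClass g → P.Good d Cw δ → 0 ≤ δ → 1 ≤ P.n →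
      ∀ (φ : EE d → ℝ) (Ψ : EE d → EE d) (b a : ℝ), Test φ Ψ b a → (∀ x, |φ x| ≤ 1) →
      ∀ y : EE d,
        |(∫ ω, φ (kern g P y ω) ∂kgam d P.N) - Rop g P.eta P.h P.N φ y| ≤
          C * (1 + Cw) ^ 2 *
            (Real.sqrt P.eta * b *
                (Real.sqrt P.eta * (P.eta + δ) * R0 P y + tail0 P y)
              + P.eta * a *
                ((P.eta + δ) * R0 P y + P.eta ^ 2 * R0 P y ^ 2 + tail0 P y)) := by
  refine ⟨2000, by norm_num, fun d g P Cw δ hg hP hδ hn φ Ψ b a hT hφ y => ?_⟩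
  have he := hP.eta_pos
  have he1 := hP.eta_le
  have h0 := good_h0 hP
  have h1 := good_h1' hP
  have hCw := good_Cw hP
  have hb0 := test_b_nonneg hT
  have ha0 := test_a_nonneg hT
  have hs : 0 < Real.sqrt P.eta := Real.sqrt_pos.2 he
  set c := centre g P.eta P.n y
  set f := ghat g P.eta y c
  have hf : LC f (2 * P.eta) := ghat_LC hg he.le y c
  set e0 := (Real.sqrt P.eta)⁻¹ • (y - c)
  obtain ⟨-, hcy, -⟩ := centre_bound hg he.le he1 y P.n
  -- sizes
  have hr := ghat_zero hg he he1 P.n y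
  have hRR : Rf P f ≤ R0 P y := add_le_add le_rfl hr
  have hR := Rf_nonneg hP hf
  have ht := tau_pos (P := P)
  have hT0 : tau P * (‖e0‖ + Rf P f) ≤ 2 * tail0 P y := by
    have hsq : Real.sqrt P.eta ≤ 1 / 4 := by
      rw [Real.sqrt_le_iff]; exact ⟨by norm_num, by linarith⟩
    have hpn : (2 * P.eta) ^ P.n ≤ 1 := pow_le_one₀ (by positivity) (by linarith)
    have he0 : ‖e0‖ ≤ ‖y‖ := by
      rw [norm_smul, norm_inv, Real.norm_eq_abs, abs_of_pos hs, norm_sub_rev,
        inv_mul_le_iff₀ hs]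
      refine hcy.trans ?_
      have := Real.mul_self_sqrt he.le
      nlinarith [mul_nonneg hs.le (norm_nonneg y),
        mul_le_mul_of_nonneg_right (mul_le_mul_of_nonneg_left hsq hs.le) (norm_nonneg y)]
    have hR0 : Rf P f ≤ Real.sqrt d + ‖y‖ := by
      refine hRR.trans (add_le_add ?_ ?_)
      · exact mul_le_of_le_one_left (Real.sqrt_nonneg _) (by linarith)
      · refine (mul_le_of_le_one_left (by positivity) hpn).trans ?_
        exact mul_le_of_le_one_left (norm_nonneg _) (by linarith)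
    show tau P * _ ≤ 2 * (tau P * _)
    rw [mul_left_comm]
    refine mul_le_mul_of_nonneg_left ?_ ht.le
    linarith [Real.sqrt_nonneg (d : ℝ), norm_nonneg y]
  -- the reference chain
  set φ' := fun x => φ (c + Real.sqrt P.eta • x) with hφ'
  have hT' : Test φ' (fun x => Real.sqrt P.eta • Ψ (c + Real.sqrt P.eta • x))
      (Real.sqrt P.eta * b) (P.eta * a) := by
    have := test_affine hT c hs.le
    rwa [Real.sq_sqrt he.le] at this
  have hz : ∀ k ω, zchain g P.eta P.h P.N y k ω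
      = c + Real.sqrt P.eta • Xc d P.N P.h f e0 k ω := by
    intro k ω
    induction k with
    | zero =>
      simp only [zchain, Xc, err, pathW, smul_add, e0, smul_inv_smul₀ hs.ne']
      abel
    | succ k ih =>
      have hgz : Real.sqrt P.eta • f (Xc d P.N P.h f e0 k ω)
          = P.eta • g (zchain g P.eta P.h P.N y k ω) + (c - y) := by
        simp only [f, ghat, ih, smul_add, smul_smul, Real.mul_self_sqrt he.le,
          mul_inv_cancel₀ hs.ne', one_smul]
      have hstep : Xc d P.N P.h f e0 (k + 1) ω = (1 - P.h) • Xc d P.N P.h f e0 k ω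
          + beta P.h • inp d P.N (k + 1) ω - P.h • f (Xc d P.N P.h f e0 k ω) := by
        simp only [Xc, err, pw, pathW, ContinuousLinearMap.add_apply,
          ContinuousLinearMap.smul_apply, smul_add]
        abel
      rw [hstep]
      simp only [zchain]
      rw [smul_sub, smul_add, smul_comm (Real.sqrt P.eta) P.h, hgz]
      rw [ih]
      simp only [smul_add, smul_sub, smul_smul, sub_smul, one_smul]
      module
  have hRop : Rop g P.eta P.h P.N φ y = ∫ ω, φ' (Xc d P.N P.h f e0 P.N ω) ∂pgam d P.N := by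
    simp only [Rop, hz, φ']
  -- the kernel
  set ν := (pgam d P.N).prod (gam d)
  set S : Path d P.N × EE d → EE d := fun p => Scorr P f p.1 p.2
  set s := ∫ p, S p ∂ν
  have hA : LC (fun ω => pathW d P.N P.h P.N ω - Asum P f ω) (1 + Cw * (2 * P.eta)) :=
    (pathW_LC hP hf P.N).sub (wsum_LC hP hf (node := P.node) (w := P.w) hP.w_abs)
  have hAs : LC (fun ω => Asum P f ω) (Cw * (2 * P.eta)) :=
    wsum_LC hP hf (node := P.node) (w := P.w) hP.w_abs
  have hScont : Continuous S := Scorr_cont hP hf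
  have hSm : MemLp S 2 ν := by
    refine (memLp_two_iff_integrable_sq_norm hScont.aestronglyMeasurable).2 ?_
    refine Integrable.mono' (((hAs.int_sq (by positivity)).comp_fst (gam d)).const_mul
      ((2 * P.eta) ^ 2)) (hScont.norm.pow 2).aestronglyMeasurable
      (Filter.Eventually.of_forall fun p => ?_)
    rw [Real.norm_eq_abs, abs_of_nonneg (sq_nonneg _), ← mul_pow]
    exact pow_le_pow_left₀ (norm_nonneg _) (Scorr_le hP hf _ _) 2
  have hk : ∀ ω, φ (kern g P y ω) = φ' (pathW d P.N P.h P.N ω.1 - Asum P f ω.1 - S ω.2) :=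
    fun ω => rfl
  have hint : Integrable (fun ω : KRand d P.N =>
      φ' (pathW d P.N P.h P.N ω.1 - Asum P f ω.1 - S ω.2)) (kgam d P.N) :=
    test_int hT' (((hA.int (by positivity)).comp_fst ν).sub
      ((hSm.integrable one_le_two).comp_snd (pgam d P.N)))
  have hleft : Integrable (fun ω =>
      ∫ p, φ' (pathW d P.N P.h P.N ω - Asum P f ω - S p) ∂ν) (pgam d P.N) :=
    hint.integral_prod_left
  have hright : Integrable (fun ω => φ' (pathW d P.N P.h P.N ω - Asum P f ω - s)) (pgam d P.N) :=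
    test_int hT' ((hA.int (by positivity)).sub (integrable_const s))
  have hS2 : ∫ p, ‖S p - s‖ ^ 2 ∂ν ≤ 8 * P.eta ^ 2 * (Cw * Rf P f) ^ 2 := by
    refine (var_le hSm).trans ?_
    refine (integral_mono (hSm.integrable_norm_pow two_ne_zero)
      (((hAs.int_sq (by positivity)).comp_fst (gam d)).const_mul ((2 * P.eta) ^ 2))
      fun p => ?_).trans ?_
    · simp only []
      rw [← mul_pow]
      exact pow_le_pow_left₀ (norm_nonneg _) (Scorr_le hP hf _ _) 2
    · rw [integral_const_mul, show (∫ p, ‖Asum P f p.1‖ ^ 2 ∂ν) = _ from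
        integral_fun_fst (μ := pgam d P.N) (ν := gam d) fun ω => ‖Asum P f ω‖ ^ 2]
      simp only [probReal_univ, one_smul]
      calc (2 * P.eta) ^ 2 * ∫ ω, ‖Asum P f ω‖ ^ 2 ∂pgam d P.N
          ≤ (2 * P.eta) ^ 2 * (2 * (Cw * Rf P f) ^ 2) := mul_le_mul_of_nonneg_left
            (wsum_sq hP hf (node := P.node) (w := P.w) hP.node_le hP.w_abs) (by positivity)
        _ = _ := by ring
  have step1 : |(∫ ω, φ (kern g P y ω) ∂kgam d P.N)
      - ∫ ω, φ' (pathW d P.N P.h P.N ω - Asum P f ω - s) ∂pgam d P.N|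
      ≤ P.eta * a * (8 * P.eta ^ 2 * (Cw * Rf P f) ^ 2) := by
    simp only [hk]
    rw [integral_prod _ hint, ← integral_sub hleft hright, ← Real.norm_eq_abs]
    refine (norm_integral_le_of_norm_le_const (μ := pgam d P.N)
      (C := P.eta * a * (8 * P.eta ^ 2 * (Cw * Rf P f) ^ 2))
      (Filter.Eventually.of_forall fun ω => ?_)).trans
        (le_of_eq (by rw [probReal_univ, mul_one]))
    set u := pathW d P.N P.h P.N ω - Asum P f ω - s with hu
    have hiS : Integrable (fun p => s - S p) ν :=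
      (integrable_const s).sub (hSm.integrable one_le_two)
    have hi1 : Integrable (fun p => φ' (pathW d P.N P.h P.N ω - Asum P f ω - S p)) ν :=
      test_int hT' ((integrable_const _).sub (hSm.integrable one_le_two))
    have hi2 : Integrable (fun p => ⟪Real.sqrt P.eta • Ψ (c + Real.sqrt P.eta • u), s - S p⟫) ν :=
      hiS.const_inner _
    have hzero : ∫ p, ⟪Real.sqrt P.eta • Ψ (c + Real.sqrt P.eta • u), s - S p⟫ ∂ν = 0 := by
      rw [integral_inner hiS, integral_sub (integrable_const s) (hSm.integrable one_le_two)]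
      simp [s]
    have hi12 : Integrable
        (fun p => φ' (pathW d P.N P.h P.N ω - Asum P f ω - S p) - φ' u) ν :=
      hi1.sub (integrable_const _)
    have hi3 : Integrable (fun p => ‖S p - s‖ ^ 2) ν :=
      (hSm.sub (memLp_const s)).integrable_norm_pow two_ne_zero
    have e : (∫ p, φ' (pathW d P.N P.h P.N ω - Asum P f ω - S p) ∂ν) - φ' u
        = ∫ p, (φ' (pathW d P.N P.h P.N ω - Asum P f ω - S p) - φ' u
            - ⟪Real.sqrt P.eta • Ψ (c + Real.sqrt P.eta • u), s - S p⟫) ∂ν := by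
      rw [integral_sub hi12 hi2, hzero, sub_zero, integral_sub hi1 (integrable_const _)]
      simp
    rw [Real.norm_eq_abs, e]
    refine (abs_integral_le_integral_abs).trans ?_
    refine (integral_mono (hi12.sub hi2).abs
      (hi3.const_mul (P.eta * a)) fun p => ?_).trans ?_
    · have h := test_taylor hT' u (s - S p)
      have eu : u + (s - S p) = pathW d P.N P.h P.N ω - Asum P f ω - S p := by
        rw [hu]; abel
      rw [eu, norm_sub_rev s] at h
      exact h
    · rw [integral_const_mul]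
      exact mul_le_mul_of_nonneg_left hS2 (mul_nonneg he.le ha0)
  have hsval : (∫ ω, Xc d P.N P.h f e0 P.N ω ∂pgam d P.N) + (∫ x, f x ∂gam d) + s
      = (∫ ω, Xc d P.N P.h f e0 P.N ω ∂pgam d P.N)
        + ∫ ω, Gf P f (pathW d P.N P.h P.N ω - Asum P f ω) ∂pgam d P.N := by
    have := Scorr_mean hP hf
    rw [show s = _ from this]
    abel
  have step2 := compare hP hf e0 hδ hT' s
  rw [hsval] at step2
  have hm := mul_le_mul_of_nonneg_left (m1_bound hP hf e0 hδ)
    (mul_nonneg hs.le hb0)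
  rw [hRop]
  refine (abs_sub_le _ (∫ ω, φ' (pathW d P.N P.h P.N ω - Asum P f ω - s) ∂pgam d P.N) _).trans ?_
  refine (add_le_add step1 (step2.trans (add_le_add hm le_rfl))).trans ?_
  set W := (1 + Cw) ^ 2
  have hW0 : 0 ≤ W := sq_nonneg _
  have hR0' : 0 ≤ R0 P y := hR.trans hRR
  have hEB : EB P f e0 + δ * Rf P f ≤ (P.eta + δ) * R0 P y + 2 * tail0 P y := by
    have h2 := mul_le_mul_of_nonneg_left hRR (add_nonneg he.le hδ)
    unfold EB
    linarith
  have t1 : Real.sqrt P.eta * (P.eta + δ) * Rf P f + tau P * (‖e0‖ + Rf P f)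
      ≤ Real.sqrt P.eta * (P.eta + δ) * R0 P y + 2 * tail0 P y :=
    add_le_add (mul_le_mul_of_nonneg_left hRR (by positivity)) hT0
  have hCsq : Cw ^ 2 ≤ W := pow_le_pow_left₀ (by linarith) (by linarith) 2
  have t0 : P.eta * a * (8 * P.eta ^ 2 * (Cw * Rf P f) ^ 2)
      ≤ P.eta * a * (8 * P.eta ^ 2 * (W * R0 P y ^ 2)) := by
    rw [mul_pow Cw]
    gcongr
  have t2 := mul_le_mul_of_nonneg_left (mul_le_mul_of_nonneg_left t1 hW0)
    (mul_nonneg hs.le hb0)
  have t3 := mul_le_mul_of_nonneg_left (mul_le_mul_of_nonneg_left hEB (mul_nonneg he.le ha0)) hW0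
  have htl : 0 ≤ tail0 P y := by unfold tail0; positivity
  have p1 : 0 ≤ Real.sqrt P.eta * b * (W * (Real.sqrt P.eta * (P.eta + δ) * R0 P y)) := by
    positivity
  have p2 : 0 ≤ Real.sqrt P.eta * b * (W * tail0 P y) := by positivity
  have p3 : 0 ≤ P.eta * a * (W * ((P.eta + δ) * R0 P y)) := by positivity
  have p4 : 0 ≤ P.eta * a * (W * (P.eta ^ 2 * R0 P y ^ 2)) := by positivity
  have p5 : 0 ≤ P.eta * a * (W * tail0 P y) := by positivity
  linarith

open K in
theorem kern_moment :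
    ∃ C : ℝ, 0 < C ∧ ∀ (d : ℕ) (g : EE d → EE d) (P : Params) (Cw δ : ℝ),
      GradClass g → P.Good d Cw δ → 1 ≤ P.n → ∀ y : EE d,
        (Integrable (fun ω => ‖kern g P y ω‖ ^ 2) (kgam d P.N)) ∧
        ∫ ω, ‖kern g P y ω‖ ^ 2 ∂kgam d P.N ≤
          (1 + C * P.eta * (1 + Cw * P.eta) ^ 2) * ‖y‖ ^ 2 + C * (1 + Cw) ^ 2 * d := by
  refine ⟨400, by norm_num, fun d g P Cw δ hg hP hn y => ?_⟩
  have he := hP.eta_pos
  have he1 := hP.eta_le
  have hCw := good_Cw hP
  have hs : 0 < Real.sqrt P.eta := Real.sqrt_pos.2 he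
  set c := centre g P.eta P.n y
  set f := ghat g P.eta y c
  have hf : LC f (2 * P.eta) := ghat_LC hg he.le y c
  have hR := Rf_nonneg hP hf
  have hAs : LC (fun ω => Asum P f ω) (Cw * (2 * P.eta)) :=
    wsum_LC hP hf (node := P.node) (w := P.w) hP.w_abs
  set ν := (pgam d P.N).prod (gam d)
  set V : Path d P.N → ℝ := fun ω => ‖c‖ ^ 2
    + 2 * Real.sqrt P.eta * ⟪c, pathW d P.N P.h P.N ω⟫
    + 2 * Real.sqrt P.eta * ‖c‖ * ‖Asum P f ω‖
    + 3 * P.eta * (‖pathW d P.N P.h P.N ω‖ ^ 2 + ‖Asum P f ω‖ ^ 2)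
  set U : Path d P.N → ℝ := fun ω => 2 * Real.sqrt P.eta * ‖c‖ * ‖Asum P f ω‖
    + 3 * P.eta * ‖Asum P f ω‖ ^ 2
  have hW := pathW_LC hP hf P.N
  have i1 : Integrable (fun ω => 2 * Real.sqrt P.eta * ⟪c, pathW d P.N P.h P.N ω⟫) (pgam d P.N) :=
    ((hW.int zero_le_one).const_inner c).const_mul _
  have i2 : Integrable (fun ω => 2 * Real.sqrt P.eta * ‖c‖ * ‖Asum P f ω‖) (pgam d P.N) :=
    (hAs.int (by positivity)).norm.const_mul _
  have i3a : Integrable (fun ω => ‖pathW d P.N P.h P.N ω‖ ^ 2 + ‖Asum P f ω‖ ^ 2) (pgam d P.N) :=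
    (hW.int_sq zero_le_one).add (hAs.int_sq (by positivity))
  have i3 : Integrable (fun ω => 3 * P.eta *
      (‖pathW d P.N P.h P.N ω‖ ^ 2 + ‖Asum P f ω‖ ^ 2)) (pgam d P.N) := i3a.const_mul _
  have i4 : Integrable (fun ω => 3 * P.eta * ‖Asum P f ω‖ ^ 2) (pgam d P.N) :=
    (hAs.int_sq (by positivity)).const_mul _
  have i01 : Integrable (fun ω => ‖c‖ ^ 2
      + 2 * Real.sqrt P.eta * ⟪c, pathW d P.N P.h P.N ω⟫) (pgam d P.N) :=
    (integrable_const _).add i1
  have i012 : Integrable (fun ω => ‖c‖ ^ 2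
      + 2 * Real.sqrt P.eta * ⟪c, pathW d P.N P.h P.N ω⟫
      + 2 * Real.sqrt P.eta * ‖c‖ * ‖Asum P f ω‖) (pgam d P.N) := i01.add i2
  have iV : Integrable V (pgam d P.N) := i012.add i3
  have iU : Integrable U (pgam d P.N) := i2.add i4
  have iU' : Integrable (fun p : Path d P.N × EE d => U p.1) ν := iU.comp_fst _
  have iVU : Integrable (fun ω : KRand d P.N => V ω.1 + U ω.2.1) (kgam d P.N) :=
    (iV.comp_fst ν).add (iU'.comp_snd (pgam d P.N))
  have hpt : ∀ ω : KRand d P.N, ‖kern g P y ω‖ ^ 2 ≤ V ω.1 + U ω.2.1 := fun ω => by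
    have e : kern g P y ω = c + Real.sqrt P.eta •
        (pathW d P.N P.h P.N ω.1 - (Asum P f ω.1 + Scorr P f ω.2.1 ω.2.2)) := by
      simp only [kern, f, c, sub_add_eq_sub_sub]
    rw [e, norm_add_sq_real, real_inner_smul_right, inner_sub_right, inner_add_right,
      norm_smul, Real.norm_eq_abs, abs_of_pos hs, mul_pow, Real.sq_sqrt he.le]
    have hS : ‖Scorr P f ω.2.1 ω.2.2‖ ≤ ‖Asum P f ω.2.1‖ :=
      (Scorr_le hP hf _ _).trans (mul_le_of_le_one_left (norm_nonneg _) (by linarith))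
    have h1 := (abs_le.1 (abs_real_inner_le_norm c (Asum P f ω.1))).1
    have h2 := (abs_le.1 (abs_real_inner_le_norm c (Scorr P f ω.2.1 ω.2.2))).1
    have h2' := mul_le_mul_of_nonneg_left hS (norm_nonneg c)
    have h3 : ‖pathW d P.N P.h P.N ω.1 - (Asum P f ω.1 + Scorr P f ω.2.1 ω.2.2)‖ ^ 2
        ≤ 3 * (‖pathW d P.N P.h P.N ω.1‖ ^ 2 + ‖Asum P f ω.1‖ ^ 2 + ‖Asum P f ω.2.1‖ ^ 2) := by
      have h4 : ‖pathW d P.N P.h P.N ω.1 - (Asum P f ω.1 + Scorr P f ω.2.1 ω.2.2)‖
          ≤ ‖pathW d P.N P.h P.N ω.1‖ + ‖Asum P f ω.1‖ + ‖Asum P f ω.2.1‖ :=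
        (norm_sub_le _ _).trans (by
          have := norm_add_le (Asum P f ω.1) (Scorr P f ω.2.1 ω.2.2)
          linarith)
      refine (pow_le_pow_left₀ (norm_nonneg _) h4 2).trans ?_
      nlinarith [sq_nonneg (‖pathW d P.N P.h P.N ω.1‖ - ‖Asum P f ω.1‖),
        sq_nonneg (‖pathW d P.N P.h P.N ω.1‖ - ‖Asum P f ω.2.1‖),
        sq_nonneg (‖Asum P f ω.1‖ - ‖Asum P f ω.2.1‖)]
    have h3' := mul_le_mul_of_nonneg_left h3 he.le
    have hx := mul_le_mul_of_nonneg_left (by linarith : -(⟪c, Asum P f ω.1⟫)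
      - ⟪c, Scorr P f ω.2.1 ω.2.2⟫ ≤ ‖c‖ * ‖Asum P f ω.1‖ + ‖c‖ * ‖Asum P f ω.2.1‖) hs.le
    simp only [V, U]
    nlinarith
  have hkc : Continuous fun ω : KRand d P.N => kern g P y ω := by
    show Continuous fun ω : KRand d P.N => c + Real.sqrt P.eta •
      (pathW d P.N P.h P.N ω.1 - Asum P f ω.1 - Scorr P f ω.2.1 ω.2.2)
    exact continuous_const.add ((((hW.cd.continuous.comp continuous_fst).sub
      (hAs.cd.continuous.comp continuous_fst)).sub
        ((Scorr_cont hP hf).comp continuous_snd)).const_smul (Real.sqrt P.eta))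
  have hint : Integrable (fun ω => ‖kern g P y ω‖ ^ 2) (kgam d P.N) :=
    Integrable.mono' iVU (hkc.norm.pow 2).aestronglyMeasurable
      (Filter.Eventually.of_forall fun ω => by
        rw [Real.norm_eq_abs, abs_of_nonneg (sq_nonneg _)]; exact hpt ω)
  refine ⟨hint, (integral_mono hint iVU hpt).trans ?_⟩
  rw [integral_add (iV.comp_fst ν) (iU'.comp_snd (pgam d P.N)), integral_fun_fst,
    integral_fun_snd (μ := pgam d P.N) (ν := ν) (fun p : Path d P.N × EE d => U p.1),
    integral_fun_fst]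
  simp only [probReal_univ, one_smul, V, U]
  rw [integral_add i012 i3, integral_add i01 i2, integral_add (integrable_const _) i1,
    integral_add i2 i4, integral_const_mul, integral_const_mul, integral_const_mul,
    integral_const_mul, integral_add (hW.int_sq zero_le_one) (hAs.int_sq (by positivity)),
    integral_inner (hW.int zero_le_one) c,
    (pathW d P.N P.h P.N).integral_comp_id_comm IsGaussian.integrable_id,
    integral_id_stdGaussian, map_zero, inner_zero_right, integral_const, probReal_univ,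
    one_smul, int_path hP hf le_rfl (F := fun x => ‖x‖ ^ 2)
      (continuous_norm.pow 2).aestronglyMeasurable, second_moment (EE d),
    finrank_euclideanSpace_fin]
  have hA2 : ∫ ω, ‖Asum P f ω‖ ^ 2 ∂pgam d P.N ≤ 2 * (Cw * Rf P f) ^ 2 :=
    wsum_sq hP hf (node := P.node) (w := P.w) hP.node_le hP.w_abs
  have hA1 : ∫ ω, ‖Asum P f ω‖ ∂pgam d P.N ≤ 2 * (Cw * Rf P f) := by
    refine (int_norm_le (hAs.memLp (by positivity))).trans
      (le_of_sq (by positivity) (hA2.trans ?_))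
    nlinarith [sq_nonneg (Cw * Rf P f)]
  obtain ⟨hc, -, -⟩ := centre_bound hg he.le he1 y P.n
  have hRb : Rf P f ≤ 2 * P.eta * Real.sqrt d + 4 * P.eta * Real.sqrt P.eta * ‖y‖ := by
    refine add_le_add le_rfl ((ghat_zero hg he he1 P.n y).trans ?_)
    calc (2 * P.eta) ^ P.n * (2 * Real.sqrt P.eta * ‖y‖)
        ≤ (2 * P.eta) ^ 1 * (2 * Real.sqrt P.eta * ‖y‖) := by
          exact mul_le_mul_of_nonneg_right
            (pow_le_pow_of_le_one (by positivity) (by linarith) hn) (by positivity)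
      _ = _ := by ring
  set D := Real.sqrt d with hD
  set Y := ‖y‖
  set sq := Real.sqrt P.eta with hsq
  have hD2 : D ^ 2 = (d : ℝ) := Real.sq_sqrt (Nat.cast_nonneg d)
  have hq2 : sq ^ 2 = P.eta := Real.sq_sqrt he.le
  have hD0 : 0 ≤ D := Real.sqrt_nonneg _
  have hY0 : 0 ≤ Y := norm_nonneg _
  set A1 := ∫ ω, ‖Asum P f ω‖ ∂pgam d P.N
  set A2 := ∫ ω, ‖Asum P f ω‖ ^ 2 ∂pgam d P.N
  set R := Rf P f
  set T := ‖c‖
  have hT0 : 0 ≤ T := norm_nonneg _
  -- the cross term
  have c1 : 2 * sq * T * A1 ≤ 2 * sq * (2 * Y) * (2 * (Cw * (2 * P.eta * D + 4 * P.eta * sq * Y))) := by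
    have h5 : T ≤ 2 * Y := hc.trans (mul_le_mul_of_nonneg_right (by linarith) hY0)
    have h6 : A1 ≤ 2 * (Cw * (2 * P.eta * D + 4 * P.eta * sq * Y)) :=
      hA1.trans (by gcongr)
    exact mul_le_mul (mul_le_mul_of_nonneg_left h5 (by positivity)) h6
      (integral_nonneg fun ω => norm_nonneg _) (by positivity)
  have c1' : 2 * sq * (2 * Y) * (2 * (Cw * (2 * P.eta * D + 4 * P.eta * sq * Y)))
      ≤ 32 * (Cw * P.eta ^ 2) * Y ^ 2 + 8 * Cw * P.eta * (P.eta * Y ^ 2 + D ^ 2) := by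
    rw [show 2 * sq * (2 * Y) * (2 * (Cw * (2 * P.eta * D + 4 * P.eta * sq * Y)))
      = 32 * (Cw * P.eta) * sq ^ 2 * Y ^ 2 + 8 * Cw * P.eta * (2 * (sq * Y) * D) by ring, hq2]
    have h7 : 2 * (sq * Y) * D ≤ P.eta * Y ^ 2 + D ^ 2 := by
      rw [← hq2, ← mul_pow]; nlinarith [sq_nonneg (sq * Y - D)]
    have h8 := mul_le_mul_of_nonneg_left h7 (by positivity : 0 ≤ 8 * Cw * P.eta)
    linarith
  have c2 : A2 ≤ 2 * Cw ^ 2 * (8 * P.eta ^ 2 * D ^ 2 + 32 * P.eta ^ 3 * Y ^ 2) := by
    refine hA2.trans ?_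
    rw [mul_pow, ← mul_assoc]
    refine mul_le_mul_of_nonneg_left ((pow_le_pow_left₀ hR hRb 2).trans ?_) (by positivity)
    rw [show 32 * P.eta ^ 3 * Y ^ 2 = 2 * (4 * P.eta * sq * Y) ^ 2 by
      rw [show P.eta ^ 3 = P.eta ^ 2 * sq ^ 2 by rw [hq2]; ring]; ring,
      show 8 * P.eta ^ 2 * D ^ 2 = 2 * (2 * P.eta * D) ^ 2 by ring]
    nlinarith [sq_nonneg (2 * P.eta * D - 4 * P.eta * sq * Y)]
  have c3 : T ^ 2 ≤ (1 + 9 * P.eta) * Y ^ 2 := by
    refine (pow_le_pow_left₀ hT0 hc 2).trans ?_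
    rw [mul_pow]
    exact mul_le_mul_of_nonneg_right (by nlinarith) (sq_nonneg _)
  have hW1 : 1 ≤ (1 + Cw * P.eta) := le_add_of_nonneg_right (by positivity)
  rw [← hD2]
  have y1 : P.eta * Y ^ 2 * (1 + 2 * (Cw * P.eta) + (Cw * P.eta) ^ 2)
      = P.eta * (1 + Cw * P.eta) ^ 2 * Y ^ 2 := by ring
  have d1 : D ^ 2 * (1 + 2 * Cw + Cw ^ 2) = (1 + Cw) ^ 2 * D ^ 2 := by ring
  have e1 : 0 ≤ Cw * P.eta * (P.eta * Y ^ 2) := by positivity
  have e2 : 0 ≤ P.eta * Y ^ 2 := by positivity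
  have e3 : 0 ≤ (Cw * P.eta) ^ 2 * (P.eta * Y ^ 2) := by positivity
  have f1 : P.eta * (Cw * D ^ 2) ≤ 1 * (Cw * D ^ 2) :=
    mul_le_mul_of_nonneg_right (by linarith) (by positivity)
  have f2 : P.eta * D ^ 2 ≤ 1 * D ^ 2 := mul_le_mul_of_nonneg_right (by linarith) (sq_nonneg D)
  have f3 : P.eta ^ 3 * (Cw ^ 2 * D ^ 2) ≤ 1 * (Cw ^ 2 * D ^ 2) :=
    mul_le_mul_of_nonneg_right (pow_le_one₀ he.le (by linarith)) (by positivity)
  have f4 : P.eta ^ 4 * (Cw ^ 2 * Y ^ 2) ≤ P.eta ^ 3 * (Cw ^ 2 * Y ^ 2) :=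
    mul_le_mul_of_nonneg_right (pow_le_pow_of_le_one he.le (by linarith) (by norm_num))
      (by positivity)
  have c2' := mul_le_mul_of_nonneg_left c2 (by positivity : 0 ≤ 3 * P.eta)
  have g1 : 0 ≤ Cw * D ^ 2 := by positivity
  have g2 : 0 ≤ Cw ^ 2 * D ^ 2 := by positivity
  have g3 := sq_nonneg D
  linarith

end Vale.Agent.P347
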