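import Vale.Agent.P347.Gauss

/-!
Analytic helpers for the kernel module: Lipschitz C¹ maps on Gaussian spaces, Taylor bound and
the interpolation estimate for tests.
-/

open MeasureTheory ProbabilityTheory Filter
open scoped RealInnerProductSpace NNReal

namespace Vale.Agent.P347

namespace K

/-- A C¹ map with Lipschitz constant L. -/
structure LC {E F : Type*} [NormedAddCommGroup E] [NormedSpace ℝ E] [NormedAddCommGroup F]
    [NormedSpace ℝ F] (f : E → F) (L : ℝ) : Prop where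
  cd : ContDiff ℝ 1 f
  lip : ∀ x y, ‖f x - f y‖ ≤ L * ‖x - y‖

section LC
variable {E F G : Type*} [NormedAddCommGroup E] [NormedSpace ℝ E] [NormedAddCommGroup F]
  [NormedSpace ℝ F] [NormedAddCommGroup G] [NormedSpace ℝ G]

lemma LC.mono {f : E → F} {L L' : ℝ} (hf : LC f L) (h : L ≤ L') : LC f L' :=
  ⟨hf.cd, fun x y => (hf.lip x y).trans (mul_le_mul_of_nonneg_right h (norm_nonneg _))⟩

lemma LC.congr {f g : E → F} {L : ℝ} (hf : LC f L) (h : ∀ x, g x = f x) : LC g L := by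
  have : g = f := funext h
  exact this ▸ hf

lemma LC.const (c : F) : LC (fun _ : E => c) 0 := ⟨contDiff_const, fun x y => by simp⟩

lemma LC.clm (T : E →L[ℝ] F) {L : ℝ} (h : ‖T‖ ≤ L) : LC (fun x => T x) L :=
  ⟨T.contDiff, fun x y => by rw [← map_sub]; exact T.le_of_opNorm_le h _⟩

lemma LC.add {f g : E → F} {L K : ℝ} (hf : LC f L) (hg : LC g K) :
    LC (fun x => f x + g x) (L + K) :=
  ⟨hf.cd.add hg.cd, fun x y => by
    rw [add_sub_add_comm, add_mul]
    exact (norm_add_le _ _).trans (add_le_add (hf.lip x y) (hg.lip x y))⟩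

lemma LC.smul {f : E → F} {L : ℝ} (hf : LC f L) (c : ℝ) : LC (fun x => c • f x) (|c| * L) :=
  ⟨hf.cd.const_smul c, fun x y => by
    rw [← smul_sub, norm_smul, Real.norm_eq_abs, mul_assoc]
    exact mul_le_mul_of_nonneg_left (hf.lip x y) (abs_nonneg c)⟩

lemma LC.sub {f g : E → F} {L K : ℝ} (hf : LC f L) (hg : LC g K) :
    LC (fun x => f x - g x) (L + K) :=
  ⟨hf.cd.sub hg.cd, fun x y => by
    rw [sub_sub_sub_comm, add_mul]
    exact (norm_sub_le _ _).trans (add_le_add (hf.lip x y) (hg.lip x y))⟩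

lemma LC.comp {g : F → G} {f : E → F} {L K : ℝ} (hg : LC g K) (hf : LC f L) (hK : 0 ≤ K) :
    LC (fun x => g (f x)) (K * L) :=
  ⟨hg.cd.comp hf.cd, fun x y => by
    rw [mul_assoc]
    exact (hg.lip _ _).trans (mul_le_mul_of_nonneg_left (hf.lip x y) hK)⟩

lemma LC.sum {ι : Type*} (s : Finset ι) (f : ι → E → F) (L : ι → ℝ)
    (hf : ∀ i ∈ s, LC (f i) (L i)) : LC (fun x => ∑ i ∈ s, f i x) (∑ i ∈ s, L i) :=
  ⟨ContDiff.sum fun i hi => (hf i hi).cd, fun x y => by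
    rw [← Finset.sum_sub_distrib, Finset.sum_mul]
    exact (norm_sum_le _ _).trans (Finset.sum_le_sum fun i hi => (hf i hi).lip x y)⟩

lemma LC.fderiv_le {f : E → F} {L : ℝ} (hf : LC f L) (hL : 0 ≤ L) (x : E) :
    ‖fderiv ℝ f x‖ ≤ L :=
  norm_fderiv_le_of_lip' ℝ hL (Eventually.of_forall fun y => hf.lip y x)

lemma LC.lipschitz {f : E → F} {L : ℝ} (hf : LC f L) (hL : 0 ≤ L) :
    LipschitzWith L.toNNReal f := by
  refine LipschitzWith.of_dist_le_mul fun x y => ?_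
  rw [dist_eq_norm, dist_eq_norm, Real.coe_toNNReal L hL]
  exact hf.lip x y

end LC

variable {d : ℕ} {G : Type*} [NormedAddCommGroup G] [InnerProductSpace ℝ G]
  [FiniteDimensional ℝ G] [MeasurableSpace G] [BorelSpace G]

lemma LC.memLp {F : G → EE d} {L : ℝ} (hF : LC F L) (hL : 0 ≤ L) :
    MemLp F 2 (stdGaussian G) :=
  memLp_of_lipschitz F _ (hF.lipschitz hL)

lemma LC.int {F : G → EE d} {L : ℝ} (hF : LC F L) (hL : 0 ≤ L) :
    Integrable F (stdGaussian G) :=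
  (hF.memLp hL).integrable one_le_two

lemma LC.int_sq {F : G → EE d} {L : ℝ} (hF : LC F L) (hL : 0 ≤ L) :
    Integrable (fun ω => ‖F ω‖ ^ 2) (stdGaussian G) :=
  (hF.memLp hL).integrable_norm_pow two_ne_zero

lemma integrable_of_growth {Ω : Type*} [MeasurableSpace Ω] {μ : Measure Ω}
    [IsFiniteMeasure μ] {Y : Ω → EE d} (hY : Integrable Y μ) {φ : EE d → ℝ}
    (hφ : Continuous φ) {b : ℝ} (hb : ∀ x, |φ x| ≤ |φ 0| + b * ‖x‖) :
    Integrable (fun ω => φ (Y ω)) μ := by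
  refine Integrable.mono' ((integrable_const |φ 0|).add (hY.norm.const_mul b))
    (hφ.comp_aestronglyMeasurable hY.aestronglyMeasurable) ?_
  exact Eventually.of_forall fun ω => by simpa [Real.norm_eq_abs] using hb (Y ω)

section Prob
variable {Ω : Type*} [MeasurableSpace Ω] {μ : Measure Ω} [IsProbabilityMeasure μ]

lemma var_eq {F : Ω → EE d} (hF : MemLp F 2 μ) :
    ∫ ω, ‖F ω - ∫ ω', F ω' ∂μ‖ ^ 2 ∂μ
      = (∫ ω, ‖F ω‖ ^ 2 ∂μ) - ‖∫ ω, F ω ∂μ‖ ^ 2 := by
  set m := ∫ ω', F ω' ∂μ with hm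
  have h1 : Integrable F μ := hF.integrable one_le_two
  have h2 : Integrable (fun ω => ‖F ω‖ ^ 2) μ := hF.integrable_norm_pow two_ne_zero
  have h3 : Integrable (fun ω => 2 * ⟪m, F ω⟫) μ := (h1.const_inner m).const_mul 2
  have e : (fun ω => ‖F ω - m‖ ^ 2) = fun ω => ‖F ω‖ ^ 2 - 2 * ⟪m, F ω⟫ + ‖m‖ ^ 2 := by
    funext ω
    rw [norm_sub_sq_real, real_inner_comm]
  have h4 : Integrable (fun ω => ‖F ω‖ ^ 2 - 2 * ⟪m, F ω⟫) μ := h2.sub h3
  rw [e, integral_add h4 (integrable_const _), integral_sub h2 h3, integral_const_mul, integral_inner h1 m, ← hm,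
    real_inner_self_eq_norm_sq]
  simp
  ring

lemma var_le {F : Ω → EE d} (hF : MemLp F 2 μ) :
    ∫ ω, ‖F ω - ∫ ω', F ω' ∂μ‖ ^ 2 ∂μ ≤ ∫ ω, ‖F ω‖ ^ 2 ∂μ := by
  rw [var_eq hF]
  nlinarith [sq_nonneg ‖∫ ω, F ω ∂μ‖]

lemma norm_int_le {F : Ω → EE d} (hF : MemLp F 2 μ) :
    ‖∫ ω, F ω ∂μ‖ ≤ Real.sqrt (∫ ω, ‖F ω‖ ^ 2 ∂μ) := by
  refine Real.le_sqrt_of_sq_le ?_
  have := var_eq hF
  have h0 : 0 ≤ ∫ ω, ‖F ω - ∫ ω', F ω' ∂μ‖ ^ 2 ∂μ :=
    integral_nonneg fun ω => sq_nonneg _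
  linarith

lemma int_norm_le {F : Ω → EE d} (hF : MemLp F 2 μ) :
    ∫ ω, ‖F ω‖ ∂μ ≤ Real.sqrt (∫ ω, ‖F ω‖ ^ 2 ∂μ) := by
  refine Real.le_sqrt_of_sq_le ?_
  set m := ∫ ω, ‖F ω‖ ∂μ with hm
  have h1 : Integrable (fun ω => ‖F ω‖) μ := (hF.integrable one_le_two).norm
  have h2 : Integrable (fun ω => ‖F ω‖ ^ 2) μ := hF.integrable_norm_pow two_ne_zero
  have h3 : Integrable (fun ω => 2 * m * ‖F ω‖) μ := h1.const_mul (2 * m)
  have h0 : 0 ≤ ∫ ω, (‖F ω‖ ^ 2 - 2 * m * ‖F ω‖ + m ^ 2) ∂μ :=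
    integral_nonneg fun ω => by
      calc (0 : ℝ) ≤ (‖F ω‖ - m) ^ 2 := sq_nonneg _
        _ = _ := by ring
  have h4 : Integrable (fun ω => ‖F ω‖ ^ 2 - 2 * m * ‖F ω‖) μ := h2.sub h3
  rw [integral_add h4 (integrable_const _), integral_sub h2 h3, integral_const_mul, ← hm] at h0
  simp at h0
  nlinarith

end Prob

lemma hsn_nonneg {H : Type*} [NormedAddCommGroup H] [InnerProductSpace ℝ H]
    (B : EE d →L[ℝ] H) : 0 ≤ hsn B := Real.sqrt_nonneg _

lemma le_hsn {H : Type*} [NormedAddCommGroup H] [InnerProductSpace ℝ H]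
    (B : EE d →L[ℝ] H) (v : EE d) : ‖B v‖ ≤ hsn B * ‖v‖ := by
  have hv : ∑ i, v i • EuclideanSpace.single i (1 : ℝ) = v := by
    have := (EuclideanSpace.basisFun (Fin d) ℝ).sum_repr v
    simpa using this
  calc ‖B v‖ = ‖∑ i, v i • B (EuclideanSpace.single i (1 : ℝ))‖ := by
        conv_lhs => rw [← hv, map_sum]
        simp
    _ ≤ ∑ i, |v i| * ‖B (EuclideanSpace.single i (1 : ℝ))‖ := by
        refine (norm_sum_le _ _).trans (le_of_eq ?_)
        simp [norm_smul]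
    _ ≤ Real.sqrt (∑ i, |v i| ^ 2) *
          Real.sqrt (∑ i, ‖B (EuclideanSpace.single i (1 : ℝ))‖ ^ 2) :=
        Real.sum_mul_le_sqrt_mul_sqrt _ _ _
    _ = hsn B * ‖v‖ := by
        rw [hsn, EuclideanSpace.norm_eq]
        simp [mul_comm]

variable {φ : EE d → ℝ} {Ψ : EE d → EE d} {b a : ℝ}

lemma test_b_nonneg (hT : Test φ Ψ b a) : 0 ≤ b := (norm_nonneg _).trans (hT.bound 0)

lemma test_a_nonneg (hT : Test φ Ψ b a) : 0 ≤ a := (hsn_nonneg _).trans (hT.hess 0)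

lemma test_cont (hT : Test φ Ψ b a) : Continuous φ :=
  continuous_iff_continuousAt.2 fun x => (hT.grad x).continuousAt

lemma test_lip (hT : Test φ Ψ b a) (x z : EE d) : |φ x - φ z| ≤ b * ‖x - z‖ := by
  have := Convex.norm_image_sub_le_of_norm_hasFDerivWithin_le (C := b)
    (fun w (_ : w ∈ Set.univ) => (hT.grad w).hasFDerivAt.hasFDerivWithinAt)
    (fun w _ => by simpa using hT.bound w) convex_univ (Set.mem_univ z) (Set.mem_univ x)
  simpa [Real.norm_eq_abs] using this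

lemma test_growth (hT : Test φ Ψ b a) (x : EE d) : |φ x| ≤ |φ 0| + b * ‖x‖ := by
  have h1 := test_lip hT x 0
  rw [sub_zero] at h1
  have h2 := abs_sub_abs_le_abs_sub (φ x) (φ 0)
  linarith

lemma test_int {Ω : Type*} [MeasurableSpace Ω] {μ : Measure Ω} [IsFiniteMeasure μ]
    {Y : Ω → EE d} (hT : Test φ Ψ b a) (hY : Integrable Y μ) :
    Integrable (fun ω => φ (Y ω)) μ :=
  integrable_of_growth hY (test_cont hT) (test_growth hT)

lemma test_grad_lip (hT : Test φ Ψ b a) (x z : EE d) : ‖Ψ x - Ψ z‖ ≤ a * ‖x - z‖ := by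
  refine Convex.norm_image_sub_le_of_norm_fderiv_le (𝕜 := ℝ)
    (fun w _ => (hT.smooth.differentiable (by simp)).differentiableAt) (fun w _ => ?_)
    convex_univ (Set.mem_univ z) (Set.mem_univ x)
  exact ContinuousLinearMap.opNorm_le_bound _ (test_a_nonneg hT) fun v =>
    (le_hsn _ v).trans (mul_le_mul_of_nonneg_right (hT.hess w) (norm_nonneg v))

lemma test_taylor (hT : Test φ Ψ b a) (x v : EE d) :
    |φ (x + v) - φ x - ⟪Ψ x, v⟫| ≤ a * ‖v‖ ^ 2 := by
  have hd : ∀ t : ℝ, HasDerivAt (fun t => φ (x + t • v) - t * ⟪Ψ x, v⟫)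
      (⟪Ψ (x + t • v) - Ψ x, v⟫) t := by
    intro t
    have h1 : HasDerivAt (fun t : ℝ => x + t • v) v t := by
      simpa using ((hasDerivAt_id t).smul_const v).const_add x
    have h2 := (hT.grad (x + t • v)).hasFDerivAt.comp_hasDerivAt t h1
    have h3 := h2.sub ((hasDerivAt_id t).mul_const ⟪Ψ x, v⟫)
    simp only [id, one_mul, InnerProductSpace.toDual_apply_apply] at h3
    rw [inner_sub_left]
    exact h3
  have key := norm_image_sub_le_of_norm_deriv_le_segment_01' (C := a * ‖v‖ ^ 2)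
    (f := fun t => φ (x + t • v) - t * ⟪Ψ x, v⟫)
    (fun t _ => (hd t).hasDerivWithinAt) (fun t ht => by
      rw [Real.norm_eq_abs]
      refine (abs_real_inner_le_norm _ _).trans ?_
      have h4 := test_grad_lip hT (x + t • v) x
      rw [add_sub_cancel_left, norm_smul, Real.norm_eq_abs, abs_of_nonneg ht.1] at h4
      have ha := test_a_nonneg hT
      calc ‖Ψ (x + t • v) - Ψ x‖ * ‖v‖ ≤ a * (t * ‖v‖) * ‖v‖ :=
            mul_le_mul_of_nonneg_right h4 (norm_nonneg _)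
        _ ≤ a * (1 * ‖v‖) * ‖v‖ := by gcongr; exact ht.2.le
        _ = a * ‖v‖ ^ 2 := by ring)
  simp only [one_smul, one_mul, zero_smul, add_zero, zero_mul, sub_zero, Real.norm_eq_abs] at key
  rw [show φ (x + v) - φ x - ⟪Ψ x, v⟫ = φ (x + v) - ⟪Ψ x, v⟫ - φ x by ring]
  exact key

lemma test_grad_memLp (hT : Test φ Ψ b a) {Y : G → EE d} {L : ℝ} (hY : LC Y L) :
    MemLp (fun ω => Ψ (Y ω)) 2 (stdGaussian G) :=
  MemLp.of_bound ((hT.smooth.continuous.comp hY.cd.continuous).aestronglyMeasurable) b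
    (Eventually.of_forall fun ω => hT.bound _)

lemma cov_step (hT : Test φ Ψ b a) {Y D : G → EE d} {LY LD : ℝ} (hY : LC Y LY) (h1 : 0 ≤ LY)
    (hD : LC D LD) (h2 : 0 ≤ LD) :
    |∫ ω, ⟪Ψ (Y ω), D ω⟫ ∂stdGaussian G| ≤ b * ‖∫ ω, D ω ∂stdGaussian G‖ +
      2 * a * LY * Real.sqrt (∫ ω, ‖D ω - ∫ ω', D ω' ∂stdGaussian G‖ ^ 2 ∂stdGaussian G) := by
  set μ := stdGaussian G
  have hF := test_grad_memLp hT hY
  have hcov := cov_bound μ _ _ hF (hD.memLp h2)
  have hv := var_comp Ψ Y a LY hT.smooth hY.cd hT.hess (hY.fderiv_le h1)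
  have hm : ‖∫ ω, Ψ (Y ω) ∂μ‖ ≤ b := by
    refine (norm_integral_le_of_norm_le_const (C := b)
      (Eventually.of_forall fun ω => hT.bound _)).trans ?_
    simp
  have ha := test_a_nonneg hT
  have hs : Real.sqrt (∫ ω, ‖Ψ (Y ω) - ∫ ω', Ψ (Y ω') ∂μ‖ ^ 2 ∂μ) ≤ 2 * a * LY := by
    rw [Real.sqrt_le_iff]
    refine ⟨by positivity, hv.trans ?_⟩
    have h0 : 0 ≤ (a * LY) ^ 2 := sq_nonneg _
    nlinarith
  have hin := abs_real_inner_le_norm (∫ ω, Ψ (Y ω) ∂μ) (∫ ω, D ω ∂μ)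
  have := abs_sub_abs_le_abs_sub (∫ ω, ⟪Ψ (Y ω), D ω⟫ ∂μ)
    ⟪∫ ω, Ψ (Y ω) ∂μ, ∫ ω, D ω ∂μ⟫
  calc |∫ ω, ⟪Ψ (Y ω), D ω⟫ ∂μ|
      ≤ |⟪∫ ω, Ψ (Y ω) ∂μ, ∫ ω, D ω ∂μ⟫|
        + |(∫ ω, ⟪Ψ (Y ω), D ω⟫ ∂μ) - ⟪∫ ω, Ψ (Y ω) ∂μ, ∫ ω, D ω ∂μ⟫| := by linarith
    _ ≤ _ := add_le_add (hin.trans (mul_le_mul_of_nonneg_right hm (norm_nonneg _)))
        (hcov.trans (mul_le_mul_of_nonneg_right hs (Real.sqrt_nonneg _)))

/-- Moving a test along D costs its mean at order b and its deviation at order a. -/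
lemma interp (hT : Test φ Ψ b a) {U D : G → EE d} {LU LD : ℝ} (hU : LC U LU) (hU0 : 0 ≤ LU)
    (hD : LC D LD) (hD0 : 0 ≤ LD) :
    |(∫ ω, φ (U ω + D ω) ∂stdGaussian G) - ∫ ω, φ (U ω) ∂stdGaussian G| ≤
      b * ‖∫ ω, D ω ∂stdGaussian G‖ + 2 * a * (LU + LD) *
        Real.sqrt (∫ ω, ‖D ω - ∫ ω', D ω' ∂stdGaussian G‖ ^ 2 ∂stdGaussian G) := by
  set μ := stdGaussian G
  set K := b * ‖∫ ω, D ω ∂μ‖ + 2 * a * (LU + LD) *
    Real.sqrt (∫ ω, ‖D ω - ∫ ω', D ω' ∂μ‖ ^ 2 ∂μ) with hK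
  set T := a * ∫ ω, ‖D ω‖ ^ 2 ∂μ with hTdef
  have ha := test_a_nonneg hT
  have bound : ∀ n : ℕ, 0 < n →
      |(∫ ω, φ (U ω + D ω) ∂μ) - ∫ ω, φ (U ω) ∂μ| ≤ K + T / n := by
    intro n hn
    have hn' : (0 : ℝ) < n := Nat.cast_pos.2 hn
    set t : ℕ → ℝ := fun i => (i : ℝ) / n with ht
    set Y : ℕ → G → EE d := fun i ω => U ω + t i • D ω with hY
    have hYL : ∀ i, LC (Y i) (LU + |t i| * LD) := fun i => hU.add (hD.smul _)
    have hint : ∀ i, Integrable (fun ω => φ (Y i ω)) μ := fun i =>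
      test_int hT ((hYL i).int (by positivity))
    have step : ∀ i < n, |(∫ ω, φ (Y (i + 1) ω) ∂μ) - ∫ ω, φ (Y i ω) ∂μ| ≤
        (1 / (n : ℝ)) * K + (1 / (n : ℝ)) ^ 2 * T := by
      intro i hi
      have hLY : LC (Y i) (LU + LD) := by
        refine (hYL i).mono (add_le_add le_rfl ?_)
        refine mul_le_of_le_one_left hD0 ?_
        rw [abs_of_nonneg (by positivity)]
        exact div_le_one_of_le₀ (by exact_mod_cast hi.le) hn'.le
      have hpt : ∀ ω, |φ (Y (i + 1) ω) - φ (Y i ω) - (1 / (n : ℝ)) * ⟪Ψ (Y i ω), D ω⟫| ≤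
          (1 / (n : ℝ)) ^ 2 * (a * ‖D ω‖ ^ 2) := by
        intro ω
        have h := test_taylor hT (Y i ω) ((1 / (n : ℝ)) • D ω)
        have e : Y (i + 1) ω = Y i ω + (1 / (n : ℝ)) • D ω := by
          simp only [hY, ht]
          rw [add_assoc, ← add_smul]
          push_cast
          ring_nf
        rw [e, ← real_inner_smul_right]
        refine h.trans (le_of_eq ?_)
        rw [norm_smul, Real.norm_eq_abs, abs_of_pos (by positivity)]
        ring
      have hcov : |∫ ω, ⟪Ψ (Y i ω), D ω⟫ ∂μ| ≤ K := by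
        refine (cov_step hT hLY (by positivity) hD hD0).trans (le_of_eq ?_)
        rw [hK]
      have hi1 : Integrable (fun ω => (1 / (n : ℝ)) * ⟪Ψ (Y i ω), D ω⟫) μ := by
        refine Integrable.const_mul ?_ _
        refine Integrable.mono' ((hD.int hD0).norm.const_mul b)
          ((hT.smooth.continuous.comp (hYL i).cd.continuous).inner
            hD.cd.continuous).aestronglyMeasurable ?_
        exact Eventually.of_forall fun ω => (abs_real_inner_le_norm _ _).trans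
          (mul_le_mul_of_nonneg_right (hT.bound _) (norm_nonneg _))
      have hi2 : Integrable (fun ω => φ (Y (i + 1) ω) - φ (Y i ω)) μ :=
        (hint _).sub (hint _)
      have h := abs_integral_le_integral_abs (μ := μ)
        (f := fun ω => φ (Y (i + 1) ω) - φ (Y i ω) - (1 / (n : ℝ)) * ⟪Ψ (Y i ω), D ω⟫)
      have h' := h.trans (integral_mono ((hi2.sub hi1).abs)
        (((hD.int_sq hD0).const_mul a).const_mul ((1 / (n : ℝ)) ^ 2)) hpt)
      rw [integral_sub hi2 hi1, integral_sub (hint _) (hint _), integral_const_mul,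
        integral_const_mul, integral_const_mul, ← hTdef] at h'
      have h'' := abs_sub_abs_le_abs_sub ((∫ ω, φ (Y (i + 1) ω) ∂μ) - ∫ ω, φ (Y i ω) ∂μ)
        (1 / (n : ℝ) * ∫ ω, ⟪Ψ (Y i ω), D ω⟫ ∂μ)
      rw [abs_mul, abs_of_pos (by positivity : (0 : ℝ) < 1 / n)] at h''
      have h3 := mul_le_mul_of_nonneg_left hcov (by positivity : (0 : ℝ) ≤ 1 / n)
      linarith
    have htel := Finset.sum_range_sub (fun i => ∫ ω, φ (Y i ω) ∂μ) n
    have h0 : ∀ ω, Y 0 ω = U ω := fun ω => by simp [hY, ht]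
    have h1 : ∀ ω, Y n ω = U ω + D ω := fun ω => by simp [hY, ht, div_self hn'.ne']
    simp only [h0, h1] at htel
    rw [← htel]
    refine (Finset.abs_sum_le_sum_abs _ _).trans ?_
    refine (Finset.sum_le_sum fun i hi => step i (Finset.mem_range.1 hi)).trans (le_of_eq ?_)
    rw [Finset.sum_const, Finset.card_range, nsmul_eq_mul]
    field_simp
  have hlim : Tendsto (fun n : ℕ => K + T / n) atTop (nhds (K + 0)) :=
    tendsto_const_nhds.add (tendsto_const_div_atTop_nhds_zero_nat T)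
  rw [add_zero] at hlim
  exact ge_of_tendsto hlim (eventually_atTop.2 ⟨1, fun n hn => bound n hn⟩)

/-- A test composed with an affine map. -/
lemma test_affine (hT : Test φ Ψ b a) (c : EE d) {t : ℝ} (ht : 0 ≤ t) :
    Test (fun x => φ (c + t • x)) (fun x => t • Ψ (c + t • x)) (t * b) (t ^ 2 * a) := by
  have hA : ∀ x, HasFDerivAt (fun x : EE d => c + t • x)
      (t • ContinuousLinearMap.id ℝ (EE d)) x := fun x =>
    ((hasFDerivAt_id x).const_smul t).const_add c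
  refine ⟨fun x => ?_, ?_, fun x => ?_, fun x => ?_⟩
  · rw [hasGradientAt_iff_hasFDerivAt]
    refine ((hT.grad (c + t • x)).hasFDerivAt.comp x (hA x)).congr_fderiv ?_
    ext v
    simp [real_inner_smul_left]
  · exact (hT.smooth.comp (contDiff_const.add (contDiff_id.const_smul t))).const_smul t
  · rw [norm_smul, Real.norm_eq_abs, abs_of_nonneg ht]
    exact mul_le_mul_of_nonneg_left (hT.bound _) ht
  · have h : HasFDerivAt (fun x => t • Ψ (c + t • x))
        ((t * t) • fderiv ℝ Ψ (c + t • x)) x := by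
      refine (((hT.smooth.differentiable (by simp)).differentiableAt.hasFDerivAt.comp x
        (hA x)).const_smul t).congr_fderiv ?_
      ext v
      simp [mul_smul]
    rw [h.fderiv]
    have e : hsn ((t * t) • fderiv ℝ Ψ (c + t • x)) = t ^ 2 * hsn (fderiv ℝ Ψ (c + t • x)) := by
      simp only [hsn, ContinuousLinearMap.smul_apply, norm_smul, mul_pow, ← Finset.mul_sum]
      rw [Real.sqrt_mul (sq_nonneg _), Real.sqrt_sq (norm_nonneg _), Real.norm_eq_abs,
        abs_of_nonneg (mul_nonneg ht ht), sq]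
    rw [e]
    exact mul_le_mul_of_nonneg_left (hT.hess _) (sq_nonneg t)

/-- Averaging a C¹ Lipschitz map over random translates keeps it C¹ and Lipschitz. -/
lemma LC.average {H : Type*} [NormedAddCommGroup H] [InnerProductSpace ℝ H]
    [FiniteDimensional ℝ H] [MeasurableSpace H] [BorelSpace H]
    {v : EE d → EE d} {L K : ℝ} (hv : LC v L) (hL : 0 ≤ L) (ρ : ℝ) {Z : H → EE d}
    (hZ : LC Z K) (hK : 0 ≤ K) :
    LC (fun x => ∫ ω, v (ρ • x + Z ω) ∂stdGaussian H) (L * |ρ|) := by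
  set μ := stdGaussian H
  have hA : ∀ x ω, HasFDerivAt (fun x : EE d => v (ρ • x + Z ω))
      (ρ • fderiv ℝ v (ρ • x + Z ω)) x := by
    intro x ω
    refine (((hv.cd.differentiable (by simp)).differentiableAt.hasFDerivAt).comp x
      (((hasFDerivAt_id x).const_smul ρ).add_const (Z ω))).congr_fderiv ?_
    ext u
    simp
  have hint : ∀ x, Integrable (fun ω => v (ρ • x + Z ω)) μ := fun x =>
    (hv.comp ((LC.const (ρ • x)).add hZ) hL).int (by positivity)
  have hb : ∀ x ω, ‖ρ • fderiv ℝ v (ρ • x + Z ω)‖ ≤ L * |ρ| := fun x ω => by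
    rw [norm_smul, Real.norm_eq_abs, mul_comm L]
    exact mul_le_mul_of_nonneg_left (hv.fderiv_le hL _) (abs_nonneg ρ)
  have hm : ∀ x, AEStronglyMeasurable (fun ω => ρ • fderiv ℝ v (ρ • x + Z ω)) μ := fun x =>
    (((hv.cd.continuous_fderiv (by simp)).comp
      (continuous_const.add hZ.cd.continuous)).const_smul ρ).aestronglyMeasurable
  have hd : ∀ x, HasFDerivAt (fun x => ∫ ω, v (ρ • x + Z ω) ∂μ)
      (∫ ω, ρ • fderiv ℝ v (ρ • x + Z ω) ∂μ) x := fun x =>
    hasFDerivAt_integral_of_dominated_of_fderiv_le (s := Set.univ)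
      (bound := fun _ => L * |ρ|) Filter.univ_mem
      (Eventually.of_forall fun x => (hint x).aestronglyMeasurable) (hint x) (hm x)
      (Eventually.of_forall fun ω y _ => hb y ω) (integrable_const _)
      (Eventually.of_forall fun ω y _ => hA y ω)
  refine ⟨contDiff_one_iff_fderiv.2 ⟨fun x => (hd x).differentiableAt, ?_⟩, fun x y => ?_⟩
  · rw [show fderiv ℝ (fun x => ∫ ω, v (ρ • x + Z ω) ∂μ)
      = fun x => ∫ ω, ρ • fderiv ℝ v (ρ • x + Z ω) ∂μ from funext fun x => (hd x).fderiv]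
    exact continuous_of_dominated hm (fun x => Eventually.of_forall (hb x)) (integrable_const _)
      (Eventually.of_forall fun ω => ((hv.cd.continuous_fderiv (by simp)).comp
        ((continuous_id.const_smul ρ).add continuous_const)).const_smul ρ)
  · rw [← integral_sub (hint x) (hint y)]
    refine (norm_integral_le_of_norm_le_const (C := L * |ρ| * ‖x - y‖)
      (Eventually.of_forall fun ω => ?_)).trans (le_of_eq (by simp))
    refine (hv.lip _ _).trans (le_of_eq ?_)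
    rw [add_sub_add_right_eq_sub, ← smul_sub, norm_smul, Real.norm_eq_abs, mul_assoc]

lemma grad_opNorm {g : EE d → EE d} (hg : GradClass g) (x : EE d) : ‖fderiv ℝ g x‖ ≤ 2 := by
  set B := fderiv ℝ g x
  refine ContinuousLinearMap.opNorm_le_bound _ zero_le_two fun u => ?_
  have key : ∀ v, ⟪B u, v⟫ ≤ ‖u‖ ^ 2 + ‖v‖ ^ 2 := by
    intro v
    have h1 := hg.upper x (u + v)
    have h2 := hg.lower x (u - v)
    have h3 : ⟪B v, u⟫ = ⟪B u, v⟫ := by rw [hg.symm x v u, real_inner_comm]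
    simp only [map_add, map_sub, inner_add_left, inner_add_right, inner_sub_left,
      inner_sub_right] at h1 h2
    have h4 := norm_add_sq_real u v
    have h5 := parallelogram_law_with_norm ℝ u v
    nlinarith [sq_nonneg ‖u - v‖]
  have h := key ((1 / 2 : ℝ) • B u)
  rw [real_inner_smul_right, real_inner_self_eq_norm_sq, norm_smul, Real.norm_eq_abs,
    abs_of_pos (by norm_num : (0 : ℝ) < 1 / 2)] at h
  nlinarith [norm_nonneg (B u), norm_nonneg u]

lemma grad_LC {g : EE d → EE d} (hg : GradClass g) : LC g 2 :=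
  ⟨hg.smooth, fun x y => Convex.norm_image_sub_le_of_norm_fderiv_le (𝕜 := ℝ)
    (fun w _ => (hg.smooth.differentiable (by simp)).differentiableAt)
    (fun w _ => grad_opNorm hg w) convex_univ (Set.mem_univ y) (Set.mem_univ x)⟩

end K

end Vale.Agent.P347
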