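import Vale.Agent.P347.KernelBase

/-!
Laws of shifted and split autoregressive paths, and the error recursion of the fine chain.
-/

open MeasureTheory ProbabilityTheory
open scoped RealInnerProductSpace

namespace Vale.Agent.P347

namespace K

variable {d N k l : ℕ} {h : ℝ}

lemma inp_apply (hk : k ≤ N) (ω : Path d N) :
    inp d N k ω = ω ⟨k, Nat.lt_succ_of_le hk⟩ := by
  rw [inp, dif_pos (Nat.lt_succ_of_le hk)]
  rfl

lemma inp_adjoint (hk : k ≤ N) (u : EE d) :
    ContinuousLinearMap.adjoint (inp d N k) u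
      = WithLp.toLp 2 (Pi.single (⟨k, Nat.lt_succ_of_le hk⟩ : Fin (N + 1)) u) := by
  refine ext_inner_right ℝ fun w => ?_
  have e := PiLp.inner_apply (𝕜 := ℝ)
    (WithLp.toLp 2 (Pi.single (⟨k, Nat.lt_succ_of_le hk⟩ : Fin (N + 1)) u)) w
  rw [ContinuousLinearMap.adjoint_inner_left, inp_apply hk, e,
    Finset.sum_eq_single ⟨k, Nat.lt_succ_of_le hk⟩]
  · simp
  · intro j _ hj
    simp [Pi.single_eq_of_ne hj]
  · simp

lemma inp_inp (hk : k ≤ N) (hl : l ≤ N) (u : EE d) :
    inp d N k (ContinuousLinearMap.adjoint (inp d N l) u) = if k = l then u else 0 := by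
  rw [inp_adjoint hl, inp_apply hk]
  by_cases e : k = l
  · subst e; simp
  · rw [if_neg e]
    simp [Pi.single_eq_of_ne (show (⟨k, _⟩ : Fin (N + 1)) ≠ ⟨l, _⟩ from
      fun h' => e (Fin.mk.inj_iff.1 h'))]

lemma pathW_inp_zero (hl : l ≤ N) : ∀ j, j < l → ∀ u : EE d,
    pathW d N h j (ContinuousLinearMap.adjoint (inp d N l) u) = 0
  | 0, hj, u => by
      simp only [pathW]
      rw [inp_inp (Nat.zero_le _) hl, if_neg hj.ne]
  | j + 1, hj, u => by
      have e := inp_inp (d := d) (show j + 1 ≤ N by omega) hl u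
      rw [if_neg hj.ne] at e
      simp [pathW, pathW_inp_zero hl j (by omega) u, e]

/-- The i-th new input of the path shifted by l. -/
noncomputable def shiftVec (d N : ℕ) (h : ℝ) (l i : ℕ) : Path d N →L[ℝ] EE d :=
  if i = 0 then pathW d N h l else inp d N (l + i)

/-- The inputs of the path shifted by l. -/
noncomputable def shift (d N : ℕ) (h : ℝ) (l k : ℕ) : Path d N →L[ℝ] Path d k :=
  (PiLp.continuousLinearEquiv 2 ℝ (fun _ : Fin (k + 1) => EE d)).symm.toContinuousLinearMap ∘L
    ContinuousLinearMap.pi (fun i : Fin (k + 1) => shiftVec d N h l i)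

lemma shift_apply (ω : Path d N) (i : Fin (k + 1)) :
    shift d N h l k ω i = shiftVec d N h l i ω := by
  simp [shift]

lemma shiftVec_orth (h0 : 0 ≤ h) (h1 : h ≤ 1) {i j : ℕ} (hi : l + i ≤ N) (hj : l + j ≤ N)
    (u : EE d) :
    shiftVec d N h l i (ContinuousLinearMap.adjoint (shiftVec d N h l j) u)
      = if i = j then u else 0 := by
  unfold shiftVec
  by_cases hi0 : i = 0 <;> by_cases hj0 : j = 0
  · rw [if_pos hi0, if_pos hj0, if_pos (hi0.trans hj0.symm)]
    simpa using congrArg (fun T : EE d →L[ℝ] EE d => T u)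
      (pathW_coisometry (d := d) (N := N) h0 h1 (by omega : l ≤ N))
  · rw [if_pos hi0, if_neg hj0, if_neg (by omega)]
    exact pathW_inp_zero hj l (by omega) u
  · rw [if_neg hi0, if_pos hj0, if_neg (by omega)]
    refine ext_inner_right ℝ fun w => ?_
    rw [← ContinuousLinearMap.adjoint_inner_right, ContinuousLinearMap.adjoint_inner_left,
      pathW_inp_zero hi l (by omega) w, inner_zero_right, inner_zero_left]
  · rw [if_neg hi0, if_neg hj0, inp_inp hi hj]
    by_cases e : i = j <;> simp [e]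

lemma shift_coisometry (h0 : 0 ≤ h) (h1 : h ≤ 1) (hlk : l + k ≤ N) :
    shift d N h l k ∘L ContinuousLinearMap.adjoint (shift d N h l k) = .id ℝ (Path d k) := by
  have hadj : ∀ u : Path d k, ContinuousLinearMap.adjoint (shift d N h l k) u
      = ∑ j : Fin (k + 1), ContinuousLinearMap.adjoint (shiftVec d N h l j) (u j) := by
    intro u
    refine ext_inner_right ℝ fun w => ?_
    rw [ContinuousLinearMap.adjoint_inner_left, PiLp.inner_apply, sum_inner]
    simp [shift_apply, ContinuousLinearMap.adjoint_inner_left]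
  refine ContinuousLinearMap.ext fun u => PiLp.ext fun i => ?_
  rw [ContinuousLinearMap.comp_apply, shift_apply, hadj, map_sum, Finset.sum_eq_single i]
  · rw [shiftVec_orth h0 h1 (by omega) (by omega), if_pos rfl]
    rfl
  · intro j _ hj
    rw [shiftVec_orth h0 h1 (by omega) (by omega), if_neg]
    exact fun e => hj (Fin.ext e.symm)
  · simp

lemma pathW_shift (hlk : l + k ≤ N) (ω : Path d N) :
    ∀ j, j ≤ k → pathW d k h j (shift d N h l k ω) = pathW d N h (l + j) ω
  | 0, _ => by
      simp only [pathW]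
      rw [inp_apply (Nat.zero_le _), shift_apply]
      simp [shiftVec]
  | j + 1, hj => by
      have e : inp d k (j + 1) (shift d N h l k ω) = inp d N (l + j + 1) ω := by
        rw [inp_apply hj, shift_apply]
        simp [shiftVec, add_assoc]
      simp only [pathW, ContinuousLinearMap.add_apply, ContinuousLinearMap.smul_apply, e,
        pathW_shift hlk ω j (by omega)]
      rfl

lemma int_shift {X : Type*} [NormedAddCommGroup X] [NormedSpace ℝ X] (h0 : 0 ≤ h) (h1 : h ≤ 1)
    (hlk : l + k ≤ N) {F : Path d k → X} (hF : AEStronglyMeasurable F (pgam d k)) :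
    ∫ ω, F (shift d N h l k ω) ∂pgam d N = ∫ ω, F ω ∂pgam d k := by
  have hmap : (pgam d N).map (shift d N h l k) = pgam d k :=
    map_coisometry _ (shift_coisometry h0 h1 hlk)
  rw [← hmap] at hF
  conv_rhs => rw [← hmap]
  rw [integral_map (shift d N h l k).continuous.aemeasurable hF]

lemma int_map_prod {α β γ X : Type*} [MeasurableSpace α] [MeasurableSpace β] [MeasurableSpace γ]
    [NormedAddCommGroup X] [NormedSpace ℝ X] {μ : Measure α} {ν : Measure β} [SFinite μ]
    [SFinite ν] {ρ : Measure γ} {Φ : α × β → γ} (hΦ : Measurable Φ)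
    (hmap : (μ.prod ν).map Φ = ρ) {F : γ → X} (hF : Integrable F ρ) :
    Integrable (fun p => F (Φ p)) (μ.prod ν) ∧
      ∫ z, F z ∂ρ = ∫ x, ∫ y, F (Φ (x, y)) ∂ν ∂μ := by
  subst hmap
  have h : Integrable (fun p => F (Φ p)) (μ.prod ν) :=
    (integrable_map_measure hF.aestronglyMeasurable hΦ.aemeasurable).1 hF
  exact ⟨h, by rw [integral_map hΦ.aemeasurable hF.aestronglyMeasurable, integral_prod _ h]⟩

/-- Disintegration of a path along its end point. -/
lemma int_bridge {X : Type*} [NormedAddCommGroup X] [NormedSpace ℝ X] (h0 : 0 ≤ h)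
    (h1 : h ≤ 1) {F : Path d N → X} (hF : Integrable F (pgam d N)) :
    Integrable (fun p : EE d × Path d N => F (bridge d N h p.1 p.2))
        ((gam d).prod (pgam d N)) ∧
      ∫ ω, F ω ∂pgam d N = ∫ x, ∫ ω, F (bridge d N h x ω) ∂pgam d N ∂gam d := by
  refine int_map_prod ?_ (bridge_law h0 h1) hF
  unfold bridge
  exact Continuous.measurable (by fun_prop)

lemma bridge_end (h0 : 0 ≤ h) (h1 : h ≤ 1) (x : EE d) (ω : Path d N) :
    pathW d N h N (bridge d N h x ω) = x := by
  rw [pathW_bridge h0 h1 x ω le_rfl, Nat.sub_self, pow_zero, one_smul]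
  abel

/-- The error of the fine chain against its path w. -/
noncomputable def err (h : ℝ) (f : EE d → EE d) (e0 : EE d) (w : ℕ → EE d) : ℕ → EE d
  | 0 => e0
  | k + 1 => (1 - h) • err h f e0 w k - h • f (w k + err h f e0 w k)

lemma err_congr {f : EE d → EE d} {e0 : EE d} {w w' : ℕ → EE d} :
    ∀ k, (∀ j < k, w j = w' j) → err h f e0 w k = err h f e0 w' k
  | 0, _ => rfl
  | k + 1, hw => by
      simp only [err, hw k (Nat.lt_succ_self k),
        err_congr k fun j hj => hw j (Nat.lt_succ_of_lt hj)]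

lemma err_add {f : EE d → EE d} {e0 : EE d} {w : ℕ → EE d} (l : ℕ) : ∀ k,
    err h f e0 w (l + k) = err h f (err h f e0 w l) (fun j => w (l + j)) k
  | 0 => rfl
  | k + 1 => by
      show err h f e0 w ((l + k) + 1) = _
      simp only [err, err_add l k]

lemma err_closed {f : EE d → EE d} {e0 : EE d} {w : ℕ → EE d} : ∀ k,
    err h f e0 w k = (1 - h) ^ k • e0
      - ∑ j ∈ Finset.range k, (h * (1 - h) ^ (k - 1 - j)) • f (w j + err h f e0 w j)
  | 0 => by simp [err]
  | k + 1 => by
      rw [Finset.sum_range_succ, err, ← sub_sub]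
      congr 1
      · rw [err_closed k, smul_sub, smul_smul, Finset.smul_sum, ← pow_succ']
        congr 1
        refine Finset.sum_congr rfl fun j hj => ?_
        rw [smul_smul]
        congr 1
        have : k + 1 - 1 - j = (k - 1 - j) + 1 := by have := Finset.mem_range.1 hj; omega
        rw [this, pow_succ]
        ring
      · simp

lemma err_lip_init {f : EE d → EE d} {eps : ℝ} (hf : LC f eps) (h0 : 0 ≤ h) (h1 : h ≤ 1)
    (he : eps ≤ 1 / 8) {e0 e0' : EE d} {w : ℕ → EE d} : ∀ k,
    ‖err h f e0 w k - err h f e0' w k‖ ≤ (1 - 7 * h / 8) ^ k * ‖e0 - e0'‖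
  | 0 => by simp [err]
  | k + 1 => by
      set u := err h f e0 w k
      set v := err h f e0' w k
      have ih : ‖u - v‖ ≤ (1 - 7 * h / 8) ^ k * ‖e0 - e0'‖ := err_lip_init hf h0 h1 he k
      have hl := hf.lip (w k + u) (w k + v)
      rw [add_sub_add_left_eq_sub] at hl
      calc ‖err h f e0 w (k + 1) - err h f e0' w (k + 1)‖
          = ‖(1 - h) • (u - v) - h • (f (w k + u) - f (w k + v))‖ := by
            simp only [err, u, v, smul_sub]
            congr 1
            abel
        _ ≤ (1 - h) * ‖u - v‖ + h * (eps * ‖u - v‖) := by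
            refine (norm_sub_le _ _).trans ?_
            rw [norm_smul, norm_smul, Real.norm_eq_abs, Real.norm_eq_abs,
              abs_of_nonneg (sub_nonneg.2 h1), abs_of_nonneg h0]
            gcongr
        _ ≤ (1 - 7 * h / 8) * ‖u - v‖ := by
            nlinarith [mul_le_mul_of_nonneg_right he (mul_nonneg h0 (norm_nonneg (u - v)))]
        _ ≤ _ := by
            rw [pow_succ', mul_assoc]
            exact mul_le_mul_of_nonneg_left ih (by linarith)

lemma pathW_corr' (h0 : 0 ≤ h) (h1 : h ≤ 1) {i j : ℕ} (hij : i ≤ j) (hj : j ≤ N) (u : EE d) :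
    pathW d N h i (ContinuousLinearMap.adjoint (pathW d N h j) u) = (1 - h) ^ (j - i) • u := by
  simpa using congrArg (fun T : EE d →L[ℝ] EE d => T u)
    (pathW_corr (d := d) (N := N) h0 h1 hij hj)

lemma pathW_corr'' (h0 : 0 ≤ h) (h1 : h ≤ 1) {i j : ℕ} (hij : i ≤ j) (hj : j ≤ N) (u : EE d) :
    pathW d N h j (ContinuousLinearMap.adjoint (pathW d N h i) u) = (1 - h) ^ (j - i) • u := by
  refine ext_inner_right ℝ fun w => ?_
  rw [← ContinuousLinearMap.adjoint_inner_right, ContinuousLinearMap.adjoint_inner_left,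
    pathW_corr' h0 h1 hij hj, real_inner_smul_left, real_inner_smul_right]

/-- Splitting off the Gaussian of the last m steps. -/
lemma int_split {X : Type*} [NormedAddCommGroup X] [NormedSpace ℝ X] (h0 : 0 < h) (h1 : h ≤ 1)
    {m : ℕ} (hm : 1 ≤ m) (hmN : m ≤ N) :
    ∃ Φ : Path d N × EE d → Path d N, Continuous Φ ∧
      (∀ F : Path d N → X, Integrable F (pgam d N) →
        ∫ ω, F ω ∂pgam d N = ∫ ω, ∫ ξ, F (Φ (ω, ξ)) ∂gam d ∂pgam d N) ∧
      ∀ ω ξ, (∀ j ≤ N - m, pathW d N h j (Φ (ω, ξ)) = pathW d N h j ω) ∧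
        pathW d N h N (Φ (ω, ξ)) = (1 - h) ^ m • pathW d N h (N - m) ω
          + Real.sqrt (1 - (1 - h) ^ (2 * m)) • ξ := by
  set l := N - m with hl
  set q := (1 - h) ^ m with hq
  set b := Real.sqrt (1 - (1 - h) ^ (2 * m)) with hb
  have hq0 : 0 ≤ q := pow_nonneg (by linarith) _
  have hq1 : q < 1 := pow_lt_one₀ (by linarith) (by linarith) (by omega)
  have hq2 : (1 - h) ^ (2 * m) = q * q := by rw [hq, two_mul, pow_add]
  have hb0 : 0 < b := Real.sqrt_pos.2 (by rw [hq2]; nlinarith)
  have hbb : b * b = 1 - q * q := by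
    rw [hb, Real.mul_self_sqrt (by rw [hq2]; nlinarith), hq2]
  set Z : Path d N →L[ℝ] EE d := b⁻¹ • (pathW d N h N - q • pathW d N h l) with hZ
  have hNl : N - l = m := by omega
  have hcoin : ∀ j ≤ N, ∀ u : EE d,
      pathW d N h j (ContinuousLinearMap.adjoint (pathW d N h j) u) = u := fun j hj u => by
    rw [pathW_corr' h0.le h1 le_rfl hj, Nat.sub_self, pow_zero, one_smul]
  have hZj : ∀ j ≤ l, ∀ u, pathW d N h j (ContinuousLinearMap.adjoint Z u) = 0 := by
    intro j hj u
    have e : (1 - h) ^ (N - j) = q * (1 - h) ^ (l - j) := by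
      rw [hq, ← pow_add]; congr 1; omega
    rw [hZ]
    simp only [map_smulₛₗ, map_sub, conj_trivial, RingHom.id_apply,
      ContinuousLinearMap.smul_apply, ContinuousLinearMap.sub_apply]
    rw [pathW_corr' h0.le h1 (by omega) le_rfl, pathW_corr' h0.le h1 hj (by omega),
      smul_smul, e, sub_self, smul_zero]
  have hZN : ∀ u, pathW d N h N (ContinuousLinearMap.adjoint Z u) = b • u := by
    intro u
    rw [hZ]
    simp only [map_smulₛₗ, map_sub, conj_trivial, RingHom.id_apply,
      ContinuousLinearMap.smul_apply, ContinuousLinearMap.sub_apply]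
    rw [hcoin N le_rfl, pathW_corr'' h0.le h1 (by omega : l ≤ N) le_rfl, hNl, ← hq, smul_smul,
      show u - (q * q) • u = (1 - q * q) • u by rw [sub_smul, one_smul], ← hbb, smul_smul]
    congr 1
    field_simp
  have hZZ : ∀ u, Z (ContinuousLinearMap.adjoint Z u) = u := by
    intro u
    show b⁻¹ • (pathW d N h N (ContinuousLinearMap.adjoint Z u)
      - q • pathW d N h l (ContinuousLinearMap.adjoint Z u)) = u
    rw [hZN, hZj l le_rfl, smul_zero, sub_zero, inv_smul_smul₀ hb0.ne']
  let T : Path d N →L[ℝ] Path d N :=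
    ContinuousLinearMap.id ℝ (Path d N) - ContinuousLinearMap.adjoint Z ∘L Z
  let U : EE d →L[ℝ] Path d N := ContinuousLinearMap.adjoint Z
  have hTx : ∀ x, T x = x - ContinuousLinearMap.adjoint Z (Z x) := fun x => rfl
  have hTU : T ∘L ContinuousLinearMap.adjoint T + U ∘L ContinuousLinearMap.adjoint U
      = .id ℝ (Path d N) := by
    have hTs : ContinuousLinearMap.adjoint T = T := by
      simp only [T, map_sub, ContinuousLinearMap.adjoint_id, ContinuousLinearMap.adjoint_comp,
        ContinuousLinearMap.adjoint_adjoint]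
    refine ContinuousLinearMap.ext fun x => ?_
    rw [hTs]
    show T (T x) + U (ContinuousLinearMap.adjoint U x) = x
    simp only [hTx, U, ContinuousLinearMap.adjoint_adjoint, map_sub, hZZ]
    abel
  have hcont : Continuous fun p : Path d N × EE d => T p.1 + U p.2 :=
    (T.continuous.comp continuous_fst).add (U.continuous.comp continuous_snd)
  refine ⟨fun p => T p.1 + U p.2, hcont, fun F hF => ?_, fun ω ξ => ?_⟩
  · exact (int_map_prod hcont.measurable (map_prod_coisometry T U hTU) hF).2
  · have hZΦ : Z (T ω + U ξ) = ξ := by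
      simp only [hTx, U, map_add, map_sub, hZZ, sub_self, zero_add]
    have hlow : ∀ j ≤ l, pathW d N h j (T ω + U ξ) = pathW d N h j ω := fun j hj => by
      simp only [hTx, U, map_add, map_sub, hZj j hj, sub_zero, add_zero]
    refine ⟨hlow, ?_⟩
    show pathW d N h N (T ω + U ξ) = q • pathW d N h l ω + b • ξ
    have e : b • Z (T ω + U ξ)
        = pathW d N h N (T ω + U ξ) - q • pathW d N h l (T ω + U ξ) := by
      show b • (b⁻¹ • (pathW d N h N (T ω + U ξ) - q • pathW d N h l (T ω + U ξ))) = _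
      exact smul_inv_smul₀ hb0.ne' _
    rw [hZΦ] at e
    rw [e, ← hlow l le_rfl]
    abel

end K

end Vale.Agent.P347
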