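import Vale.Agent.P347.KernelStep

/-!
K4 of note 865: the mean of the fine chain is the negative of the corrected mean.
-/

open MeasureTheory ProbabilityTheory
open scoped RealInnerProductSpace

namespace Vale.Agent.P347

namespace K

variable {d : ℕ} {P : Params} {Cw δ : ℝ} {f : EE d → EE d}

lemma sqrt_add_sq_le {a b : ℝ} (ha : 0 ≤ a) (hb : 0 ≤ b) :
    Real.sqrt (a ^ 2 + b ^ 2) ≤ a + b :=
  Real.sqrt_le_iff.2 ⟨add_nonneg ha hb, by nlinarith [mul_nonneg ha hb]⟩

lemma le_of_sq {E u : ℝ} (hu : 0 ≤ u) (h : E ≤ u ^ 2) : Real.sqrt E ≤ u :=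
  Real.sqrt_le_iff.2 ⟨hu, h⟩

/-- The correlation length in one step is at least η/2. -/
lemma noise_ge (hP : P.Good d Cw δ) :
    P.eta / 2 ≤ 1 - (1 - P.h) ^ (2 * P.m) := by
  have he := hP.eta_pos
  have hh := good_h0 hP
  have h1 := good_h1' hP
  set n := 2 * P.m with hn
  have hnh : P.eta ≤ n * P.h := by
    rw [hn]; push_cast; linarith [hP.m_ge]
  have hx : 0 ≤ (1 - P.h) ^ n := pow_nonneg (by linarith) _
  have h2 : (1 - P.h) ^ n * (1 + P.h) ^ n ≤ 1 := by
    rw [← mul_pow]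
    exact pow_le_one₀ (by nlinarith) (by nlinarith)
  have h3 := one_add_mul_le_pow (by linarith : (-2 : ℝ) ≤ P.h) n
  have h5 := mul_le_mul_of_nonneg_left h3 hx
  have h4 : (1 - P.h) ^ n ≤ 1 := pow_le_one₀ (by linarith) (by linarith)
  by_contra hcon
  push Not at hcon
  nlinarith [mul_le_mul_of_nonneg_left hnh hx, hP.eta_le]

lemma one_le_m (hP : P.Good d Cw δ) : 1 ≤ P.m := by
  by_contra h
  push Not at h
  have hm : P.m = 0 := by omega
  have h2 := hP.m_ge
  rw [hm] at h2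
  have h3 := hP.eta_pos
  simp at h2
  linarith

/-- The averaged drift m steps before the end. -/
noncomputable def Gf (P : Params) (f : EE d → EE d) (x : EE d) : EE d :=
  ∫ ξ, f ((1 - P.h) ^ P.m • x + Real.sqrt (1 - (1 - P.h) ^ (2 * P.m)) • ξ) ∂gam d

variable (hP : P.Good d Cw δ) (hf : LC f (2 * P.eta))
include hP hf

lemma Gf_LC : LC (Gf P f) (2 * P.eta) := by
  have he := hP.eta_pos
  refine (hf.average (H := EE d) (by positivity) ((1 - P.h) ^ P.m)
    ((LC.clm (ContinuousLinearMap.id ℝ (EE d)) ContinuousLinearMap.norm_id_le).smul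
      (Real.sqrt (1 - (1 - P.h) ^ (2 * P.m)))) (by positivity)).mono ?_
  refine mul_le_of_le_one_right (by positivity) ?_
  rw [abs_of_nonneg (pow_nonneg (by linarith [good_h1' hP]) _)]
  exact pow_le_one₀ (by linarith [good_h1' hP]) (by linarith [good_h0 hP])

omit hP hf in
lemma gradV_bound {K : ℝ} (hK : ∀ z, ‖fderiv ℝ f z‖ ≤ K) {θ : EE d} (hθ : ‖θ‖ ≤ 1) (z : EE d) :
    ‖ContinuousLinearMap.adjoint (fderiv ℝ f z) θ‖ ≤ K := by
  have hK0 : 0 ≤ K := (norm_nonneg _).trans (hK z)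
  have h1 := (ContinuousLinearMap.adjoint (fderiv ℝ f z)).le_opNorm θ
  have h2 : ‖ContinuousLinearMap.adjoint (fderiv ℝ f z)‖ = ‖fderiv ℝ f z‖ :=
    (ContinuousLinearMap.adjoint (𝕜 := ℝ) (E := EE d) (F := EE d)).norm_map _
  rw [h2] at h1
  exact h1.trans ((mul_le_mul (hK z) hθ (norm_nonneg _) hK0).trans (le_of_eq (mul_one _)))

omit hP hf in
lemma gradV_cont (hcd : ContDiff ℝ 1 f) (θ : EE d) :
    Continuous fun z => ContinuousLinearMap.adjoint (fderiv ℝ f z) θ :=
  ((ContinuousLinearMap.adjoint (𝕜 := ℝ) (E := EE d) (F := EE d)).continuous.comp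
      (hcd.continuous_fderiv (by simp))).clm_apply continuous_const

omit hP hf in
lemma smoothed_grad {s K : ℝ} (hcd : ContDiff ℝ 1 f) (hK : ∀ z, ‖fderiv ℝ f z‖ ≤ K) {θ : EE d}
    (hθ : ‖θ‖ ≤ 1) (x : EE d) :
    HasGradientAt (fun z => ⟪θ, Gs s f z⟫)
      (Gs s (fun z => ContinuousLinearMap.adjoint (fderiv ℝ f z) θ) x) x := by
  have hfc : Continuous (fderiv ℝ f) := hcd.continuous_fderiv (by simp)
  have hsh : Continuous fun ξ : EE d => x + Real.sqrt s • ξ := by fun_prop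
  have hDi : Integrable (fun ξ => fderiv ℝ f (x + Real.sqrt s • ξ)) (gam d) :=
    Integrable.mono' (integrable_const K) (hfc.comp hsh).aestronglyMeasurable
      (Filter.Eventually.of_forall fun ξ => hK _)
  have hVi : Integrable
      (fun ξ => ContinuousLinearMap.adjoint (fderiv ℝ f (x + Real.sqrt s • ξ)) θ) (gam d) :=
    Integrable.mono' (integrable_const K) ((gradV_cont hcd θ).comp hsh).aestronglyMeasurable
      (Filter.Eventually.of_forall fun ξ => gradV_bound hK hθ _)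
  rw [hasGradientAt_iff_hasFDerivAt]
  have h1 : HasFDerivAt (fun z => ⟪θ, Gs s f z⟫)
      ((innerSL ℝ θ).comp (∫ ξ, fderiv ℝ f (x + Real.sqrt s • ξ) ∂gam d)) x :=
    ((innerSL ℝ θ).hasFDerivAt).comp x (gs_fderiv f hcd hK x)
  refine h1.congr_fderiv (ContinuousLinearMap.ext fun v => ?_)
  rw [ContinuousLinearMap.comp_apply, InnerProductSpace.toDual_apply_apply, innerSL_apply_apply,
    ContinuousLinearMap.integral_apply hDi,
    ← integral_inner (hDi.apply_continuousLinearMap v) θ, real_inner_comm v,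
    Gs, ← integral_inner hVi v]
  refine integral_congr_ae (Filter.Eventually.of_forall fun ξ => ?_)
  exact ((real_inner_comm _ _).trans
    (ContinuousLinearMap.adjoint_inner_left (fderiv ℝ f (x + Real.sqrt s • ξ)) v θ)).symm

omit hP hf in
lemma smoothed_hess {H : Type*} [NormedAddCommGroup H] [InnerProductSpace ℝ H]
    [FiniteDimensional ℝ H] [MeasurableSpace H] [BorelSpace H] {s K c : ℝ} (hs : 0 < s)
    (hc : 0 ≤ c) (hsc : K ^ 2 ≤ c ^ 2 * s) {V : EE d → H} (hVc : Continuous V)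
    (hVb : ∀ z, ‖V z‖ ≤ K) :
    ContDiff ℝ 1 (Gs s V) ∧ (∀ x, ‖Gs s V x‖ ≤ K) ∧ ∀ x, hsn (fderiv ℝ (Gs s V) x) ≤ c := by
  obtain ⟨hsm, hbes⟩ := gs_deriv hs V hVc hVb
  refine ⟨hsm, fun x => (norm_integral_le_of_norm_le_const (μ := gam d) (C := K)
      (Filter.Eventually.of_forall fun ξ => hVb _)).trans
      (le_of_eq (by rw [probReal_univ, mul_one])), fun x => ?_⟩
  refine (abs_le_of_sq_le_sq' ?_ hc).2
  refine (hbes x).trans ?_
  rw [div_le_iff₀ hs]
  have h1 : ∫ ξ, ‖V (x + Real.sqrt s • ξ)‖ ^ 2 ∂gam d ≤ K ^ 2 := by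
    refine (Real.le_norm_self _).trans ((norm_integral_le_of_norm_le_const (μ := gam d)
      (C := K ^ 2) (Filter.Eventually.of_forall fun ξ => ?_)).trans
        (le_of_eq (by rw [probReal_univ, mul_one])))
    rw [norm_pow, norm_norm]
    exact pow_le_pow_left₀ (norm_nonneg _) (hVb _) 2
  linarith [sq_nonneg ‖Gs s V x‖]

omit hP hf in
lemma smoothed_test {s K c : ℝ} (hs : 0 < s) (hc : 0 ≤ c) (hsc : K ^ 2 ≤ c ^ 2 * s)
    (hcd : ContDiff ℝ 1 f) (hK : ∀ z, ‖fderiv ℝ f z‖ ≤ K) {θ : EE d} (hθ : ‖θ‖ ≤ 1) :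
    Test (fun z => ⟪θ, Gs s f z⟫)
      (Gs s fun z => ContinuousLinearMap.adjoint (fderiv ℝ f z) θ) K c := by
  obtain ⟨h1, h2, h3⟩ :=
    smoothed_hess hs hc hsc (gradV_cont hcd θ) (gradV_bound hK hθ)
  exact ⟨smoothed_grad hcd hK hθ, h1, h2, h3⟩

/-- A linear functional of the averaged drift is a test with Hessian of size √η. -/
lemma Gf_test {θ : EE d} (hθ : ‖θ‖ ≤ 1) :
    ∃ Ψ, Test (fun x => ⟪θ, Gf P f x⟫) Ψ (2 * P.eta) (3 * Real.sqrt P.eta) := by
  have he := hP.eta_pos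
  set ρ := (1 - P.h) ^ P.m with hρdef
  set s := 1 - (1 - P.h) ^ (2 * P.m) with hsdef
  have hs2 : P.eta / 2 ≤ s := noise_ge hP
  have hρ0 : 0 ≤ ρ := pow_nonneg (by linarith [good_h1' hP]) _
  have hρ1 : ρ ≤ 1 := pow_le_one₀ (by linarith [good_h1' hP]) (by linarith [good_h0 hP])
  have h0 := smoothed_test (f := f) (s := s) (K := 2 * P.eta) (c := 3 * Real.sqrt P.eta)
    (by linarith) (by positivity) (by rw [mul_pow 3, Real.sq_sqrt he.le]; nlinarith) hf.cd
    (hf.fderiv_le (by positivity)) hθ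
  refine ⟨fun x => ρ • Gs s (fun z => ContinuousLinearMap.adjoint (fderiv ℝ f z) θ) (0 + ρ • x), ?_⟩
  have h2 := test_affine h0 0 hρ0
  have e : (fun x => ⟪θ, Gf P f x⟫) = fun x => ⟪θ, Gs s f (0 + ρ • x)⟫ := by
    funext x; rw [zero_add]; rfl
  rw [e]
  exact ⟨h2.grad, h2.smooth,
    fun x => (h2.bound x).trans (mul_le_of_le_one_left (by positivity) hρ1),
    fun x => (h2.hess x).trans (mul_le_of_le_one_left (by positivity) (pow_le_one₀ hρ0 hρ1))⟩

variable (e0 : EE d)

lemma err_n2 {k : ℕ} (hk : k ≤ P.N) :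
    Real.sqrt (∫ ω, ‖err P.h f e0 (pw d P.N P.h ω) k‖ ^ 2 ∂pgam d P.N)
      ≤ ‖e0‖ + 2 * Rf P f := by
  have hh := good_h0 hP
  have hh1 := good_h1 hP
  refine le_of_sq (by have := Rf_nonneg hP hf; positivity) ((err_sq hP hf e0 k hk).trans ?_)
  have : (1 - 7 * P.h / 8) ^ k ≤ 1 := pow_le_one₀ (by linarith) (by linarith)
  nlinarith [mul_le_mul_of_nonneg_right this (sq_nonneg ‖e0‖),
    mul_nonneg (norm_nonneg e0) (Rf_nonneg hP hf)]

lemma fX_n2 {k : ℕ} (hk : k ≤ P.N) {t : ℝ} (ht : 0 ≤ t)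
    (hA : (1 - 7 * P.h / 8) ^ k ≤ t ^ 2) :
    Real.sqrt (∫ ω, ‖f (Xc d P.N P.h f e0 k ω)‖ ^ 2 ∂pgam d P.N)
      ≤ t * ‖e0‖ + 3 * Rf P f := by
  have he := hP.eta_pos
  have hR := Rf_nonneg hP hf
  refine le_of_sq (by positivity) ?_
  have hi1 := ((err_LC hP hf e0 k).int_sq zero_le_one).const_mul (2 * (2 * P.eta) ^ 2)
  have hi2 := ((f_path_LC hP hf k).int_sq (by positivity)).const_mul 2
  refine (integral_mono ((hf.comp (Xc_LC hP hf e0 k) (by positivity)).int_sq (by positivity))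
    (hi1.add hi2) fun ω => ?_).trans ?_
  · simp only [Pi.add_apply]
    have hl := hf.lip (Xc d P.N P.h f e0 k ω) (pathW d P.N P.h k ω)
    simp only [Xc, add_sub_cancel_left] at hl
    have h3 := norm_le_norm_add_norm_sub' (f (Xc d P.N P.h f e0 k ω))
      (f (pathW d P.N P.h k ω))
    simp only [Xc] at h3 ⊢
    refine (pow_le_pow_left₀ (norm_nonneg _) (h3.trans (add_le_add le_rfl hl)) 2).trans ?_
    nlinarith [sq_nonneg (‖f (pathW d P.N P.h k ω)‖
      - 2 * P.eta * ‖err P.h f e0 (pw d P.N P.h ω) k‖)]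
  · simp only [Pi.add_apply]
    rw [integral_add hi1 hi2, integral_const_mul, integral_const_mul]
    have hq : 2 * (2 * P.eta) ^ 2 ≤ 1 / 32 := by nlinarith [hP.eta_le]
    have hE := (err_sq hP hf e0 k hk).trans
      (add_le_add (mul_le_mul_of_nonneg_right hA (sq_nonneg ‖e0‖)) le_rfl)
    have h4 := mul_le_mul hq hE (integral_nonneg fun ω => sq_nonneg _) (by norm_num)
    nlinarith [f_path_sq hP hf hk, mul_nonneg (mul_nonneg ht (norm_nonneg e0)) hR,
      sq_nonneg (Rf P f), sq_nonneg (t * ‖e0‖)]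

/-- Shift coupling: any time against the final time. -/
lemma shift_compare {v : EE d → EE d} {L : ℝ} (hv : LC v L) (hL : 0 ≤ L) {k : ℕ}
    (hk : k ≤ P.N) :
    ‖(∫ ω, v (Xc d P.N P.h f e0 k ω) ∂pgam d P.N) - ∫ ω, v (Xc d P.N P.h f e0 P.N ω) ∂pgam d P.N‖
      ≤ L * (1 - 7 * P.h / 8) ^ k * (2 * (‖e0‖ + Rf P f)) := by
  have he := hP.eta_pos
  have h0 := good_h0 hP
  have h1 := good_h1' hP
  obtain ⟨l, hl⟩ : ∃ l, l + k = P.N := ⟨P.N - k, by omega⟩
  set Xk : Path d k → EE d := fun σ => pathW d k P.h k σ + err P.h f e0 (pw d k P.h σ) k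
  set B : ℕ → Path d P.N → EE d := fun j ω => pathW d P.N P.h (j + k) ω
    + err P.h f e0 (fun i => pathW d P.N P.h (j + i) ω) k with hB
  have eB : ∀ j, j + k ≤ P.N → ∀ ω, Xk (shift d P.N P.h j k ω) = B j ω := fun j hj ω => by
    simp only [Xk, hB]
    rw [pathW_shift hj ω k le_rfl]
    congr 1
    exact err_congr k fun i hi => pathW_shift hj ω i hi.le
  have hcont : Continuous fun σ => v (Xk σ) := by
    have hE : ∀ i, Continuous fun σ : Path d k => err P.h f e0 (pw d k P.h σ) i := by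
      intro i
      induction i with
      | zero => exact continuous_const
      | succ i ih =>
        show Continuous fun σ : Path d k => (1 - P.h) • err P.h f e0 (pw d k P.h σ) i
          - P.h • f (pathW d k P.h i σ + err P.h f e0 (pw d k P.h σ) i)
        exact (ih.const_smul (1 - P.h)).sub
          ((hf.cd.continuous.comp (((pathW d k P.h i).continuous).add ih)).const_smul P.h)
    exact hv.cd.continuous.comp ((pathW d k P.h k).continuous.add (hE k))
  have law : ∀ j, j + k ≤ P.N →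
      ∫ ω, v (B j ω) ∂pgam d P.N = ∫ σ, v (Xk σ) ∂pgam d k := fun j hj => by
    rw [← int_shift h0 h1 hj hcont.aestronglyMeasurable]
    simp only [eB j hj]
  have eX : ∀ ω, Xc d P.N P.h f e0 k ω = B 0 ω := fun ω => by
    simp only [hB, Xc, zero_add]
    rfl
  have hmid : ∫ ω, v (Xc d P.N P.h f e0 k ω) ∂pgam d P.N = ∫ ω, v (B l ω) ∂pgam d P.N := by
    simp only [eX]
    rw [law 0 (by omega), law l hl.le]
  rw [hmid]
  have hA : (0 : ℝ) ≤ 1 - 7 * P.h / 8 := by linarith
  have hBL : LC (fun ω => v (Xc d P.N P.h f e0 P.N ω)) (L * 2) :=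
    hv.comp (Xc_LC hP hf e0 _) hL
  have hpt : ∀ ω, ‖v (B l ω) - v (Xc d P.N P.h f e0 P.N ω)‖
      ≤ L * (1 - 7 * P.h / 8) ^ k * (‖e0‖ + ‖err P.h f e0 (pw d P.N P.h ω) l‖) := fun ω => by
    refine (hv.lip _ _).trans ?_
    rw [mul_assoc]
    refine mul_le_mul_of_nonneg_left ?_ hL
    have e : Xc d P.N P.h f e0 P.N ω = pathW d P.N P.h (l + k) ω
        + err P.h f (err P.h f e0 (pw d P.N P.h ω) l)
          (fun i => pathW d P.N P.h (l + i) ω) k := by
      have e2 : ∀ n, n = l + k → pathW d P.N P.h n ω + err P.h f e0 (pw d P.N P.h ω) n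
          = pathW d P.N P.h (l + k) ω + err P.h f (err P.h f e0 (pw d P.N P.h ω) l)
            (fun i => pw d P.N P.h ω (l + i)) k := by
        rintro n rfl
        rw [err_add]
      exact e2 _ hl.symm
    rw [e]
    simp only [hB, add_sub_add_left_eq_sub]
    refine (err_lip_init hf h0 h1 (by linarith [hP.eta_le]) k).trans ?_
    gcongr
    exact norm_sub_le _ _
  have hiB : Integrable (fun ω => v (B l ω)) (pgam d P.N) := by
    refine Integrable.mono' ((hBL.int (by positivity)).norm.add (((integrable_const ‖e0‖).add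
      ((err_LC hP hf e0 l).int zero_le_one).norm).const_mul (L * (1 - 7 * P.h / 8) ^ k)))
      ?_ (Filter.Eventually.of_forall fun ω => ?_)
    · simp only [← eB l hl.le]
      exact (hcont.comp (shift d P.N P.h l k).continuous).aestronglyMeasurable
    · simp only [Pi.add_apply]
      have := norm_le_norm_add_norm_sub' (v (B l ω)) (v (Xc d P.N P.h f e0 P.N ω))
      linarith [hpt ω]
  rw [← integral_sub hiB (hBL.int (by positivity))]
  refine (norm_integral_le_integral_norm _).trans ?_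
  refine (integral_mono (hiB.sub (hBL.int (by positivity))).norm
    (((integrable_const ‖e0‖).add ((err_LC hP hf e0 l).int zero_le_one).norm).const_mul _)
    hpt).trans ?_
  rw [integral_const_mul]
  simp only [Pi.add_apply]
  rw [integral_add (integrable_const _) ((err_LC hP hf e0 l).int zero_le_one).norm,
    integral_const, probReal_univ, one_smul]
  refine mul_le_mul_of_nonneg_left ?_ (mul_nonneg hL (pow_nonneg hA _))
  have := (int_norm_le ((err_LC hP hf e0 l).memLp zero_le_one)).trans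
    (err_n2 hP hf e0 (k := l) (by omega))
  linarith

omit hf in
lemma pow_A_late {k : ℕ} (hk : k ≤ P.N) (hk' : P.N ≤ k + P.m) :
    (1 - 7 * P.h / 8) ^ k ≤ 2 * tau P ^ 2 := by
  have h0 := good_h0 hP
  have h1 := good_h1 hP
  set A := 1 - 7 * P.h / 8 with hA
  have hA0 : 0 ≤ A := by linarith
  have hA1 : A ≤ 1 := by linarith
  have hB : 1 / 2 ≤ A ^ P.m := by
    have := one_add_mul_le_pow (by linarith : (-2 : ℝ) ≤ -(7 * P.h / 8)) P.m
    rw [← sub_eq_add_neg 1 (7 * P.h / 8)] at this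
    nlinarith [hP.m_le, hP.eta_le]
  have h2 : A ^ (k + P.m) ≤ A ^ P.N := pow_le_pow_of_le_one hA0 hA1 hk'
  rw [pow_add] at h2
  have h3 := h2.trans (pow_A_le' hP)
  nlinarith [mul_le_mul_of_nonneg_left hB (pow_nonneg hA0 k)]

/-- The mean at the end is minus the mean drift at the end. -/
lemma mean_end :
    ‖(∫ ω, Xc d P.N P.h f e0 P.N ω ∂pgam d P.N) + ∫ ω, f (Xc d P.N P.h f e0 P.N ω) ∂pgam d P.N‖
      ≤ 6 * (tau P * (‖e0‖ + Rf P f)) := by
  have he := hP.eta_pos
  have h0 := good_h0 hP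
  have h1 := good_h1' hP
  have hR := Rf_nonneg hP hf
  have ht := tau_pos (P := P)
  have ht1 := tau_le_one hP
  set c : ℕ → ℝ := fun j => P.h * (1 - P.h) ^ (P.N - 1 - j) with hc
  have hc0 : ∀ j, 0 ≤ c j := fun j => mul_nonneg h0 (pow_nonneg (by linarith) _)
  set μ := pgam d P.N
  set I : ℕ → EE d := fun j => ∫ ω, f (Xc d P.N P.h f e0 j ω) ∂μ with hI
  have hW : ∫ ω, pathW d P.N P.h P.N ω ∂μ = 0 := by
    rw [(pathW d P.N P.h P.N).integral_comp_id_comm IsGaussian.integrable_id,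
      integral_id_stdGaussian, map_zero]
  have hi : ∀ j, Integrable (fun ω => c j • f (Xc d P.N P.h f e0 j ω)) μ := fun j =>
    ((hf.comp (Xc_LC hP hf e0 j) (by positivity)).int (by positivity)).fun_smul _
  have e1 : ∫ ω, Xc d P.N P.h f e0 P.N ω ∂μ
      = (1 - P.h) ^ P.N • e0 - ∑ j ∈ Finset.range P.N, c j • I j := by
    have e : ∀ ω, Xc d P.N P.h f e0 P.N ω = pathW d P.N P.h P.N ω + ((1 - P.h) ^ P.N • e0
        - ∑ j ∈ Finset.range P.N, c j • f (Xc d P.N P.h f e0 j ω)) := fun ω => by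
      simp only [Xc]
      rw [err_closed]
      rfl
    have hs := integrable_finsetSum (Finset.range P.N) fun j _ => hi j
    have hd : Integrable (fun ω : Path d P.N => (1 - P.h) ^ P.N • e0
        - ∑ j ∈ Finset.range P.N, c j • f (Xc d P.N P.h f e0 j ω)) μ :=
      (integrable_const _).sub hs
    simp only [e]
    rw [integral_add ((pathW_LC hP hf P.N).int zero_le_one) hd, hW, zero_add,
      integral_sub (integrable_const _) hs, integral_finsetSum _ fun j _ => hi j,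
      integral_const, probReal_univ, one_smul]
    simp only [integral_smul, hI]
  have e2 : (∫ ω, Xc d P.N P.h f e0 P.N ω ∂μ) + I P.N
      = (1 - P.h) ^ P.N • (e0 + I P.N) - ∑ j ∈ Finset.range P.N, c j • (I j - I P.N) := by
    rw [e1]
    simp only [smul_sub, smul_add, Finset.sum_sub_distrib, ← Finset.sum_smul, hc, geo_weights]
    rw [sub_smul, one_smul]
    abel
  show ‖_ + I P.N‖ ≤ _
  rw [e2]
  refine (norm_sub_le _ _).trans ?_
  have hIN : ‖I P.N‖ ≤ ‖e0‖ + 3 * Rf P f := by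
    refine ((norm_int_le ((hf.comp (Xc_LC hP hf e0 P.N) (by positivity)).memLp
      (by positivity))).trans (fX_n2 hP hf e0 le_rfl (t := 1) zero_le_one ?_)).trans ?_
    · rw [one_pow]; exact pow_le_one₀ (by linarith) (by linarith)
    · linarith
  have b1 : ‖(1 - P.h) ^ P.N • (e0 + I P.N)‖ ≤ 3 * (tau P * (‖e0‖ + Rf P f)) := by
    rw [norm_smul, Real.norm_eq_abs, abs_of_nonneg (pow_nonneg (by linarith) _)]
    refine (mul_le_mul ((pow_a_le hP).trans (pow_le_of_le_one ht.le ht1 two_ne_zero))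
      ((norm_add_le _ _).trans (add_le_add le_rfl hIN)) (norm_nonneg _) ht.le).trans ?_
    nlinarith [norm_nonneg e0]
  have b2 : ‖∑ j ∈ Finset.range P.N, c j • (I j - I P.N)‖
      ≤ 3 * (tau P * (‖e0‖ + Rf P f)) := by
    refine (norm_sum_le _ _).trans ?_
    calc ∑ j ∈ Finset.range P.N, ‖c j • (I j - I P.N)‖
        ≤ ∑ j ∈ Finset.range P.N,
            c j * (1 - 7 * P.h / 8) ^ j * (2 * P.eta * (2 * (‖e0‖ + Rf P f))) := by
          refine Finset.sum_le_sum fun j hj => ?_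
          rw [norm_smul, Real.norm_eq_abs, abs_of_nonneg (hc0 j)]
          refine (mul_le_mul_of_nonneg_left (shift_compare hP hf e0 hf (by positivity)
            (Finset.mem_range.1 hj).le) (hc0 j)).trans (le_of_eq (by ring))
      _ ≤ 6 * tau P ^ 2 * (2 * P.eta * (2 * (‖e0‖ + Rf P f))) := by
          rw [← Finset.sum_mul]
          exact mul_le_mul_of_nonneg_right (weight_forget hP) (by positivity)
      _ ≤ 6 * tau P * (2 * (1 / 16) * (2 * (‖e0‖ + Rf P f))) := by
          gcongr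
          · exact pow_le_of_le_one ht.le ht1 two_ne_zero
          · exact hP.eta_le
      _ ≤ _ := by nlinarith [mul_nonneg ht.le (add_nonneg (norm_nonneg e0) hR)]
  linarith

/-- The drift at the end is close to the averaged drift m steps earlier. -/
lemma mean_split_sharp :
    ‖(∫ ω, f (Xc d P.N P.h f e0 P.N ω) ∂pgam d P.N)
        - ∫ ω, Gf P f (Xc d P.N P.h f e0 (P.N - P.m) ω) ∂pgam d P.N‖
      ≤ 2 * (P.eta * P.eta) * (2 * tau P * ‖e0‖ + 3 * Rf P f)
        + tau P * (‖e0‖ + Rf P f) := by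
  have he := hP.eta_pos
  have h0 := good_h0 hP
  have h1 := good_h1' hP
  have hR := Rf_nonneg hP hf
  have ht := tau_pos (P := P)
  set μ := pgam d P.N
  set l := P.N - P.m
  have hlm : l + P.m = P.N := Nat.sub_add_cancel hP.m_N
  set q := (1 - P.h) ^ P.m
  set b := Real.sqrt (1 - (1 - P.h) ^ (2 * P.m))
  set F : Path d P.N → EE d := fun ω => f (q • Xc d P.N P.h f e0 l ω
    + (pathW d P.N P.h P.N ω - q • pathW d P.N P.h l ω)) with hF
  have hFL : LC F (2 * P.eta * (|q| * 2 + (1 + |q| * 1))) :=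
    hf.comp (((Xc_LC hP hf e0 l).smul q).add
      ((pathW_LC hP hf P.N).sub ((pathW_LC hP hf l).smul q))) (by positivity)
  obtain ⟨Φ, -, hlaw, hcoord⟩ :=
    int_split (X := EE d) (d := d) (N := P.N) hP.h_pos h1 (one_le_m hP) hP.m_N
  have e1 : ∫ ω, F ω ∂μ = ∫ ω, Gf P f (Xc d P.N P.h f e0 l ω) ∂μ := by
    rw [hlaw F (hFL.int (by positivity))]
    refine integral_congr_ae (Filter.Eventually.of_forall fun ω => ?_)
    show _ = Gf P f (Xc d P.N P.h f e0 l ω)
    unfold Gf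
    refine integral_congr_ae (Filter.Eventually.of_forall fun ξ => ?_)
    obtain ⟨hlo, hN⟩ := hcoord ω ξ
    have e : err P.h f e0 (pw d P.N P.h (Φ (ω, ξ))) l = err P.h f e0 (pw d P.N P.h ω) l :=
      err_congr l fun j hj => hlo j hj.le
    simp only [hF, Xc, e, hlo l le_rfl, hN]
    congr 1
    rw [add_sub_cancel_left]
  rw [← e1, ← integral_sub ((hf.comp (Xc_LC hP hf e0 P.N) (by positivity)).int (by positivity))
    (hFL.int (by positivity))]
  refine (norm_integral_le_integral_norm _).trans ?_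
  set g : ℕ → Path d P.N → EE d := fun i ω => f (Xc d P.N P.h f e0 (l + i) ω) with hg
  have hgL : ∀ i, LC (g i) (2 * P.eta * 2) := fun i =>
    hf.comp (Xc_LC hP hf e0 (l + i)) (by positivity)
  have hpt : ∀ ω, ‖f (Xc d P.N P.h f e0 P.N ω) - F ω‖
      ≤ 2 * P.eta * ∑ i ∈ Finset.range P.m, P.h * ‖g i ω‖ := fun ω => by
    refine (hf.lip _ _).trans (mul_le_mul_of_nonneg_left ?_ (by positivity))
    have e : Xc d P.N P.h f e0 P.N ω - (q • Xc d P.N P.h f e0 l ω
        + (pathW d P.N P.h P.N ω - q • pathW d P.N P.h l ω))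
        = -∑ i ∈ Finset.range P.m, (P.h * (1 - P.h) ^ (P.m - 1 - i)) • g i ω := by
      have e2 : err P.h f e0 (pw d P.N P.h ω) P.N
          = err P.h f (err P.h f e0 (pw d P.N P.h ω) l)
            (fun i => pw d P.N P.h ω (l + i)) P.m := by
        rw [← err_add, hlm]
      simp only [Xc, hg]
      rw [e2, err_closed, smul_add]
      simp only [← err_add]
      simp only [pw, q]
      abel
    rw [e, norm_neg]
    refine (norm_sum_le _ _).trans (Finset.sum_le_sum fun i _ => ?_)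
    have hp : (1 - P.h) ^ (P.m - 1 - i) ≤ 1 := pow_le_one₀ (by linarith) (by linarith)
    rw [norm_smul, Real.norm_eq_abs,
      abs_of_nonneg (mul_nonneg h0 (pow_nonneg (by linarith) _))]
    exact mul_le_mul_of_nonneg_right (mul_le_of_le_one_right h0 hp) (norm_nonneg _)
  have hi : ∀ i, Integrable (fun ω => P.h * ‖g i ω‖) μ := fun i =>
    ((hgL i).int (by positivity)).norm.const_mul _
  refine (integral_mono
    (((hf.comp (Xc_LC hP hf e0 P.N) (by positivity)).int (by positivity)).sub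
      (hFL.int (by positivity))).norm
    ((integrable_finsetSum _ fun i _ => hi i).const_mul _) hpt).trans ?_
  rw [integral_const_mul, integral_finsetSum _ fun i _ => hi i]
  calc 2 * P.eta * ∑ i ∈ Finset.range P.m, ∫ ω, P.h * ‖g i ω‖ ∂μ
      ≤ 2 * P.eta * ∑ _i ∈ Finset.range P.m, P.h * (2 * tau P * ‖e0‖ + 3 * Rf P f) := by
        refine mul_le_mul_of_nonneg_left (Finset.sum_le_sum fun i hi' => ?_) (by positivity)
        rw [integral_const_mul]
        have hil := Finset.mem_range.1 hi'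
        refine mul_le_mul_of_nonneg_left ((int_norm_le ((hgL i).memLp (by positivity))).trans
          (fX_n2 hP hf e0 (k := l + i) (by omega) (by positivity) ?_)) h0
        refine (pow_A_late hP (by omega) (by omega)).trans ?_
        nlinarith [sq_nonneg (tau P)]
    _ = 2 * P.eta * (P.m * P.h) * (2 * tau P * ‖e0‖ + 3 * Rf P f) := by simp; ring
    _ ≤ 2 * P.eta * P.eta * (2 * tau P * ‖e0‖ + 3 * Rf P f) := by gcongr; exact hP.m_le
    _ ≤ _ := by
        rw [mul_assoc 2 P.eta P.eta]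
        exact le_add_of_nonneg_right (by positivity)

/-- The scale of the error of the mean. -/
lemma m1_bound (hδ : 0 ≤ δ) :
    ‖(∫ ω, Xc d P.N P.h f e0 P.N ω ∂pgam d P.N)
        + ∫ ω, Gf P f (pathW d P.N P.h P.N ω - Asum P f ω) ∂pgam d P.N‖
      ≤ 500 * ((1 + Cw) ^ 2 * (Real.sqrt P.eta * (P.eta + δ) * Rf P f
          + tau P * (‖e0‖ + Rf P f))) := by
  have he := hP.eta_pos
  have hR := Rf_nonneg hP hf
  have ht := tau_pos (P := P)
  have hCw := good_Cw hP
  have hG := Gf_LC hP hf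
  set μ := pgam d P.N
  set E1 := tau P * (‖e0‖ + Rf P f) with hE1
  have hE10 : 0 ≤ E1 := by positivity
  have hse : Real.sqrt P.eta ≤ 1 := Real.sqrt_le_one.2 (by linarith [hP.eta_le])
  have hse0 := Real.sqrt_nonneg P.eta
  have hee : P.eta ≤ Real.sqrt P.eta :=
    (Real.le_sqrt he.le he.le).2 (by nlinarith [hP.eta_le])
  have hWA : LC (fun ω => Gf P f (pathW d P.N P.h P.N ω - Asum P f ω))
      (2 * P.eta * (1 + Cw * (2 * P.eta))) :=
    hG.comp ((pathW_LC hP hf P.N).sub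
      (wsum_LC hP hf (node := P.node) (w := P.w) hP.w_abs)) (by positivity)
  set m1 := ∫ ω, Gf P f (pathW d P.N P.h P.N ω - Asum P f ω) ∂μ
  set GN := ∫ ω, Gf P f (Xc d P.N P.h f e0 P.N ω) ∂μ
  set Gl := ∫ ω, Gf P f (Xc d P.N P.h f e0 (P.N - P.m) ω) ∂μ
  set fN := ∫ ω, f (Xc d P.N P.h f e0 P.N ω) ∂μ
  set XN := ∫ ω, Xc d P.N P.h f e0 P.N ω ∂μ
  set K := 16 * (P.eta * (P.eta * Rf P f + E1))
    + 450 * ((1 + Cw) ^ 2 * (Real.sqrt P.eta * (EB P f e0 + δ * Rf P f))) with hK
  have hEB : EB P f e0 = P.eta * Rf P f + E1 := rfl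
  have hmm : ‖XN + ∫ x, f x ∂gam d‖ ≤ 8 * EB P f e0 := by
    rw [← delta_mean hP hf e0]
    exact (norm_int_le (((err_LC hP hf e0 P.N).add ((wsum_LC hP hf (node := bnode P)
      (bw_abs (good_h0 hP) (good_h1' hP)).le).congr fun ω => bsum_eq ω)).memLp
      (by positivity))).trans (delta_sq hP hf e0)
  have hE : ‖m1 - GN‖ ≤ K := by
    rcases eq_or_ne (m1 - GN) 0 with h0' | h0'
    · rw [h0', norm_zero, hK]
      have := EB_nonneg hP hf e0
      positivity
    set θ := ‖m1 - GN‖⁻¹ • (m1 - GN)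
    have hθ : ‖θ‖ ≤ 1 := by
      rw [norm_smul, norm_inv, norm_norm, inv_mul_cancel₀ (norm_ne_zero_iff.2 h0')]
    have hθv : ⟪θ, m1 - GN⟫ = ‖m1 - GN‖ := by
      rw [real_inner_smul_left, real_inner_self_eq_norm_sq, pow_two, ← mul_assoc,
        inv_mul_cancel₀ (norm_ne_zero_iff.2 h0'), one_mul]
    obtain ⟨Ψ, hT⟩ := Gf_test hP hf hθ
    have hc := compare hP hf e0 hδ hT 0
    simp only [sub_zero, add_zero] at hc
    rw [integral_inner (hWA.int (by positivity)) θ,
      integral_inner ((hG.comp (Xc_LC hP hf e0 P.N) (by positivity)).int (by positivity)) θ,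
      ← inner_sub_right, hθv, abs_of_nonneg (norm_nonneg _)] at hc
    refine hc.trans ?_
    rw [hK, ← hEB]
    have := mul_le_mul_of_nonneg_left hmm (by positivity : 0 ≤ 2 * P.eta)
    nlinarith
  have hshift : ‖Gl - GN‖ ≤ E1 := by
    refine (shift_compare hP hf e0 hG (by positivity) (Nat.sub_le _ _)).trans ?_
    have h2 := pow_A_late hP (k := P.N - P.m) (Nat.sub_le _ _) (by omega)
    calc 2 * P.eta * (1 - 7 * P.h / 8) ^ (P.N - P.m) * (2 * (‖e0‖ + Rf P f))
        ≤ 2 * (1 / 16) * (2 * tau P ^ 2) * (2 * (‖e0‖ + Rf P f)) := by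
          have : (0 : ℝ) ≤ 1 - 7 * P.h / 8 := by linarith [good_h1 hP]
          gcongr
          exact hP.eta_le
      _ ≤ 2 * (1 / 16) * (2 * tau P) * (2 * (‖e0‖ + Rf P f)) := by
          gcongr; exact pow_le_of_le_one ht.le (tau_le_one hP) two_ne_zero
      _ ≤ E1 := by rw [hE1]; nlinarith [norm_nonneg e0]
  have e : XN + m1 = (XN + fN) - (fN - Gl) - (Gl - GN) + (m1 - GN) := by abel
  rw [e]
  have n1 := norm_add_le ((XN + fN) - (fN - Gl) - (Gl - GN)) (m1 - GN)
  have n2 := norm_sub_le ((XN + fN) - (fN - Gl)) (Gl - GN)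
  have n3 := norm_sub_le (XN + fN) (fN - Gl)
  have hsp2 : ‖fN - Gl‖ ≤ 2 * (P.eta * P.eta) * (2 * tau P * ‖e0‖ + 3 * Rf P f) + E1 :=
    mean_split_sharp hP hf e0
  have hW1 : 1 ≤ (1 + Cw) ^ 2 := one_le_pow₀ (by linarith)
  have hM : P.eta * P.eta * Rf P f ≤ Real.sqrt P.eta * (P.eta + δ) * Rf P f := by
    gcongr
    linarith
  have hK2 : K ≤ 470 * ((1 + Cw) ^ 2 * (Real.sqrt P.eta * (P.eta + δ) * Rf P f + E1)) := by
    rw [hK, hEB]
    have h2 : P.eta * (P.eta * Rf P f + E1)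
        ≤ 1 * (Real.sqrt P.eta * (P.eta + δ) * Rf P f + E1) := by
      nlinarith [mul_le_mul_of_nonneg_right hP.eta_le hE10]
    have h3 : Real.sqrt P.eta * (P.eta * Rf P f + E1 + δ * Rf P f)
        ≤ Real.sqrt P.eta * (P.eta + δ) * Rf P f + E1 := by
      nlinarith [mul_le_mul_of_nonneg_right hse hE10]
    have h4 := mul_le_mul_of_nonneg_left h3 (sq_nonneg (1 + Cw))
    have h5 := mul_le_mul_of_nonneg_right hW1
      (add_nonneg (mul_nonneg (mul_nonneg hse0 (add_nonneg he.le hδ)) hR) hE10)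
    have h6 := add_nonneg (mul_nonneg (mul_nonneg hse0 (add_nonneg he.le hδ)) hR) hE10
    linarith
  have hend := mean_end hP hf e0
  have h7 : 2 * (P.eta * P.eta) * (2 * tau P * ‖e0‖ + 3 * Rf P f)
      ≤ 6 * (Real.sqrt P.eta * (P.eta + δ) * Rf P f) + E1 := by
    have : P.eta * P.eta ≤ 1 / 256 := by nlinarith [hP.eta_le]
    rw [hE1]
    nlinarith [mul_le_mul_of_nonneg_right this (mul_nonneg ht.le (norm_nonneg e0)),
      mul_nonneg ht.le hR]
  have h5 := mul_le_mul_of_nonneg_right hW1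
    (add_nonneg (mul_nonneg (mul_nonneg hse0 (add_nonneg he.le hδ)) hR) hE10)
  have h8 := add_nonneg (mul_nonneg (mul_nonneg hse0 (add_nonneg he.le hδ)) hR) hE10
  have h9 := mul_nonneg (mul_nonneg hse0 (add_nonneg he.le hδ)) hR
  have hend' : ‖XN + fN‖ ≤ 6 * E1 := hend
  clear_value XN m1 fN Gl GN K E1
  linarith

end K

end Vale.Agent.P347
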