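import Vale.Agent.P347.KernelLaw

/-!
Moment bounds for weighted path sums and for the error of the fine chain, with the comparison
K2-K3 of note 865.
-/

open MeasureTheory ProbabilityTheory
open scoped RealInnerProductSpace

namespace Vale.Agent.P347

namespace K

variable {d : ℕ} {P : Params} {Cw δ : ℝ} {f : EE d → EE d}

lemma geo_weights (h : ℝ) : ∀ n : ℕ,
    ∑ j ∈ Finset.range n, h * (1 - h) ^ (n - 1 - j) = 1 - (1 - h) ^ n
  | 0 => by simp
  | n + 1 => by
      have e : ∑ j ∈ Finset.range n, h * (1 - h) ^ (n + 1 - 1 - j)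
          = (1 - h) * ∑ j ∈ Finset.range n, h * (1 - h) ^ (n - 1 - j) := by
        rw [Finset.mul_sum]
        refine Finset.sum_congr rfl fun j hj => ?_
        have : n + 1 - 1 - j = (n - 1 - j) + 1 := by have := Finset.mem_range.1 hj; omega
        rw [this, pow_succ]; ring
      rw [Finset.sum_range_succ, e, geo_weights h n, show n + 1 - 1 - n = 0 by omega, pow_zero,
        pow_succ]
      ring

lemma sum_smul_sq_le {ι E : Type*} [NormedAddCommGroup E] [NormedSpace ℝ E] (s : Finset ι)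
    (w : ι → ℝ) (v : ι → E) :
    ‖∑ j ∈ s, w j • v j‖ ^ 2 ≤ (∑ j ∈ s, |w j|) * ∑ j ∈ s, |w j| * ‖v j‖ ^ 2 := by
  calc ‖∑ j ∈ s, w j • v j‖ ^ 2 ≤ (∑ j ∈ s, |w j| * ‖v j‖) ^ 2 := by
        gcongr
        exact (norm_sum_le _ _).trans (le_of_eq (Finset.sum_congr rfl fun j _ => by
          rw [norm_smul, Real.norm_eq_abs]))
    _ ≤ _ := Finset.sum_sq_le_sum_mul_sum_of_sq_le_mul _ (fun j _ => abs_nonneg _)
        (fun j _ => by positivity) fun j _ => le_of_eq (by ring)

section Good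
variable (hP : P.Good d Cw δ)
include hP

lemma good_h1 : P.h ≤ 1 / 64 := by have := hP.h_le; have := hP.eta_le; linarith

lemma good_h0 : 0 ≤ P.h := hP.h_pos.le

lemma good_h1' : P.h ≤ 1 := (good_h1 hP).trans (by norm_num)

lemma good_Cw : 1 ≤ Cw := by
  refine le_trans ?_ hP.w_abs
  calc (1 : ℝ) = |∑ j, P.w j| := by rw [hP.w_sum, abs_one]
    _ ≤ _ := Finset.abs_sum_le_sum_abs _ _

end Good

/-- The size of a drift at zero mean input. -/
noncomputable def Rf (P : Params) (f : EE d → EE d) : ℝ := 2 * P.eta * Real.sqrt d + ‖f 0‖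

/-- The forgetting factor of the whole path. -/
noncomputable def tau (P : Params) : ℝ := Real.exp (-(P.h * P.N) / 4)

/-- The scale of the second-order error. -/
noncomputable def EB (P : Params) (f : EE d → EE d) (e0 : EE d) : ℝ :=
  P.eta * Rf P f + tau P * (‖e0‖ + Rf P f)

/-- The path as a sequence. -/
noncomputable def pw (d N : ℕ) (h : ℝ) (ω : Path d N) : ℕ → EE d := fun j => pathW d N h j ω

/-- The normalised chain. -/
noncomputable def Xc (d N : ℕ) (h : ℝ) (f : EE d → EE d) (e0 : EE d) (k : ℕ) (ω : Path d N) :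
    EE d :=
  pathW d N h k ω + err h f e0 (pw d N h ω) k

/-- A weighted sum of f along the path. -/
noncomputable def wsum {ι : Type*} [Fintype ι] (P : Params) (f : EE d → EE d) (node : ι → ℕ)
    (w : ι → ℝ) (ω : Path d P.N) : EE d :=
  ∑ j, w j • f (pathW d P.N P.h (node j) ω)

/-- The nodes of the fine sum. -/
def bnode (P : Params) : Option (Fin P.N) → ℕ
  | none => 0
  | some k => k

/-- The weights of the fine sum. -/
noncomputable def bw (P : Params) : Option (Fin P.N) → ℝ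
  | none => (1 - P.h) ^ P.N
  | some k => P.h * (1 - P.h) ^ (P.N - 1 - (k : ℕ))

lemma bsum_eq (ω : Path d P.N) : Bsum P f ω = wsum P f (bnode P) (bw P) ω := by
  rw [Bsum, wsum, Fintype.sum_option, add_comm, Finset.sum_range]
  rfl

lemma bnode_le (j : Option (Fin P.N)) : bnode P j ≤ P.N := by
  cases j with
  | none => exact Nat.zero_le _
  | some k => exact k.2.le

lemma bw_sum : ∑ j, bw P j = 1 := by
  rw [Fintype.sum_option]
  show (1 - P.h) ^ P.N + ∑ k : Fin P.N, P.h * (1 - P.h) ^ (P.N - 1 - (k : ℕ)) = 1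
  rw [← Finset.sum_range (fun k => P.h * (1 - P.h) ^ (P.N - 1 - k)), geo_weights]
  ring

lemma bw_abs (h0 : 0 ≤ P.h) (h1 : P.h ≤ 1) : ∑ j, |bw P j| = 1 := by
  have h : ∀ j, |bw P j| = bw P j := fun j => by
    refine abs_of_nonneg ?_
    have : (0 : ℝ) ≤ 1 - P.h := by linarith
    cases j <;> simp only [bw] <;> positivity
  simp only [h, bw_sum]

variable (hP : P.Good d Cw δ) (hf : LC f (2 * P.eta))
include hP hf

lemma f_growth (x : EE d) : ‖f x‖ ≤ 2 * P.eta * ‖x‖ + ‖f 0‖ := by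
  have h := hf.lip x 0
  rw [sub_zero] at h
  have := norm_le_norm_add_norm_sub' (f x) (f 0)
  linarith

lemma Rf_nonneg : 0 ≤ Rf P f := by
  have := hP.eta_pos
  unfold Rf
  positivity

lemma f_gam_sq : ∫ x, ‖f x‖ ^ 2 ∂gam d ≤ 2 * Rf P f ^ 2 := by
  have he := hP.eta_pos
  have hid : LC (fun x : EE d => x) 1 := ⟨contDiff_id, fun x y => by simp⟩
  have h1 := hid.int_sq zero_le_one
  refine (integral_mono (hf.int_sq (by positivity))
    ((h1.const_mul (2 * (2 * P.eta) ^ 2)).add (integrable_const (2 * ‖f 0‖ ^ 2)))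
    fun x => ?_).trans ?_
  · have h := f_growth hP hf x
    simp only [Pi.add_apply]
    have := norm_nonneg (f x)
    nlinarith [sq_nonneg (2 * P.eta * ‖x‖ - ‖f 0‖)]
  · simp only [Pi.add_apply]
    rw [integral_add (h1.const_mul _) (integrable_const _), integral_const_mul,
      second_moment (EE d), finrank_euclideanSpace_fin]
    simp only [integral_const, probReal_univ, one_smul]
    unfold Rf
    have hs : Real.sqrt d ^ 2 = d := Real.sq_sqrt (Nat.cast_nonneg d)
    nlinarith [mul_nonneg (mul_nonneg he.le (Real.sqrt_nonneg (d : ℝ))) (norm_nonneg (f 0))]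

lemma pathW_LC (k : ℕ) : LC (fun ω => pathW d P.N P.h k ω) 1 :=
  LC.clm _ (pathW_norm (good_h0 hP) (good_h1' hP) k)

lemma int_path {X : Type*} [NormedAddCommGroup X] [NormedSpace ℝ X] {F : EE d → X} {k : ℕ}
    (hk : k ≤ P.N) (hF : AEStronglyMeasurable F (gam d)) :
    ∫ ω, F (pathW d P.N P.h k ω) ∂pgam d P.N = ∫ x, F x ∂gam d := by
  have hmap : (pgam d P.N).map (pathW d P.N P.h k) = gam d :=
    map_coisometry _ (pathW_coisometry (good_h0 hP) (good_h1' hP) hk)
  rw [← hmap] at hF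
  conv_rhs => rw [← hmap]
  rw [integral_map (pathW d P.N P.h k).continuous.aemeasurable hF]

lemma f_path_LC (k : ℕ) : LC (fun ω => f (pathW d P.N P.h k ω)) (2 * P.eta) := by
  have he := hP.eta_pos
  simpa using hf.comp (pathW_LC hP hf k) (by positivity)

lemma f_path_sq {k : ℕ} (hk : k ≤ P.N) :
    ∫ ω, ‖f (pathW d P.N P.h k ω)‖ ^ 2 ∂pgam d P.N ≤ 2 * Rf P f ^ 2 := by
  rw [int_path hP hf hk (F := fun x => ‖f x‖ ^ 2)
    ((hf.cd.continuous.norm.pow 2).aestronglyMeasurable)]
  exact f_gam_sq hP hf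

section WSum
variable {ι : Type*} [Fintype ι] {node : ι → ℕ} {w : ι → ℝ} {W : ℝ}

lemma wsum_LC (hW : ∑ j, |w j| ≤ W) : LC (wsum P f node w) (W * (2 * P.eta)) := by
  have he := hP.eta_pos
  refine (LC.sum Finset.univ _ (fun j => |w j| * (2 * P.eta))
    fun j _ => (f_path_LC hP hf (node j)).smul (w j)).mono ?_
  rw [← Finset.sum_mul]
  exact mul_le_mul_of_nonneg_right hW (by positivity)

lemma wsum_mean (hn : ∀ j, node j ≤ P.N) (hw : ∑ j, w j = 1) :
    ∫ ω, wsum P f node w ω ∂pgam d P.N = ∫ x, f x ∂gam d := by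
  have he := hP.eta_pos
  have hi : ∀ j, Integrable (fun ω => w j • f (pathW d P.N P.h (node j) ω)) (pgam d P.N) :=
    fun j => ((f_path_LC hP hf (node j)).int (by positivity)).smul (w j)
  show ∫ ω, ∑ j, w j • f (pathW d P.N P.h (node j) ω) ∂pgam d P.N = _
  rw [integral_finsetSum _ fun j _ => hi j]
  simp only [integral_smul, int_path hP hf (hn _) hf.cd.continuous.aestronglyMeasurable]
  rw [← Finset.sum_smul, hw, one_smul]

lemma wsum_sq (hn : ∀ j, node j ≤ P.N) (hW : ∑ j, |w j| ≤ W) :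
    ∫ ω, ‖wsum P f node w ω‖ ^ 2 ∂pgam d P.N ≤ 2 * (W * Rf P f) ^ 2 := by
  have he := hP.eta_pos
  have hW0 : 0 ≤ W := (Finset.sum_nonneg fun j _ => abs_nonneg (w j)).trans hW
  have hi : ∀ j, Integrable (fun ω => |w j| * ‖f (pathW d P.N P.h (node j) ω)‖ ^ 2)
      (pgam d P.N) := fun j => ((f_path_LC hP hf (node j)).int_sq (by positivity)).const_mul _
  refine (integral_mono ((wsum_LC hP hf hW).int_sq (by positivity))
    ((integrable_finsetSum Finset.univ fun j _ => hi j).const_mul (∑ j, |w j|))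
    fun ω => sum_smul_sq_le _ w _).trans ?_
  rw [integral_const_mul, integral_finsetSum _ fun j _ => hi j]
  simp only [integral_const_mul]
  calc (∑ j, |w j|) * ∑ j, |w j| * ∫ ω, ‖f (pathW d P.N P.h (node j) ω)‖ ^ 2 ∂pgam d P.N
      ≤ (∑ j, |w j|) * ((∑ j, |w j|) * (2 * Rf P f ^ 2)) := by
        refine mul_le_mul_of_nonneg_left ?_ (Finset.sum_nonneg fun j _ => abs_nonneg _)
        rw [Finset.sum_mul]
        exact Finset.sum_le_sum fun j _ =>
          mul_le_mul_of_nonneg_left (f_path_sq hP hf (hn j)) (abs_nonneg _)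
    _ ≤ W * (W * (2 * Rf P f ^ 2)) := by
        have hs : (0 : ℝ) ≤ ∑ j, |w j| := Finset.sum_nonneg fun j _ => abs_nonneg _
        exact mul_le_mul hW (mul_le_mul_of_nonneg_right hW (by positivity)) (by positivity) hW0
    _ = _ := by ring

/-- The conditional mean of a weighted sum given the end point. -/
lemma wbar_LC (hn : ∀ j, node j ≤ P.N) (hW : ∑ j, |w j| ≤ W) :
    LC (fun x => ∫ ω, wsum P f node w (bridge d P.N P.h x ω) ∂pgam d P.N) (W * (2 * P.eta)) ∧
      ∀ x, LC (fun ω => wsum P f node w (bridge d P.N P.h x ω)) (2 * (W * (2 * P.eta))) := by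
  have he := hP.eta_pos
  have h0 := good_h0 hP
  have h1 := good_h1' hP
  set ρ : ι → ℝ := fun j => (1 - P.h) ^ (P.N - node j) with hρ
  set Z : ι → Path d P.N → EE d := fun j ω =>
    pathW d P.N P.h (node j) ω - ρ j • pathW d P.N P.h P.N ω with hZdef
  have hρ1 : ∀ j, |ρ j| ≤ 1 := fun j => by
    rw [abs_of_nonneg (pow_nonneg (by linarith) _)]
    exact pow_le_one₀ (by linarith) (by linarith)
  have hZ : ∀ j, LC (Z j) 2 := fun j =>
    ((pathW_LC hP hf (node j)).sub ((pathW_LC hP hf P.N).smul (ρ j))).mono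
      (by linarith [hρ1 j])
  have e : ∀ x ω, wsum P f node w (bridge d P.N P.h x ω)
      = ∑ j, w j • f (ρ j • x + Z j ω) := fun x ω => by
    refine Finset.sum_congr rfl fun j _ => ?_
    rw [pathW_bridge h0 h1 x ω (hn j)]
    simp only [hZdef, hρ, smul_sub]
    congr 2
    abel
  have hcomp : ∀ x j, LC (fun ω => f (ρ j • x + Z j ω)) (2 * P.eta * (0 + 2)) := fun x j =>
    hf.comp ((LC.const (ρ j • x)).add (hZ j)) (by positivity)
  constructor
  · have e2 : ∀ x, ∫ ω, wsum P f node w (bridge d P.N P.h x ω) ∂pgam d P.N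
        = ∑ j, w j • ∫ ω, f (ρ j • x + Z j ω) ∂pgam d P.N := fun x => by
      simp only [e]
      rw [integral_finsetSum _ fun j _ => ((hcomp x j).int (by positivity)).fun_smul (w j)]
      simp only [integral_smul]
    refine ((LC.sum Finset.univ _ (fun j => |w j| * (2 * P.eta * |ρ j|)) fun j _ =>
      (hf.average (by positivity) (ρ j) (hZ j) zero_le_two).smul (w j)).congr e2).mono ?_
    refine le_trans ?_ (mul_le_mul_of_nonneg_right hW (by positivity : (0 : ℝ) ≤ 2 * P.eta))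
    rw [Finset.sum_mul]
    exact Finset.sum_le_sum fun j _ =>
      mul_le_mul_of_nonneg_left (mul_le_of_le_one_right (by positivity) (hρ1 j)) (abs_nonneg _)
  · intro x
    refine ((LC.sum Finset.univ _ (fun j => |w j| * (2 * P.eta * (0 + 2))) fun j _ =>
      (hcomp x j).smul (w j)).congr (e x)).mono ?_
    rw [← Finset.sum_mul]
    nlinarith [mul_le_mul_of_nonneg_right hW he.le]

lemma wbar_mean (hn : ∀ j, node j ≤ P.N) (hw : ∑ j, w j = 1) (hW : ∑ j, |w j| ≤ W) :
    ∫ x, ∫ ω, wsum P f node w (bridge d P.N P.h x ω) ∂pgam d P.N ∂gam d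
      = ∫ x, f x ∂gam d := by
  have he := hP.eta_pos
  have hW0 : 0 ≤ W := (Finset.sum_nonneg fun j _ => abs_nonneg (w j)).trans hW
  rw [← (int_bridge (good_h0 hP) (good_h1' hP)
    ((wsum_LC hP hf hW).int (by positivity))).2]
  exact wsum_mean hP hf hn hw

/-- K2: the conditional fluctuation of a weighted sum is invisible at first order. -/
lemma K2 (hn : ∀ j, node j ≤ P.N) (hW : ∑ j, |w j| ≤ W) {φ : EE d → ℝ} {Ψ : EE d → EE d}
    {b a : ℝ} (hT : Test φ Ψ b a) (s : EE d) :
    |(∫ ω, φ (pathW d P.N P.h P.N ω - wsum P f node w ω - s) ∂pgam d P.N)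
      - ∫ x, φ (x - (∫ ω, wsum P f node w (bridge d P.N P.h x ω) ∂pgam d P.N) - s) ∂gam d|
      ≤ 24 * (W ^ 2 * (a * (P.eta * Rf P f))) := by
  have he := hP.eta_pos
  have h0 := good_h0 hP
  have h1 := good_h1' hP
  have hW0 : 0 ≤ W := (Finset.sum_nonneg fun j _ => abs_nonneg (w j)).trans hW
  have ha := test_a_nonneg hT
  obtain ⟨hbar, hbr⟩ := wbar_LC hP hf hn hW
  set L := 2 * (W * (2 * P.eta)) with hL
  set Fb := fun x => ∫ ω, wsum P f node w (bridge d P.N P.h x ω) ∂pgam d P.N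
  have hU : LC (fun ω => pathW d P.N P.h P.N ω - wsum P f node w ω - s)
      (1 + W * (2 * P.eta) + 0) :=
    ((pathW_LC hP hf P.N).sub (wsum_LC hP hf hW)).sub (LC.const s)
  obtain ⟨hprod, heq⟩ := int_bridge h0 h1
    (test_int hT (hU.int (by positivity)) : Integrable (fun ω =>
      φ (pathW d P.N P.h P.N ω - wsum P f node w ω - s)) (pgam d P.N))
  simp only [bridge_end h0 h1] at heq hprod
  have hid : LC (fun x : EE d => x) 1 := ⟨contDiff_id, fun x y => by simp⟩
  have hright : Integrable (fun x => φ (x - Fb x - s)) (gam d) :=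
    test_int hT (((hid.sub hbar).sub (LC.const s)).int (by positivity))
  have hleft : Integrable
      (fun x => ∫ ω, φ (x - wsum P f node w (bridge d P.N P.h x ω) - s) ∂pgam d P.N) (gam d) :=
    hprod.integral_prod_left
  rw [heq, ← integral_sub hleft hright]
  rw [← Real.norm_eq_abs]
  refine (norm_integral_le_of_norm_le_const (μ := gam d) (C := 24 * (W ^ 2 * (a * (P.eta * Rf P f))))
    (Filter.Eventually.of_forall fun x => ?_)).trans (le_of_eq (by rw [probReal_univ, mul_one]))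
  have hD : LC (fun ω => Fb x - wsum P f node w (bridge d P.N P.h x ω)) (0 + L) :=
    (LC.const (Fb x)).sub (hbr x)
  have h := interp hT (LC.const (x - Fb x - s)) le_rfl hD (by positivity)
  have hmean : ∫ ω, (Fb x - wsum P f node w (bridge d P.N P.h x ω)) ∂pgam d P.N = 0 := by
    rw [integral_sub (integrable_const _) ((hbr x).int (by positivity))]
    simp [Fb]
  have hvar := var_lipschitz _ _ hD.cd (hD.fderiv_le (by positivity))
  rw [hmean] at h hvar
  simp only [norm_zero, mul_zero, zero_add, sub_zero] at h hvar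
  rw [Real.norm_eq_abs]
  calc |(∫ ω, φ (x - wsum P f node w (bridge d P.N P.h x ω) - s) ∂pgam d P.N)
        - φ (x - Fb x - s)|
      ≤ 2 * a * L * Real.sqrt (∫ ω, ‖Fb x - wsum P f node w (bridge d P.N P.h x ω)‖ ^ 2
          ∂pgam d P.N) := by
        refine le_trans (le_of_eq ?_) h
        simp only [integral_const, probReal_univ, one_smul]
        congr 2
        refine integral_congr_ae (Filter.Eventually.of_forall fun ω => ?_)
        dsimp only
        congr 1
        abel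
    _ ≤ 2 * a * L * (3 / 2 * (Real.sqrt d * L)) := by
        gcongr
        rw [Real.sqrt_le_iff]
        refine ⟨by positivity, hvar.trans ?_⟩
        have e : (3 / 2 * (Real.sqrt d * L)) ^ 2 = 9 / 4 * (d * L ^ 2) := by
          rw [mul_pow, mul_pow, Real.sq_sqrt (Nat.cast_nonneg d)]; norm_num
        rw [e]
        nlinarith [mul_nonneg (Nat.cast_nonneg (α := ℝ) d) (sq_nonneg L)]
    _ = 24 * (W ^ 2 * (a * (P.eta * (2 * P.eta * Real.sqrt d)))) := by rw [hL]; ring
    _ ≤ _ := by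
        gcongr
        exact le_add_of_nonneg_right (norm_nonneg _)

end WSum

section Err
variable (e0 : EE d)

lemma err_LC : ∀ k, LC (fun ω : Path d P.N => err P.h f e0 (pw d P.N P.h ω) k) 1
  | 0 => (LC.const e0).mono zero_le_one
  | k + 1 => by
      have he := hP.eta_pos
      have hh := good_h0 hP
      refine (((err_LC k).smul (1 - P.h)).sub ((hf.comp ((pathW_LC hP hf k).add (err_LC k))
        (by positivity)).smul P.h)).mono ?_
      rw [abs_of_nonneg (by linarith [good_h1' hP]), abs_of_nonneg hh]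
      nlinarith [mul_le_mul_of_nonneg_left hP.eta_le hh]

lemma Xc_LC (k : ℕ) : LC (Xc d P.N P.h f e0 k) 2 :=
  ((pathW_LC hP hf k).add (err_LC hP hf e0 k)).mono (by norm_num)

lemma err_sq : ∀ k, k ≤ P.N →
    ∫ ω, ‖err P.h f e0 (pw d P.N P.h ω) k‖ ^ 2 ∂pgam d P.N
      ≤ (1 - 7 * P.h / 8) ^ k * ‖e0‖ ^ 2 + 4 * Rf P f ^ 2
  | 0, _ => by
      simp only [err, integral_const, probReal_univ, one_smul, pow_zero, one_mul]
      nlinarith [sq_nonneg (Rf P f)]
  | k + 1, hk => by
      have he := hP.eta_pos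
      have hh := good_h0 hP
      have hh1 := good_h1 hP
      have hA : 0 ≤ 1 - 7 * P.h / 8 := by linarith
      set e := fun ω : Path d P.N => err P.h f e0 (pw d P.N P.h ω) k
      set g := fun ω : Path d P.N => f (pathW d P.N P.h k ω)
      have hi1 := ((err_LC hP hf e0 k).int_sq zero_le_one).const_mul (1 - 7 * P.h / 8)
      have hi2 := ((f_path_LC hP hf k).int_sq (by positivity)).const_mul (8 * P.h / 7)
      refine (integral_mono ((err_LC hP hf e0 (k + 1)).int_sq zero_le_one) (hi1.add hi2)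
        fun ω => ?_).trans ?_
      · simp only [Pi.add_apply]
        have hl : ‖f (pathW d P.N P.h k ω + e ω)‖ ≤ ‖g ω‖ + 2 * P.eta * ‖e ω‖ := by
          have := hf.lip (pathW d P.N P.h k ω + e ω) (pathW d P.N P.h k ω)
          rw [add_sub_cancel_left] at this
          have := norm_le_norm_add_norm_sub' (f (pathW d P.N P.h k ω + e ω)) (g ω)
          linarith
        have hstep : ‖err P.h f e0 (pw d P.N P.h ω) (k + 1)‖
            ≤ (1 - 7 * P.h / 8) * ‖e ω‖ + P.h * ‖g ω‖ := by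
          simp only [err, pw]
          refine (norm_sub_le _ _).trans ?_
          rw [norm_smul, norm_smul, Real.norm_eq_abs, Real.norm_eq_abs,
            abs_of_nonneg (by linarith : (0 : ℝ) ≤ 1 - P.h), abs_of_nonneg hh]
          have h2 := mul_le_mul_of_nonneg_left hl hh
          have h3 : P.h * (2 * P.eta * ‖e ω‖) ≤ P.h * (1 / 8 * ‖e ω‖) := by
            gcongr; linarith [hP.eta_le]
          simp only [e, pw] at h2 h3 ⊢
          linarith
        refine (pow_le_pow_left₀ (norm_nonneg _) hstep 2).trans ?_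
        have key : 0 ≤ (1 - 7 * P.h / 8) * (8 * P.h / 7) * (7 / 8 * ‖e ω‖ - ‖g ω‖) ^ 2 := by
          positivity
        nlinarith
      · simp only [Pi.add_apply]
        rw [integral_add hi1 hi2, integral_const_mul, integral_const_mul]
        have ih := mul_le_mul_of_nonneg_left (err_sq k (by omega)) hA
        have h4 := mul_le_mul_of_nonneg_left (f_path_sq hP hf (k := k) (by omega))
          (by linarith : (0 : ℝ) ≤ 8 * P.h / 7)
        rw [pow_succ']
        nlinarith [mul_nonneg hh (sq_nonneg (Rf P f))]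

omit hf in
lemma tau_le_one : tau P ≤ 1 := by
  rw [tau, Real.exp_le_one_iff]
  have : 0 ≤ P.h * P.N := mul_nonneg (good_h0 hP) (Nat.cast_nonneg _)
  linarith

omit hP hf in
lemma tau_pos : 0 < tau P := Real.exp_pos _

omit hf in
lemma pow_A_le : (1 - 7 * P.h / 8) ^ P.N ≤ tau P ^ 2 * Real.exp (-(3 * (P.h * P.N) / 8)) := by
  have h1 := good_h1 hP
  refine (pow_le_pow_left₀ (by linarith) (Real.one_sub_le_exp_neg _) _).trans (le_of_eq ?_)
  rw [← Real.exp_nat_mul, tau, ← Real.exp_nat_mul, ← Real.exp_add]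
  congr 1
  push_cast
  ring

omit hf in
lemma pow_A_le' : (1 - 7 * P.h / 8) ^ P.N ≤ tau P ^ 2 := by
  refine (pow_A_le hP).trans (mul_le_of_le_one_right (by positivity) ?_)
  rw [Real.exp_le_one_iff]
  have : 0 ≤ P.h * P.N := mul_nonneg (good_h0 hP) (Nat.cast_nonneg _)
  linarith

omit hf in
lemma pow_a_le : (1 - P.h) ^ P.N ≤ tau P ^ 2 := by
  have := good_h0 hP
  refine (pow_le_pow_left₀ (by linarith [good_h1' hP]) ?_ _).trans (pow_A_le' hP)
  linarith

omit hf in
/-- The fine weights against geometric forgetting. -/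
lemma weight_forget :
    ∑ j ∈ Finset.range P.N, P.h * (1 - P.h) ^ (P.N - 1 - j) * (1 - 7 * P.h / 8) ^ j
      ≤ 6 * tau P ^ 2 := by
  have hh := good_h0 hP
  have h1 := good_h1 hP
  set A := 1 - 7 * P.h / 8 with hA
  have hA0 : (1 : ℝ) / 2 ≤ A := by linarith
  calc ∑ j ∈ Finset.range P.N, P.h * (1 - P.h) ^ (P.N - 1 - j) * A ^ j
      ≤ ∑ _j ∈ Finset.range P.N, P.h * (2 * A ^ P.N) := by
        refine Finset.sum_le_sum fun j hj => ?_
        have hj' := Finset.mem_range.1 hj
        rw [mul_assoc]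
        refine mul_le_mul_of_nonneg_left ?_ hh
        calc (1 - P.h) ^ (P.N - 1 - j) * A ^ j ≤ A ^ (P.N - 1 - j) * A ^ j := by
              have : 1 - P.h ≤ A := by linarith
              have : (0 : ℝ) ≤ 1 - P.h := by linarith
              gcongr
          _ = A ^ (P.N - 1) := by rw [← pow_add]; congr 1; omega
          _ ≤ 2 * A * A ^ (P.N - 1) := le_mul_of_one_le_left (by positivity) (by linarith)
          _ = 2 * A ^ P.N := by
              rw [mul_assoc, ← pow_succ']; congr 2; omega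
    _ = 2 * (P.h * P.N) * A ^ P.N := by simp; ring
    _ ≤ 2 * (P.h * P.N) * (tau P ^ 2 * Real.exp (-(3 * (P.h * P.N) / 8))) := by
        gcongr; exact pow_A_le hP
    _ ≤ _ := by
        have hexp := Real.add_one_le_exp (3 * (P.h * P.N) / 8)
        have hpos := Real.exp_pos (3 * (P.h * P.N) / 8)
        rw [Real.exp_neg]
        rw [show 2 * (P.h * P.N) * (tau P ^ 2 * (Real.exp (3 * (P.h * P.N) / 8))⁻¹)
          = tau P ^ 2 * (2 * (P.h * P.N) / Real.exp (3 * (P.h * P.N) / 8)) by ring,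
          mul_comm (6 : ℝ)]
        refine mul_le_mul_of_nonneg_left ?_ (by positivity)
        rw [div_le_iff₀ hpos]
        linarith

lemma EB_nonneg : 0 ≤ EB P f e0 := by
  have := hP.eta_pos
  have := Rf_nonneg hP hf
  have := tau_pos (P := P)
  unfold EB
  positivity

/-- K1: the distance of the chain to its linearisation. -/
lemma delta_sq :
    Real.sqrt (∫ ω, ‖err P.h f e0 (pw d P.N P.h ω) P.N + Bsum P f ω‖ ^ 2 ∂pgam d P.N)
      ≤ 8 * EB P f e0 := by
  have he := hP.eta_pos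
  have hh := good_h0 hP
  have h1 := good_h1' hP
  have hR := Rf_nonneg hP hf
  set N := P.N
  set c : ℕ → ℝ := fun j => P.h * (1 - P.h) ^ (N - 1 - j) with hc
  set q := (1 - P.h) ^ N
  have hq0 : 0 ≤ q := pow_nonneg (by linarith) _
  have hc0 : ∀ j, 0 ≤ c j := fun j => mul_nonneg hh (pow_nonneg (by linarith) _)
  have hcsum : ∑ j ∈ Finset.range N, |c j| ≤ 1 := by
    rw [Finset.sum_congr rfl (fun j _ => abs_of_nonneg (hc0 j))]
    simp only [hc]
    rw [geo_weights]
    linarith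
  have hpt : ∀ ω, ‖err P.h f e0 (pw d N P.h ω) N + Bsum P f ω‖ ^ 2 ≤
      3 * q ^ 2 * ‖e0‖ ^ 2 + 3 * q ^ 2 * ‖f (pathW d N P.h 0 ω)‖ ^ 2 +
        12 * P.eta ^ 2 * ∑ j ∈ Finset.range N, c j * ‖err P.h f e0 (pw d N P.h ω) j‖ ^ 2 := by
    intro ω
    have e : err P.h f e0 (pw d N P.h ω) N + Bsum P f ω = q • e0 + q • f (pathW d N P.h 0 ω)
        + ∑ j ∈ Finset.range N, c j •
          (f (pathW d N P.h j ω) - f (pathW d N P.h j ω + err P.h f e0 (pw d N P.h ω) j)) := by
      rw [err_closed]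
      simp only [Bsum, smul_sub, Finset.sum_sub_distrib, pw, hc, q, N]
      abel
    rw [e]
    refine (pow_le_pow_left₀ (norm_nonneg _) (norm_add₃_le) 2).trans ?_
    have key : ∀ x y z : ℝ, (x + y + z) ^ 2 ≤ 3 * x ^ 2 + 3 * y ^ 2 + 3 * z ^ 2 := fun x y z => by
      nlinarith [sq_nonneg (x - y), sq_nonneg (y - z), sq_nonneg (z - x)]
    refine (key _ _ _).trans ?_
    rw [norm_smul, norm_smul, Real.norm_eq_abs, abs_of_nonneg hq0, mul_pow, mul_pow]
    refine add_le_add (by linarith) ?_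
    calc 3 * ‖∑ j ∈ Finset.range N, c j • (f (pathW d N P.h j ω)
          - f (pathW d N P.h j ω + err P.h f e0 (pw d N P.h ω) j))‖ ^ 2
        ≤ 3 * ((∑ j ∈ Finset.range N, |c j|) * ∑ j ∈ Finset.range N, |c j| *
            ‖f (pathW d N P.h j ω)
              - f (pathW d N P.h j ω + err P.h f e0 (pw d N P.h ω) j)‖ ^ 2) := by
          gcongr; exact sum_smul_sq_le _ c _
      _ ≤ 3 * (1 * ∑ j ∈ Finset.range N, c j *
            ((2 * P.eta) * ‖err P.h f e0 (pw d N P.h ω) j‖) ^ 2) := by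
          refine mul_le_mul_of_nonneg_left (mul_le_mul hcsum (Finset.sum_le_sum fun j _ => ?_)
            (Finset.sum_nonneg fun j _ => by positivity) zero_le_one) (by norm_num)
          rw [abs_of_nonneg (hc0 j)]
          refine mul_le_mul_of_nonneg_left (pow_le_pow_left₀ (norm_nonneg _) ?_ 2) (hc0 j)
          refine (hf.lip _ _).trans (le_of_eq ?_)
          rw [sub_add_cancel_left, norm_neg]
      _ = _ := by
          rw [one_mul, Finset.mul_sum, Finset.mul_sum]
          exact Finset.sum_congr rfl fun j _ => by ring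
  have hi : ∀ j, Integrable (fun ω => c j * ‖err P.h f e0 (pw d N P.h ω) j‖ ^ 2) (pgam d N) :=
    fun j => ((err_LC hP hf e0 j).int_sq zero_le_one).const_mul _
  have hiA : Integrable (fun ω => 3 * q ^ 2 * ‖f (pathW d N P.h 0 ω)‖ ^ 2) (pgam d N) :=
    ((f_path_LC hP hf 0).int_sq (by positivity)).const_mul _
  have hiB : Integrable (fun ω => 12 * P.eta ^ 2 *
      ∑ j ∈ Finset.range N, c j * ‖err P.h f e0 (pw d N P.h ω) j‖ ^ 2) (pgam d N) :=
    (integrable_finsetSum _ fun j _ => hi j).const_mul _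
  have hiAB : Integrable (fun ω => 3 * q ^ 2 * ‖e0‖ ^ 2
      + 3 * q ^ 2 * ‖f (pathW d N P.h 0 ω)‖ ^ 2) (pgam d N) := (integrable_const _).add hiA
  have hD : LC (fun ω => err P.h f e0 (pw d N P.h ω) N + Bsum P f ω) (1 + 1 * (2 * P.eta)) :=
    (err_LC hP hf e0 N).add ((wsum_LC hP hf (node := bnode P)
      (bw_abs hh h1).le).congr fun ω => bsum_eq ω)
  have hsq : ∫ ω, ‖err P.h f e0 (pw d N P.h ω) N + Bsum P f ω‖ ^ 2 ∂pgam d N ≤
      3 * q ^ 2 * ‖e0‖ ^ 2 + 3 * q ^ 2 * (2 * Rf P f ^ 2)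
        + 12 * P.eta ^ 2 * (6 * tau P ^ 2 * ‖e0‖ ^ 2 + 4 * Rf P f ^ 2) := by
    refine (integral_mono (hD.int_sq (by positivity)) (hiAB.add hiB) hpt).trans ?_
    simp only [Pi.add_apply]
    rw [integral_add hiAB hiB, integral_add (integrable_const _) hiA, integral_const,
      probReal_univ, one_smul, integral_const_mul, integral_const_mul,
      integral_finsetSum _ fun j _ => hi j]
    simp only [integral_const_mul]
    gcongr
    · exact f_path_sq hP hf (Nat.zero_le _)
    · calc ∑ j ∈ Finset.range N, c j * ∫ ω, ‖err P.h f e0 (pw d N P.h ω) j‖ ^ 2 ∂pgam d N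
          ≤ ∑ j ∈ Finset.range N,
              c j * ((1 - 7 * P.h / 8) ^ j * ‖e0‖ ^ 2 + 4 * Rf P f ^ 2) := by
            exact Finset.sum_le_sum fun j hj => mul_le_mul_of_nonneg_left
              (err_sq hP hf e0 j (Finset.mem_range.1 hj).le) (hc0 j)
        _ = (∑ j ∈ Finset.range N, c j * (1 - 7 * P.h / 8) ^ j) * ‖e0‖ ^ 2
              + (∑ j ∈ Finset.range N, c j) * (4 * Rf P f ^ 2) := by
            simp only [Finset.sum_mul, ← Finset.sum_add_distrib]
            exact Finset.sum_congr rfl fun j _ => by ring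
        _ ≤ _ := by
            refine add_le_add (mul_le_mul_of_nonneg_right (weight_forget hP) (by positivity))
              (mul_le_of_le_one_left (by positivity) ?_)
            rwa [Finset.sum_congr rfl (fun j _ => abs_of_nonneg (hc0 j))] at hcsum
  rw [Real.sqrt_le_iff]
  refine ⟨by linarith [EB_nonneg hP hf e0], hsq.trans ?_⟩
  have hq : q ^ 2 ≤ tau P ^ 2 := by
    refine (pow_le_pow_left₀ hq0 ((pow_a_le hP).trans ?_) 2)
    exact pow_le_of_le_one tau_pos.le (tau_le_one hP) two_ne_zero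
  have ht := tau_pos (P := P)
  have he2 : P.eta ^ 2 ≤ 1 / 256 := by nlinarith [hP.eta_le]
  set T := tau P * (‖e0‖ + Rf P f) with hT
  set M := P.eta * Rf P f with hM
  have hT0 : 0 ≤ T := by positivity
  have hM0 : 0 ≤ M := by positivity
  have h6 : EB P f e0 = M + T := rfl
  have a1 : tau P ^ 2 * ‖e0‖ ^ 2 ≤ T ^ 2 := by
    rw [hT, mul_pow]
    gcongr
    linarith [hR]
  have a2 : tau P ^ 2 * Rf P f ^ 2 ≤ T ^ 2 := by
    rw [hT, mul_pow]
    gcongr
    linarith [norm_nonneg e0]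
  have a3 : q ^ 2 * ‖e0‖ ^ 2 ≤ T ^ 2 := (mul_le_mul_of_nonneg_right hq (by positivity)).trans a1
  have a4 : q ^ 2 * Rf P f ^ 2 ≤ T ^ 2 := (mul_le_mul_of_nonneg_right hq (by positivity)).trans a2
  have a5 : P.eta ^ 2 * (tau P ^ 2 * ‖e0‖ ^ 2) ≤ 1 / 256 * T ^ 2 :=
    mul_le_mul he2 a1 (by positivity) (by norm_num)
  have a6 : P.eta ^ 2 * Rf P f ^ 2 = M ^ 2 := by rw [hM]; ring
  rw [h6]
  nlinarith [mul_nonneg hM0 hT0]

lemma delta_mean : ∫ ω, (err P.h f e0 (pw d P.N P.h ω) P.N + Bsum P f ω) ∂pgam d P.N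
    = (∫ ω, Xc d P.N P.h f e0 P.N ω ∂pgam d P.N) + ∫ x, f x ∂gam d := by
  have he := hP.eta_pos
  have hh := good_h0 hP
  have h1 := good_h1' hP
  have hW : ∫ ω, pathW d P.N P.h P.N ω ∂pgam d P.N = 0 := by
    rw [(pathW d P.N P.h P.N).integral_comp_id_comm IsGaussian.integrable_id,
      integral_id_stdGaussian, map_zero]
  have hB : LC (wsum P f (bnode P) (bw P)) (1 * (2 * P.eta)) :=
    wsum_LC hP hf (bw_abs hh h1).le
  simp only [bsum_eq, Xc]
  rw [integral_add ((err_LC hP hf e0 P.N).int zero_le_one) (hB.int (by positivity)),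
    wsum_mean hP hf bnode_le bw_sum,
    integral_add ((pathW_LC hP hf P.N).int zero_le_one)
      ((err_LC hP hf e0 P.N).int zero_le_one), hW, zero_add]

/-- K1-K3: the quadrature point against the end of the chain. -/
lemma compare (hδ : 0 ≤ δ) {φ : EE d → ℝ} {Ψ : EE d → EE d} {b a : ℝ} (hT : Test φ Ψ b a)
    (s : EE d) :
    |(∫ ω, φ (pathW d P.N P.h P.N ω - Asum P f ω - s) ∂pgam d P.N)
        - ∫ ω, φ (Xc d P.N P.h f e0 P.N ω) ∂pgam d P.N|
      ≤ b * ‖(∫ ω, Xc d P.N P.h f e0 P.N ω ∂pgam d P.N) + (∫ x, f x ∂gam d) + s‖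
        + 150 * ((1 + Cw) ^ 2 * (a * (EB P f e0 + δ * Rf P f))) := by
  have he := hP.eta_pos
  have he1 := hP.eta_le
  have hh := good_h0 hP
  have h1 := good_h1' hP
  have hCw := good_Cw hP
  have ha := test_a_nonneg hT
  have hR := Rf_nonneg hP hf
  have hE := EB_nonneg hP hf e0
  have hRE : P.eta * Rf P f ≤ EB P f e0 :=
    le_add_of_nonneg_right (mul_nonneg tau_pos.le (add_nonneg (norm_nonneg _) hR))
  -- the four comparisons
  have s1 := K2 hP hf (node := P.node) (w := P.w) hP.node_le hP.w_abs hT s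
  have s3 := K2 hP hf (node := bnode P) (w := bw P) bnode_le (bw_abs hh h1).le hT s
  rw [show (fun ω => φ (pathW d P.N P.h P.N ω - wsum P f (bnode P) (bw P) ω - s))
    = fun ω => φ (pathW d P.N P.h P.N ω - Bsum P f ω - s) from funext fun ω => by rw [bsum_eq]] at s3
  have hAb : LC (Abar P f) (Cw * (2 * P.eta)) :=
    (wbar_LC hP hf (node := P.node) (w := P.w) hP.node_le hP.w_abs).1
  have eBb : ∀ x, Bbar P f x
      = ∫ ω, wsum P f (bnode P) (bw P) (bridge d P.N P.h x ω) ∂pgam d P.N := fun x => by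
    simp only [Bbar, bsum_eq]
  have hBb : LC (Bbar P f) (1 * (2 * P.eta)) :=
    (wbar_LC hP hf (node := bnode P) bnode_le (bw_abs hh h1).le).1.congr eBb
  have hid : LC (fun x : EE d => x) 1 := ⟨contDiff_id, fun x y => by simp⟩
  have hmean : ∫ x, (Abar P f x - Bbar P f x) ∂gam d = 0 := by
    rw [integral_sub (hAb.int (by positivity)) (hBb.int (by positivity))]
    simp only [eBb]
    rw [wbar_mean hP hf bnode_le bw_sum (bw_abs hh h1).le]
    rw [show (∫ x, Abar P f x ∂gam d) = ∫ x, f x ∂gam d from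
      wbar_mean hP hf (node := P.node) (w := P.w) hP.node_le hP.w_sum hP.w_abs, sub_self]
  have s2 := interp hT ((hid.sub hAb).sub (LC.const s)) (by positivity)
    (hAb.sub hBb) (by positivity)
  rw [hmean] at s2
  simp only [norm_zero, mul_zero, zero_add, sub_zero] at s2
  have hq : Real.sqrt (∫ x, ‖Abar P f x - Bbar P f x‖ ^ 2 ∂gam d) ≤ δ * Rf P f := by
    rw [Real.sqrt_le_iff]
    exact ⟨by positivity, hP.quad f (2 * P.eta) (by positivity) hf.lip⟩
  have hU4 : LC (fun ω => pathW d P.N P.h P.N ω - Bsum P f ω - s) (1 + 1 * (2 * P.eta) + 0) :=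
    ((pathW_LC hP hf P.N).sub ((wsum_LC hP hf (node := bnode P)
      (bw_abs hh h1).le).congr fun ω => bsum_eq ω)).sub (LC.const s)
  have hD4 : LC (fun ω => err P.h f e0 (pw d P.N P.h ω) P.N + Bsum P f ω + s)
      (1 + 1 * (2 * P.eta) + 0) :=
    ((err_LC hP hf e0 P.N).add ((wsum_LC hP hf (node := bnode P)
      (bw_abs hh h1).le).congr fun ω => bsum_eq ω)).add (LC.const s)
  have s4 := interp hT hU4 (by positivity) hD4 (by positivity)
  have hDB : LC (fun ω => err P.h f e0 (pw d P.N P.h ω) P.N + Bsum P f ω) (1 + 1 * (2 * P.eta)) :=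
    (err_LC hP hf e0 P.N).add ((wsum_LC hP hf (node := bnode P)
      (bw_abs hh h1).le).congr fun ω => bsum_eq ω)
  have hm4 : ∫ ω, (err P.h f e0 (pw d P.N P.h ω) P.N + Bsum P f ω + s) ∂pgam d P.N
      = (∫ ω, Xc d P.N P.h f e0 P.N ω ∂pgam d P.N) + (∫ x, f x ∂gam d) + s := by
    rw [integral_add (hDB.int (by positivity)) (integrable_const _), delta_mean hP hf e0,
      integral_const, probReal_univ, one_smul]
  have hv4 : Real.sqrt (∫ ω, ‖err P.h f e0 (pw d P.N P.h ω) P.N + Bsum P f ω + s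
      - ∫ ω', (err P.h f e0 (pw d P.N P.h ω') P.N + Bsum P f ω' + s) ∂pgam d P.N‖ ^ 2 ∂pgam d P.N)
      ≤ 8 * EB P f e0 := by
    refine le_trans (Real.sqrt_le_sqrt (le_trans (le_of_eq ?_)
      (var_le (hDB.memLp (by positivity))))) (delta_sq hP hf e0)
    rw [hm4, delta_mean hP hf e0]
    refine integral_congr_ae (Filter.Eventually.of_forall fun ω => ?_)
    dsimp only
    congr 2
    abel
  rw [hm4] at s4
  rw [show (fun ω => φ (pathW d P.N P.h P.N ω - Bsum P f ω - s
      + (err P.h f e0 (pw d P.N P.h ω) P.N + Bsum P f ω + s)))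
    = fun ω => φ (Xc d P.N P.h f e0 P.N ω) from funext fun ω => by
      congr 1; simp only [Xc]; abel] at s4
  -- assembly
  have b1 : 24 * (Cw ^ 2 * (a * (P.eta * Rf P f)))
      ≤ 24 * ((1 + Cw) ^ 2 * (a * (EB P f e0 + δ * Rf P f))) := by
    have := mul_nonneg hδ hR
    gcongr <;> linarith
  have b3 : 24 * (1 ^ 2 * (a * (P.eta * Rf P f)))
      ≤ 24 * ((1 + Cw) ^ 2 * (a * (EB P f e0 + δ * Rf P f))) := by
    have := mul_nonneg hδ hR
    gcongr <;> linarith
  have hsq : 1 + Cw ≤ (1 + Cw) ^ 2 := by nlinarith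
  have b2 : 2 * a * (1 + Cw * (2 * P.eta) + 0 + (Cw * (2 * P.eta) + 1 * (2 * P.eta))) *
      Real.sqrt (∫ x, ‖Abar P f x - Bbar P f x‖ ^ 2 ∂gam d)
      ≤ 4 * ((1 + Cw) ^ 2 * (a * (EB P f e0 + δ * Rf P f))) := by
    calc _ ≤ 2 * a * (2 * (1 + Cw) ^ 2) * (δ * Rf P f) := by
          gcongr
          nlinarith
      _ = 4 * ((1 + Cw) ^ 2 * (a * (δ * Rf P f))) := by ring
      _ ≤ _ := by gcongr; linarith
  have b4 : 2 * a * (1 + 1 * (2 * P.eta) + 0 + (1 + 1 * (2 * P.eta) + 0)) *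
      Real.sqrt (∫ ω, ‖err P.h f e0 (pw d P.N P.h ω) P.N + Bsum P f ω + s
        - ((∫ ω, Xc d P.N P.h f e0 P.N ω ∂pgam d P.N) + (∫ x, f x ∂gam d) + s)‖ ^ 2 ∂pgam d P.N)
      ≤ 64 * ((1 + Cw) ^ 2 * (a * (EB P f e0 + δ * Rf P f))) := by
    rw [← hm4]
    calc _ ≤ 2 * a * 4 * (8 * EB P f e0) := by gcongr; linarith
      _ = 64 * (1 * (a * EB P f e0)) := by ring
      _ ≤ _ := by
          have := mul_nonneg hδ hR
          gcongr <;> nlinarith
  have hpos : 0 ≤ (1 + Cw) ^ 2 * (a * (EB P f e0 + δ * Rf P f)) := by positivity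
  have s1' : |(∫ ω, φ (pathW d P.N P.h P.N ω - Asum P f ω - s) ∂pgam d P.N)
      - ∫ x, φ (x - Abar P f x - s) ∂gam d| ≤ 24 * (Cw ^ 2 * (a * (P.eta * Rf P f))) := s1
  rw [abs_le] at s1' s2 s3 s4
  rw [show (fun x => φ (x - (∫ ω, wsum P f (bnode P) (bw P) (bridge d P.N P.h x ω) ∂pgam d P.N)
      - s)) = fun x => φ (x - Bbar P f x - s) from funext fun x => by rw [eBb]] at s3
  rw [show (fun x => φ (x - Abar P f x - s + (Abar P f x - Bbar P f x)))
    = fun x => φ (x - Bbar P f x - s) from funext fun x => by congr 1; abel] at s2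
  rw [abs_le]
  constructor <;> linarith

end Err

end K

end Vale.Agent.P347
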