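import Vale.Agent.P347.QuadSeq

/-!
Module 3b (quadrature, operator part): differences of the orbit of the square of a symmetric
contraction decay like powers of the step number.
-/

open Finset Polynomial
open scoped RealInnerProductSpace

namespace Vale.Agent.P347

variable {H : Type*} [NormedAddCommGroup H] [InnerProductSpace ℝ H]
variable {V : Type*} [AddCommGroup V] [Module ℝ V]
variable (J : V →ₗ[ℝ] H) (S : V →ₗ[ℝ] V)

/-- The pairing of f with a polynomial in S applied to f. -/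
noncomputable def qphi (f : V) (q : ℝ[X]) : ℝ := ⟪J f, J (aeval S q f)⟫

/-- The m-th alternating difference of the autocorrelation at k. -/
noncomputable def qcor (f : V) (m k : ℕ) : ℝ := qphi J S f ((1 - X ^ 2) ^ m * X ^ (2 * k))

lemma qphi_sub (f : V) (a b : ℝ[X]) : qphi J S f (a - b) = qphi J S f a - qphi J S f b := by
  simp [qphi, map_sub, inner_sub_right]

lemma qsymm (hs : ∀ u v, ⟪J (S u), J v⟫ = ⟪J u, J (S v)⟫) (q : ℝ[X]) (u v : V) :
    ⟪J (aeval S q u), J v⟫ = ⟪J u, J (aeval S q v)⟫ := by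
  induction q using Polynomial.induction_on' generalizing u v with
  | add a b ha hb => simp [map_add, inner_add_left, inner_add_right, ha, hb]
  | monomial n c =>
    have hpow : ∀ n u v, ⟪J ((S ^ n) u), J v⟫ = ⟪J u, J ((S ^ n) v)⟫ := by
      intro n
      induction n with
      | zero => simp
      | succ n ih =>
        intro u v
        calc ⟪J ((S ^ (n + 1)) u), J v⟫ = ⟪J ((S ^ n) (S u)), J v⟫ := by
              rw [pow_succ, Module.End.mul_apply]
          _ = ⟪J u, J (S ((S ^ n) v))⟫ := by rw [ih, hs]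
          _ = _ := by rw [pow_succ', Module.End.mul_apply]
    simp [aeval_monomial, Module.algebraMap_end_apply, Module.End.mul_apply,
      inner_smul_left, inner_smul_right, hpow]

lemma qphi_sq (hs : ∀ u v, ⟪J (S u), J v⟫ = ⟪J u, J (S v)⟫) (f : V) (a : ℝ[X]) :
    qphi J S f (a * a) = ‖J (aeval S a f)‖ ^ 2 := by
  rw [qphi, map_mul, Module.End.mul_apply, ← qsymm J S hs, real_inner_self_eq_norm_sq]

lemma qcor_nonneg (hs : ∀ u v, ⟪J (S u), J v⟫ = ⟪J u, J (S v)⟫)
    (hc : ∀ u, ‖J (S u)‖ ≤ ‖J u‖) (f : V) (m k : ℕ) : 0 ≤ qcor J S f m k := by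
  obtain ⟨n, rfl | rfl⟩ : ∃ n, m = 2 * n ∨ m = 2 * n + 1 :=
    ⟨m / 2, by omega⟩
  · rw [qcor, show ((1 - X ^ 2) ^ (2 * n) * X ^ (2 * k) : ℝ[X]) =
      ((1 - X ^ 2) ^ n * X ^ k) * ((1 - X ^ 2) ^ n * X ^ k) by ring, qphi_sq J S hs]
    exact sq_nonneg _
  · set a : ℝ[X] := (1 - X ^ 2) ^ n * X ^ k
    rw [qcor, show ((1 - X ^ 2) ^ (2 * n + 1) * X ^ (2 * k) : ℝ[X]) =
      a * a - (X * a) * (X * a) by simp only [a]; ring, qphi_sub, qphi_sq J S hs f a,
      qphi_sq J S hs f (X * a), map_mul (aeval S) X a, aeval_X, Module.End.mul_apply, sub_nonneg]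
    exact pow_le_pow_left₀ (norm_nonneg _) (hc _) 2

lemma qcor_succ (f : V) (m k : ℕ) :
    qcor J S f (m + 1) k = qcor J S f m k - qcor J S f m (k + 1) := by
  rw [qcor, qcor, qcor, ← qphi_sub]
  congr 1
  ring

/-- Alternating differences of the autocorrelation decay polynomially. -/
theorem qcor_bound (m : ℕ) : ∃ C : ℝ, 0 < C ∧
    ∀ (H : Type) [NormedAddCommGroup H] [InnerProductSpace ℝ H]
      (V : Type) [AddCommGroup V] [Module ℝ V] (J : V →ₗ[ℝ] H) (S : V →ₗ[ℝ] V),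
      (∀ u v, ⟪J (S u), J v⟫ = ⟪J u, J (S v)⟫) → (∀ u, ‖J (S u)‖ ≤ ‖J u‖) →
      ∀ (f : V) (k : ℕ), (k : ℝ) ^ m * qcor J S f m k ≤ C * ‖J f‖ ^ 2 := by
  induction m with
  | zero =>
    refine ⟨1, one_pos, fun H _ _ V _ _ J S hs hc f k => ?_⟩
    have hdec : ∀ k, qcor J S f 0 k ≤ ‖J f‖ ^ 2 := by
      intro k
      induction k with
      | zero => simp [qcor, qphi, real_inner_self_eq_norm_sq]
      | succ k ih =>
        have := qcor_nonneg J S hs hc f 1 k
        rw [qcor_succ] at this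
        linarith
    simpa using hdec k
  | succ m ih =>
    obtain ⟨C, hC, hb⟩ := ih
    refine ⟨2 * 3 ^ m * C + 1, by positivity, fun H _ _ V _ _ J S hs hc f k => ?_⟩
    have hb' := hb H V J S hs hc f
    have hanti : Antitone (qcor J S f (m + 1)) := antitone_nat_of_succ_le fun j => by
      have := qcor_nonneg J S hs hc f (m + 2) j
      rw [qcor_succ] at this
      linarith
    have hN := qcor_nonneg J S hs hc f
    have hzero : ∀ r, qcor J S f r 0 ≤ ‖J f‖ ^ 2 := by
      intro r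
      induction r with
      | zero => simp [qcor, qphi, real_inner_self_eq_norm_sq]
      | succ r ih' => rw [qcor_succ]; linarith [hN r 1]
    have hgoal0 : 0 ≤ 2 * 3 ^ m * C * ‖J f‖ ^ 2 := by positivity
    rcases Nat.lt_or_ge k 2 with hk | hk
    · rcases Nat.lt_or_ge k 1 with hk0 | hk1
      · have : k = 0 := by omega
        subst this
        simp only [Nat.cast_zero, zero_pow (Nat.succ_ne_zero m), zero_mul]
        positivity
      · have : k = 1 := by omega
        subst this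
        simp only [Nat.cast_one, one_pow, one_mul]
        have h1 : qcor J S f (m + 1) 1 ≤ qcor J S f (m + 1) 0 := hanti (Nat.zero_le 1)
        nlinarith [hzero (m + 1)]
    · set j := k / 2 with hj
      have htel : ((k - j : ℕ) : ℝ) * qcor J S f (m + 1) k ≤ qcor J S f m j := by
        calc ((k - j : ℕ) : ℝ) * qcor J S f (m + 1) k
            = ∑ _i ∈ range (k - j), qcor J S f (m + 1) k := by rw [sum_const, card_range, nsmul_eq_mul]
          _ ≤ ∑ i ∈ range (k - j), (qcor J S f m (j + i) - qcor J S f m (j + (i + 1))) := by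
              refine Finset.sum_le_sum fun i hi => ?_
              rw [← add_assoc, ← qcor_succ]
              exact hanti (by have := Finset.mem_range.mp hi; omega)
          _ = qcor J S f m j - qcor J S f m (j + (k - j)) := by
              rw [Finset.sum_range_sub' (fun i => qcor J S f m (j + i))]; simp
          _ ≤ qcor J S f m j := by linarith [hN m (j + (k - j))]
      have h2 : (k : ℝ) ≤ 2 * ((k - j : ℕ) : ℝ) := by
        exact_mod_cast (show k ≤ 2 * (k - j) by omega)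
      have h3 : (k : ℝ) ^ m ≤ 3 ^ m * (j : ℝ) ^ m := by
        rw [← mul_pow]
        exact pow_le_pow_left₀ (Nat.cast_nonneg k) (by exact_mod_cast (show k ≤ 3 * j by omega)) m
      calc (k : ℝ) ^ (m + 1) * qcor J S f (m + 1) k
          = (k : ℝ) ^ m * ((k : ℝ) * qcor J S f (m + 1) k) := by ring
        _ ≤ (3 ^ m * (j : ℝ) ^ m) * ((2 * ((k - j : ℕ) : ℝ)) * qcor J S f (m + 1) k) :=
            mul_le_mul h3 (mul_le_mul_of_nonneg_right h2 (hN _ _))
              (mul_nonneg (Nat.cast_nonneg k) (hN _ _)) (by positivity)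
        _ = 2 * 3 ^ m * ((j : ℝ) ^ m * (((k - j : ℕ) : ℝ) * qcor J S f (m + 1) k)) := by ring
        _ ≤ 2 * 3 ^ m * ((j : ℝ) ^ m * qcor J S f m j) :=
            mul_le_mul_of_nonneg_left (mul_le_mul_of_nonneg_left htel (by positivity)) (by positivity)
        _ ≤ 2 * 3 ^ m * (C * ‖J f‖ ^ 2) := mul_le_mul_of_nonneg_left (hb' j) (by positivity)
        _ ≤ _ := by nlinarith [sq_nonneg ‖J f‖]

lemma qdlt_orbit (f : V) (p : ℕ) : ∀ u,
    qdlt^[p] (fun l => J ((S ^ (2 * l)) f)) u = J (aeval S (((X : ℝ[X]) ^ 2 - 1) ^ p * (X : ℝ[X]) ^ (2 * u)) f) := by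
  induction p with
  | zero => intro u; simp
  | succ p ih =>
    intro u
    rw [Function.iterate_succ_apply']
    simp only [qdlt]
    rw [ih, ih, ← map_sub, ← LinearMap.sub_apply, ← map_sub (Polynomial.aeval (R := ℝ) S)]
    congr 3
    ring

/-- The orbit of the square of a symmetric contraction has small differences of order p. -/
theorem qorbit_bound (p : ℕ) : ∃ C : ℝ, 0 < C ∧
    ∀ (H : Type) [NormedAddCommGroup H] [InnerProductSpace ℝ H]
      (V : Type) [AddCommGroup V] [Module ℝ V] (J : V →ₗ[ℝ] H) (S : V →ₗ[ℝ] V),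
      (∀ u v, ⟪J (S u), J v⟫ = ⟪J u, J (S v)⟫) → (∀ u, ‖J (S u)‖ ≤ ‖J u‖) →
      ∀ (f : V) (u : ℕ), 1 ≤ u →
        ‖qdlt^[p] (fun l => J ((S ^ (2 * l)) f)) u‖ ≤ C * ‖J f‖ / (u : ℝ) ^ p := by
  obtain ⟨C, hC, hb⟩ := qcor_bound (2 * p)
  refine ⟨C + 1, by linarith, fun H _ _ V _ _ J S hs hc f u hu => ?_⟩
  have hu0 : (0 : ℝ) < (u : ℝ) := by exact_mod_cast hu
  rw [le_div_iff₀ (pow_pos hu0 p)]
  refine le_of_pow_le_pow_left₀ two_ne_zero (by positivity) ?_
  have e : ‖qdlt^[p] (fun l => J ((S ^ (2 * l)) f)) u‖ ^ 2 = qcor J S f (2 * p) (2 * u) := by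
    rw [qdlt_orbit, ← qphi_sq J S hs, qcor]
    congr 1
    rw [pow_mul (1 - (X : ℝ[X]) ^ 2) 2 p, show (1 - (X : ℝ[X]) ^ 2) ^ 2 = (X ^ 2 - 1) ^ 2 by ring,
      ← pow_mul]
    ring
  rw [mul_pow, e]
  have h1 : ((u : ℝ) ^ p) ^ 2 ≤ ((2 * u : ℕ) : ℝ) ^ (2 * p) := by
    rw [← pow_mul, mul_comm p 2]
    exact pow_le_pow_left₀ hu0.le (by push_cast; linarith) _
  calc qcor J S f (2 * p) (2 * u) * ((u : ℝ) ^ p) ^ 2
      ≤ qcor J S f (2 * p) (2 * u) * ((2 * u : ℕ) : ℝ) ^ (2 * p) :=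
        mul_le_mul_of_nonneg_left h1 (qcor_nonneg J S hs hc f _ _)
    _ ≤ C * ‖J f‖ ^ 2 := by rw [mul_comm]; exact hb H V J S hs hc f _
    _ ≤ (C + 1) ^ 2 * ‖J f‖ ^ 2 := by gcongr; nlinarith
    _ = _ := by ring

end Vale.Agent.P347
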