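import Vale.Agent.P347.Gauss
import Vale.Agent.P347.QuadOp

/-!
Module 3 (quadrature): completely monotone autocorrelations give a quadrature rule with few
nodes on the fine grid.
-/

open MeasureTheory ProbabilityTheory Filter
open scoped RealInnerProductSpace NNReal

namespace Vale.Agent.P347

variable {d N : ℕ}

/-- Lipschitz vector fields. -/
def qlip (d : ℕ) : Submodule ℝ (EE d → EE d) where
  carrier := {u | ∃ K : ℝ≥0, LipschitzWith K u}
  add_mem' := fun ⟨K, hK⟩ ⟨K', hK'⟩ => ⟨K + K', hK.add hK'⟩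
  zero_mem' := ⟨0, LipschitzWith.const 0⟩
  smul_mem' := fun c u ⟨K, hK⟩ => ⟨‖c‖₊ * K, (lipschitzWith_smul c).comp hK⟩

lemma qlip_memLp {G : Type*} [NormedAddCommGroup G] [InnerProductSpace ℝ G]
    [FiniteDimensional ℝ G] [MeasurableSpace G] [BorelSpace G] (u : qlip d) (T : G →L[ℝ] EE d)
    (c : EE d) : MemLp (fun ω => u.1 (c + T ω)) 2 (stdGaussian G) := by
  obtain ⟨K, hK⟩ := u.2
  exact memLp_of_lipschitz _ (K * ‖T‖₊) (hK.comp (LipschitzWith.of_dist_le_mul fun a b => by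
    rw [dist_eq_norm, dist_eq_norm, add_sub_add_left_eq_sub, ← map_sub]
    exact T.le_opNorm _))

lemma qlip_integrable {G : Type*} [NormedAddCommGroup G] [InnerProductSpace ℝ G]
    [FiniteDimensional ℝ G] [MeasurableSpace G] [BorelSpace G] (u : qlip d) (T : G →L[ℝ] EE d)
    (c : EE d) : Integrable (fun ω => u.1 (c + T ω)) (stdGaussian G) :=
  (qlip_memLp u T c).integrable one_le_two

lemma qlip_continuous (u : qlip d) : Continuous u.1 := by
  obtain ⟨K, hK⟩ := u.2
  exact hK.continuous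

lemma qlip_memLp' (u : qlip d) : MemLp u.1 2 (gam d) := by
  simpa using qlip_memLp (G := EE d) u (ContinuousLinearMap.id ℝ (EE d)) 0

/-- Integral of a function of a linear image with scalar covariance. -/
lemma qlaw {G : Type*} [NormedAddCommGroup G] [InnerProductSpace ℝ G] [FiniteDimensional ℝ G]
    [MeasurableSpace G] [BorelSpace G] {W : Type*} [NormedAddCommGroup W] [NormedSpace ℝ W] [CompleteSpace W]
    (T : G →L[ℝ] EE d) (c : ℝ) (hc : 0 ≤ c)
    (hT : ∀ v, T (ContinuousLinearMap.adjoint T v) = c • v) (F : EE d → W) (hF : Continuous F) :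
    ∫ ω, F (T ω) ∂stdGaussian G = ∫ z, F (Real.sqrt c • z) ∂gam d := by
  rcases eq_or_lt_of_le hc with h | h
  · subst h
    have h0 : ∀ v, ContinuousLinearMap.adjoint T v = 0 := fun v => by
      refine norm_eq_zero.mp (pow_eq_zero_iff two_ne_zero |>.mp ?_)
      rw [← real_inner_self_eq_norm_sq, ContinuousLinearMap.adjoint_inner_left, hT]
      simp
    have hT0 : ∀ ω, T ω = 0 := fun ω => ext_inner_right ℝ fun w => by
      rw [← ContinuousLinearMap.adjoint_inner_right, h0]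
      simp
    simp [hT0]
  · have hs : Real.sqrt c ≠ 0 := (Real.sqrt_pos.2 h).ne'
    set T' := (Real.sqrt c)⁻¹ • T with hT'
    have hco : T' ∘L ContinuousLinearMap.adjoint T' = .id ℝ (EE d) := by
      ext1 v
      simp only [hT', map_smulₛₗ, RingHom.id_apply, conj_trivial, ContinuousLinearMap.comp_apply,
        smul_apply, hT, smul_smul, ContinuousLinearMap.id_apply]
      rw [← mul_assoc, ← mul_inv, Real.mul_self_sqrt hc, inv_mul_cancel₀ h.ne', one_smul]
    conv_rhs => rw [gam, ← map_coisometry T' hco]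
    rw [integral_map (by fun_prop) (Continuous.aestronglyMeasurable (by fun_prop))]
    congr 1
    funext ω
    simp [hT', smul_smul, hs]

/-- The law of a combination of two independent Gaussian vectors. -/
lemma qprod_map (a b c : ℝ) (hc : 0 < c) (habc : a ^ 2 + b ^ 2 = c ^ 2) :
    ((gam d).prod (gam d)).map (fun p : EE d × EE d => (a / c) • p.1 + (b / c) • p.2) = gam d := by
  have h := map_prod_coisometry ((a / c) • ContinuousLinearMap.id ℝ (EE d))
    ((b / c) • ContinuousLinearMap.id ℝ (EE d)) (by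
      ext1 v
      simp only [map_smulₛₗ, ContinuousLinearMap.adjoint_id, RCLike.star_def, conj_trivial,
        ContinuousLinearMap.comp_smul, ContinuousLinearMap.smul_comp, ContinuousLinearMap.id_comp,
        add_apply, smul_apply, ContinuousLinearMap.id_apply, smul_smul, ← add_smul]
      rw [show a / c * (a / c) + b / c * (b / c) = 1 by field_simp; linear_combination habc,
        one_smul])
  simpa using h

lemma qprod {W : Type*} [NormedAddCommGroup W] [NormedSpace ℝ W] [CompleteSpace W] (a b c : ℝ)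
    (hc : 0 ≤ c) (habc : a ^ 2 + b ^ 2 = c ^ 2) (F : EE d → W) (hF : Continuous F)
    (hi : Integrable (fun z => F (c • z)) (gam d)) :
    ∫ x, ∫ ξ, F (a • x + b • ξ) ∂gam d ∂gam d = ∫ z, F (c • z) ∂gam d := by
  rcases eq_or_lt_of_le hc with h | h
  · subst h
    obtain ⟨rfl, rfl⟩ : a = 0 ∧ b = 0 := by
      constructor <;> nlinarith [sq_nonneg a, sq_nonneg b]
    simp
  · have hmap := qprod_map (d := d) a b c h habc
    have e : ∀ p : EE d × EE d, F (a • p.1 + b • p.2) = F (c • ((a / c) • p.1 + (b / c) • p.2)) := by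
      intro p; rw [smul_add, smul_smul, smul_smul, mul_div_cancel₀ _ h.ne', mul_div_cancel₀ _ h.ne']
    have hm : AEStronglyMeasurable (fun z => F (c • z))
        (((gam d).prod (gam d)).map fun p : EE d × EE d => (a / c) • p.1 + (b / c) • p.2) :=
      (hF.comp (by fun_prop)).aestronglyMeasurable
    have hint : Integrable (fun p : EE d × EE d => F (a • p.1 + b • p.2)) ((gam d).prod (gam d)) := by
      simp_rw [e]
      refine (integrable_map_measure hm (by fun_prop)).mp ?_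
      rw [hmap]; exact hi
    rw [← integral_prod (fun p : EE d × EE d => F (a • p.1 + b • p.2)) hint]
    conv_rhs => rw [← hmap, integral_map (by fun_prop) hm]
    simp_rw [e]

/-- The Ornstein-Uhlenbeck operator with correlation ρ. -/
noncomputable def qsemi (ρ : ℝ) (u : EE d → EE d) (x : EE d) : EE d :=
  ∫ ξ, u (ρ • x + Real.sqrt (1 - ρ ^ 2) • ξ) ∂gam d

lemma qsemi_int (u : qlip d) (c : EE d) (b : ℝ) :
    Integrable (fun ξ => u.1 (c + b • ξ)) (gam d) := by
  simpa using qlip_integrable (G := EE d) u (b • ContinuousLinearMap.id ℝ (EE d)) c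

lemma qsemi_lip (ρ : ℝ) (u : qlip d) : qsemi ρ u.1 ∈ qlip d := by
  obtain ⟨K, hK⟩ := u.2
  refine ⟨K * ‖ρ‖₊, LipschitzWith.of_dist_le_mul fun x y => ?_⟩
  rw [dist_eq_norm, qsemi, qsemi, ← integral_sub (qsemi_int u _ _) (qsemi_int u _ _)]
  refine (norm_integral_le_of_norm_le_const (C := (K : ℝ) * (|ρ| * dist x y))
    (Eventually.of_forall fun ξ => ?_)).trans (le_of_eq ?_)
  · rw [← dist_eq_norm]
    refine (hK.dist_le_mul _ _).trans (mul_le_mul_of_nonneg_left (le_of_eq ?_) K.coe_nonneg)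
    rw [dist_add_right, dist_smul₀, Real.norm_eq_abs]
  · simp [mul_assoc]

/-- The operator on Lipschitz fields. -/
noncomputable def qop (d : ℕ) (ρ : ℝ) : qlip d →ₗ[ℝ] qlip d where
  toFun u := ⟨qsemi ρ u.1, qsemi_lip ρ u⟩
  map_add' u v := by
    refine Subtype.ext (funext fun x => ?_)
    exact integral_add (qsemi_int u _ _) (qsemi_int v _ _)
  map_smul' c u := by
    refine Subtype.ext (funext fun x => ?_)
    exact integral_smul c _

lemma qop_apply (ρ : ℝ) (u : qlip d) (x : EE d) : (qop d ρ u).1 x = qsemi ρ u.1 x := rfl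

lemma qop_comp {ρ σ : ℝ} (hρ : |ρ| ≤ 1) (hσ : |σ| ≤ 1) (u : qlip d) :
    qop d ρ (qop d σ u) = qop d (ρ * σ) u := by
  refine Subtype.ext (funext fun x => ?_)
  have h1 : 0 ≤ 1 - ρ ^ 2 := by nlinarith [abs_le.mp hρ]
  have h2 : 0 ≤ 1 - σ ^ 2 := by nlinarith [abs_le.mp hσ]
  have h3 : 0 ≤ 1 - (ρ * σ) ^ 2 := by
    nlinarith [mul_le_mul_of_nonneg_left (by linarith : σ ^ 2 ≤ 1) (sq_nonneg ρ)]
  have h := qprod (d := d) (σ * Real.sqrt (1 - ρ ^ 2)) (Real.sqrt (1 - σ ^ 2))
    (Real.sqrt (1 - (ρ * σ) ^ 2)) (Real.sqrt_nonneg _)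
    (by rw [mul_pow, Real.sq_sqrt h1, Real.sq_sqrt h2, Real.sq_sqrt h3]; ring)
    (fun y => u.1 ((ρ * σ) • x + y)) ((qlip_continuous u).comp (by fun_prop)) (qsemi_int u _ _)
  simp only [qop_apply, qsemi]
  refine Eq.trans ?_ h
  congr 1; funext ξ; congr 1; funext ξ'; congr 1
  rw [smul_add, smul_smul, smul_smul, mul_comm ρ σ, add_assoc]

lemma qop_pow {r : ℝ} (hr : |r| ≤ 1) (n : ℕ) (u : qlip d) :
    ((qop d r) ^ n) u = qop d (r ^ n) u := by
  induction n with
  | zero =>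
    refine Subtype.ext (funext fun x => ?_)
    simp [qop_apply, qsemi]
  | succ n ih =>
    rw [pow_succ', Module.End.mul_apply, ih,
      qop_comp hr (by rw [abs_pow]; exact pow_le_one₀ (abs_nonneg r) hr), pow_succ']

/-- The map into the Hilbert space of square integrable fields. -/
noncomputable def qemb (d : ℕ) : qlip d →ₗ[ℝ] Lp (EE d) 2 (gam d) where
  toFun u := (qlip_memLp' u).toLp u.1
  map_add' u v := MemLp.toLp_add (qlip_memLp' u) (qlip_memLp' v)
  map_smul' c u := MemLp.toLp_const_smul c (qlip_memLp' u)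

lemma qemb_inner (u v : qlip d) : ⟪qemb d u, qemb d v⟫ = ∫ x, ⟪u.1 x, v.1 x⟫ ∂gam d := by
  rw [L2.inner_def]
  refine integral_congr_ae ?_
  filter_upwards [(qlip_memLp' u).coeFn_toLp, (qlip_memLp' v).coeFn_toLp] with x hx hy
  show ⟪((qlip_memLp' u).toLp u.1 : EE d → EE d) x, ((qlip_memLp' v).toLp v.1 : EE d → EE d) x⟫ = _
  rw [hx, hy]

lemma qemb_norm_sq (u : qlip d) : ‖qemb d u‖ ^ 2 = ∫ x, ‖u.1 x‖ ^ 2 ∂gam d := by
  rw [← real_inner_self_eq_norm_sq, qemb_inner]
  simp_rw [real_inner_self_eq_norm_sq]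

lemma qop_contr {ρ : ℝ} (hρ : |ρ| ≤ 1) (u : qlip d) : ‖qemb d (qop d ρ u)‖ ≤ ‖qemb d u‖ := by
  refine le_of_pow_le_pow_left₀ two_ne_zero (norm_nonneg _) ?_
  rw [qemb_norm_sq, qemb_norm_sq]
  set b := Real.sqrt (1 - ρ ^ 2)
  have hb : ρ ^ 2 + b ^ 2 = 1 ^ 2 := by
    rw [Real.sq_sqrt (by nlinarith [abs_le.mp hρ])]; ring
  have hsq : Integrable (fun z => ‖u.1 z‖ ^ 2) (gam d) :=
    (qlip_memLp' u).integrable_norm_pow two_ne_zero
  have hF : Continuous fun z => ‖u.1 z‖ ^ 2 := (qlip_continuous u).norm.pow 2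
  have hmap := qprod_map (d := d) ρ b 1 one_pos hb
  simp only [div_one] at hmap
  have hint : Integrable (fun p : EE d × EE d => ‖u.1 (ρ • p.1 + b • p.2)‖ ^ 2)
      ((gam d).prod (gam d)) := by
    refine (integrable_map_measure (g := fun z => ‖u.1 z‖ ^ 2) hF.aestronglyMeasurable
      (by fun_prop)).mp ?_
    rw [hmap]; exact hsq
  have hpt : ∀ x, ‖qsemi ρ u.1 x‖ ^ 2 ≤ ∫ ξ, ‖u.1 (ρ • x + b • ξ)‖ ^ 2 ∂gam d := by
    intro x
    have hm : MemLp (fun ξ => u.1 (ρ • x + b • ξ)) 2 (gam d) := by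
      simpa using qlip_memLp (G := EE d) u (b • ContinuousLinearMap.id ℝ (EE d)) (ρ • x)
    set m := qsemi ρ u.1 x with hm'
    have e : ∀ ξ, ‖u.1 (ρ • x + b • ξ) - m‖ ^ 2 =
        ‖u.1 (ρ • x + b • ξ)‖ ^ 2 - 2 * ⟪m, u.1 (ρ • x + b • ξ)⟫ + ‖m‖ ^ 2 := by
      intro ξ; rw [norm_sub_sq_real, real_inner_comm]
    have h0 : 0 ≤ ∫ ξ, ‖u.1 (ρ • x + b • ξ) - m‖ ^ 2 ∂gam d := integral_nonneg fun _ => sq_nonneg _
    simp_rw [e] at h0
    have i1 := hm.integrable_norm_pow two_ne_zero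
    have i2 := hm.integrable one_le_two
    rw [integral_add (i1.sub' ((i2.const_inner m).const_mul 2)) (integrable_const _),
      integral_sub i1 ((i2.const_inner m).const_mul 2), integral_const_mul, integral_inner i2,
      integral_const, probReal_univ, one_smul] at h0
    change 0 ≤ _ - 2 * ⟪m, m⟫ + ‖m‖ ^ 2 at h0
    rw [real_inner_self_eq_norm_sq] at h0
    linarith
  calc ∫ x, ‖(qop d ρ u).1 x‖ ^ 2 ∂gam d ≤ ∫ x, ∫ ξ, ‖u.1 (ρ • x + b • ξ)‖ ^ 2 ∂gam d ∂gam d :=
        integral_mono ((qlip_memLp' (qop d ρ u)).integrable_norm_pow two_ne_zero)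
          hint.integral_prod_left hpt
    _ = ∫ z, ‖u.1 z‖ ^ 2 ∂gam d := by
        simpa using qprod ρ b 1 zero_le_one hb _ hF (by simpa using hsq)

/-- The law of a path coordinate given the end point. -/
lemma qbridge_int {h : ℝ} (h0 : 0 ≤ h) (h1 : h ≤ 1) {W : Type*} [NormedAddCommGroup W]
    [NormedSpace ℝ W] [CompleteSpace W] (F : EE d → W) (hF : Continuous F) {k : ℕ} (hk : k ≤ N) (x : EE d) :
    ∫ ω, F (pathW d N h k (bridge d N h x ω)) ∂pgam d N =
      ∫ z, F ((1 - h) ^ (N - k) • x + Real.sqrt (1 - ((1 - h) ^ (N - k)) ^ 2) • z) ∂gam d := by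
  set ρ := (1 - h) ^ (N - k) with hρ
  set T := pathW d N h k - ρ • pathW d N h N with hT
  have hρ1 : ρ ^ 2 ≤ 1 := pow_le_one₀ (pow_nonneg (by linarith) _) (pow_le_one₀ (by linarith) (by linarith))
  have hTT : ∀ v, T (ContinuousLinearMap.adjoint T v) = (1 - ρ ^ 2) • v := by
    intro v
    have c1 := DFunLike.congr_fun (pathW_coisometry (d := d) h0 h1 hk) v
    have c2 := DFunLike.congr_fun (pathW_coisometry (d := d) (N := N) h0 h1 le_rfl) v
    have c3 := DFunLike.congr_fun (pathW_corr (d := d) h0 h1 hk le_rfl) v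
    simp only [ContinuousLinearMap.comp_apply, smul_apply, ContinuousLinearMap.id_apply] at c1 c2 c3
    have c4 : pathW d N h N (ContinuousLinearMap.adjoint (pathW d N h k) v) = ρ • v := by
      refine ext_inner_right ℝ fun w => ?_
      have c5 := DFunLike.congr_fun (pathW_corr (d := d) h0 h1 hk le_rfl) w
      simp only [ContinuousLinearMap.comp_apply, smul_apply, ContinuousLinearMap.id_apply] at c5
      rw [← ContinuousLinearMap.adjoint_inner_right, ContinuousLinearMap.adjoint_inner_left, c5,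
        ← hρ, inner_smul_right, real_inner_smul_left]
    simp only [hT, map_sub, map_smulₛₗ, RCLike.star_def, conj_trivial, sub_apply, smul_apply,
      RingHom.id_apply, c1, c2, c3, c4, ← hρ, smul_sub, smul_smul]
    module
  have h := qlaw T (1 - ρ ^ 2) (by linarith) hTT (fun y => F (ρ • x + y)) (by fun_prop)
  refine Eq.trans ?_ h
  congr 1; funext ω
  rw [pathW_bridge h0 h1 x ω hk, ← hρ, hT]
  congr 1
  simp only [sub_apply, smul_apply]
  module

lemma qpair_forward {ρ : ℝ} (h0 : 0 ≤ ρ) (h1 : ρ ≤ 1) (u v : qlip d) :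
    ∫ ω, ⟪u.1 (pathW d 1 (1 - ρ) 0 ω), v.1 (pathW d 1 (1 - ρ) 1 ω)⟫ ∂pgam d 1 =
      ⟪qemb d u, qemb d (qop d ρ v)⟫ := by
  have hmap := map_prod_coisometry (ContinuousLinearMap.adjoint (inp d 1 0))
    (ContinuousLinearMap.adjoint (inp d 1 1)) (by
      ext1 ω
      simp only [ContinuousLinearMap.adjoint_adjoint, add_apply, ContinuousLinearMap.comp_apply,
        ContinuousLinearMap.id_apply]
      rw [adjoint_inp (by norm_num), adjoint_inp (by norm_num), inp, inp, dif_pos (by norm_num),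
        dif_pos (by norm_num)]
      ext i
      fin_cases i <;> simp)
  have hlu : MemLp (fun ω => u.1 (pathW d 1 (1 - ρ) 0 ω)) 2 (pgam d 1) := by
    simpa using qlip_memLp u (pathW d 1 (1 - ρ) 0) 0
  have hlv : MemLp (fun ω => v.1 (pathW d 1 (1 - ρ) 1 ω)) 2 (pgam d 1) := by
    simpa using qlip_memLp v (pathW d 1 (1 - ρ) 1) 0
  have hI : Integrable (fun ω => ⟪u.1 (pathW d 1 (1 - ρ) 0 ω), v.1 (pathW d 1 (1 - ρ) 1 ω)⟫)
      (pgam d 1) := by
    refine ((hlu.integrable_norm_pow two_ne_zero).add (hlv.integrable_norm_pow two_ne_zero)).mono'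
      (hlu.aestronglyMeasurable.inner hlv.aestronglyMeasurable) (Eventually.of_forall fun ω => ?_)
    have := norm_inner_le_norm (𝕜 := ℝ) (u.1 (pathW d 1 (1 - ρ) 0 ω)) (v.1 (pathW d 1 (1 - ρ) 1 ω))
    simp only [Pi.add_apply]
    nlinarith [sq_nonneg (‖u.1 (pathW d 1 (1 - ρ) 0 ω)‖ - ‖v.1 (pathW d 1 (1 - ρ) 1 ω)‖)]
  rw [qemb_inner]
  have hI' := hI
  rw [pgam, ← hmap] at hI'
  have hP := (integrable_map_measure hI'.aestronglyMeasurable (by fun_prop)).mp hI'
  conv_lhs => rw [pgam, ← hmap, integral_map (by fun_prop) hI'.aestronglyMeasurable]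
  simp only [Function.comp_def] at hP
  rw [integral_prod _ hP]
  congr 1; funext x
  have e : ∀ ξ, pathW d 1 (1 - ρ) 0 (ContinuousLinearMap.adjoint (inp d 1 0) x +
        ContinuousLinearMap.adjoint (inp d 1 1) ξ) = x ∧
      pathW d 1 (1 - ρ) 1 (ContinuousLinearMap.adjoint (inp d 1 0) x +
        ContinuousLinearMap.adjoint (inp d 1 1) ξ) = ρ • x + Real.sqrt (1 - ρ ^ 2) • ξ := by
    intro ξ
    simp [pathW, map_add, inp_adjoint_inp, beta]
  simp only [(e _).1, (e _).2, qop_apply, qsemi]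
  exact integral_inner (qsemi_int v _ _) (u.1 x)

lemma qop_symm {ρ : ℝ} (h0 : 0 ≤ ρ) (h1 : ρ ≤ 1) (u v : qlip d) :
    ⟪qemb d (qop d ρ u), qemb d v⟫ = ⟪qemb d u, qemb d (qop d ρ v)⟫ := by
  rw [← qpair_forward h0 h1 u v]
  have hh0 : (0 : ℝ) ≤ 1 - ρ := by linarith
  have hh1 : 1 - ρ ≤ 1 := by linarith
  have hlaw := bridge_law (d := d) (N := 1) hh0 hh1
  have hlu : MemLp (fun ω => u.1 (pathW d 1 (1 - ρ) 0 ω)) 2 (pgam d 1) := by
    simpa using qlip_memLp u (pathW d 1 (1 - ρ) 0) 0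
  have hlv : MemLp (fun ω => v.1 (pathW d 1 (1 - ρ) 1 ω)) 2 (pgam d 1) := by
    simpa using qlip_memLp v (pathW d 1 (1 - ρ) 1) 0
  have hI : Integrable (fun ω => ⟪u.1 (pathW d 1 (1 - ρ) 0 ω), v.1 (pathW d 1 (1 - ρ) 1 ω)⟫)
      (pgam d 1) := by
    refine ((hlu.integrable_norm_pow two_ne_zero).add (hlv.integrable_norm_pow two_ne_zero)).mono'
      (hlu.aestronglyMeasurable.inner hlv.aestronglyMeasurable) (Eventually.of_forall fun ω => ?_)
    have := norm_inner_le_norm (𝕜 := ℝ) (u.1 (pathW d 1 (1 - ρ) 0 ω)) (v.1 (pathW d 1 (1 - ρ) 1 ω))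
    simp only [Pi.add_apply]
    nlinarith [sq_nonneg (‖u.1 (pathW d 1 (1 - ρ) 0 ω)‖ - ‖v.1 (pathW d 1 (1 - ρ) 1 ω)‖)]
  have hI' := hI
  rw [← hlaw] at hI'
  have hc : Continuous fun p : EE d × Path d 1 => bridge d 1 (1 - ρ) p.1 p.2 := by
    unfold bridge; fun_prop
  have hP := (integrable_map_measure hI'.aestronglyMeasurable hc.aemeasurable).mp hI'
  conv_rhs => rw [← hlaw, integral_map hc.aemeasurable hI'.aestronglyMeasurable]
  simp only [Function.comp_def] at hP
  rw [integral_prod _ hP, qemb_inner]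
  congr 1; funext x
  have eN : ∀ ω, pathW d 1 (1 - ρ) 1 (bridge d 1 (1 - ρ) x ω) = x := by
    intro ω
    rw [pathW_bridge hh0 hh1 x ω le_rfl]
    simp
  have hb := qbridge_int (N := 1) hh0 hh1 u.1 (qlip_continuous u) (k := 0) (Nat.zero_le 1) x
  simp only [eN]
  have hi : Integrable (fun ω => u.1 (pathW d 1 (1 - ρ) 0 (bridge d 1 (1 - ρ) x ω))) (pgam d 1) := by
    have := qlip_integrable u (pathW d 1 (1 - ρ) 0 - ρ • pathW d 1 (1 - ρ) 1) (ρ • x)
    refine this.congr (Eventually.of_forall fun ω => ?_)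
    dsimp only
    rw [pathW_bridge hh0 hh1 x ω (Nat.zero_le 1)]
    refine congrArg u.1 ?_
    show ρ • x + (pathW d 1 (1 - ρ) 0 ω - ρ • pathW d 1 (1 - ρ) 1 ω) = _
    simp only [sub_sub_cancel, Nat.sub_zero, pow_one]
    module
  rw [show ⟪(qop d ρ u).1 x, v.1 x⟫ = ⟪v.1 x, (qop d ρ u).1 x⟫ from real_inner_comm _ _]
  simp_rw [real_inner_comm (v.1 x)]
  rw [integral_inner hi (v.1 x), hb]
  simp [qop_apply, qsemi, real_inner_comm]

lemma qop_near {σ L : ℝ} (h0 : 0 ≤ σ) (h1 : σ ≤ 1) (hL : 0 ≤ L) (u : qlip d)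
    (hu : ∀ x z, ‖u.1 x - u.1 z‖ ≤ L * ‖x - z‖) :
    ‖qemb d (qop d σ u - u)‖ ≤ L * Real.sqrt (4 * d * (1 - σ)) := by
  refine le_of_pow_le_pow_left₀ two_ne_zero (mul_nonneg hL (Real.sqrt_nonneg _)) ?_
  rw [qemb_norm_sq, mul_pow, Real.sq_sqrt (mul_nonneg (by positivity) (by linarith))]
  set b := Real.sqrt (1 - σ ^ 2)
  have hb : b ^ 2 = 1 - σ ^ 2 := Real.sq_sqrt (by nlinarith)
  have hid : Integrable (fun x : EE d => ‖x‖ ^ 2) (gam d) :=
    (IsGaussian.memLp_id (gam d) 2 (by norm_num)).integrable_norm_pow two_ne_zero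
  have hm2 : ∫ x : EE d, ‖x‖ ^ 2 ∂gam d = d := by simpa using second_moment (EE d)
  have hid1 : Integrable (fun x : EE d => ‖x‖) (gam d) := (IsGaussian.integrable_id (μ := gam d)).norm
  have hz : ∫ x : EE d, ‖x‖ ∂gam d ≤ Real.sqrt d := by
    have h : 0 ≤ ∫ x : EE d, (‖x‖ - ∫ y : EE d, ‖y‖ ∂gam d) ^ 2 ∂gam d :=
      integral_nonneg fun _ => sq_nonneg _
    simp_rw [sub_sq] at h
    rw [integral_add (hid.sub' (((hid1.const_mul 2).mul_const _))) (integrable_const _),
      integral_sub hid ((hid1.const_mul 2).mul_const _), integral_mul_const, integral_const_mul,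
      integral_const, probReal_univ, one_smul, hm2] at h
    exact Real.le_sqrt_of_sq_le (by nlinarith)
  have hpt : ∀ x, ‖(qop d σ u - u).1 x‖ ≤ L * ((1 - σ) * ‖x‖ + b * Real.sqrt d) := by
    intro x
    have e : (qop d σ u - u).1 x = ∫ ξ, (u.1 (σ • x + b • ξ) - u.1 x) ∂gam d := by
      rw [integral_sub (qsemi_int u _ _) (integrable_const _), integral_const, probReal_univ, one_smul]
      rfl
    rw [e]
    calc _ ≤ ∫ ξ, L * ((1 - σ) * ‖x‖ + b * ‖ξ‖) ∂gam d := by
          refine norm_integral_le_of_norm_le (((integrable_const _).fun_add (hid1.const_mul b)).const_mul L)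
            (Eventually.of_forall fun ξ => (hu _ _).trans (mul_le_mul_of_nonneg_left ?_ hL))
          calc ‖σ • x + b • ξ - x‖ = ‖(σ - 1) • x + b • ξ‖ := by congr 1; module
            _ ≤ _ := (norm_add_le _ _).trans (le_of_eq (by
              rw [norm_smul, norm_smul, Real.norm_eq_abs, Real.norm_eq_abs,
                abs_of_nonneg (Real.sqrt_nonneg _ : 0 ≤ b), abs_of_nonpos (by linarith)]; ring))
      _ ≤ _ := by
          rw [integral_const_mul, integral_add (integrable_const _) (hid1.const_mul b), integral_const,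
            probReal_univ, one_smul, integral_const_mul]
          gcongr
  calc ∫ x, ‖(qop d σ u - u).1 x‖ ^ 2 ∂gam d
      ≤ ∫ x, (2 * L ^ 2 * (1 - σ) ^ 2 * ‖x‖ ^ 2 + 2 * L ^ 2 * b ^ 2 * d) ∂gam d := by
        refine integral_mono ((qlip_memLp' _).integrable_norm_pow two_ne_zero)
          ((hid.const_mul _).fun_add (integrable_const _)) fun x => ?_
        refine (pow_le_pow_left₀ (norm_nonneg _) (hpt x) 2).trans ?_
        rw [mul_pow]
        have hd' : Real.sqrt (d : ℝ) ^ 2 = d := Real.sq_sqrt (Nat.cast_nonneg d)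
        calc L ^ 2 * ((1 - σ) * ‖x‖ + b * Real.sqrt d) ^ 2
            ≤ L ^ 2 * (2 * (((1 - σ) * ‖x‖) ^ 2 + (b * Real.sqrt d) ^ 2)) :=
              mul_le_mul_of_nonneg_left add_sq_le (sq_nonneg L)
          _ = _ := by rw [mul_pow b, hd']; ring
    _ = 2 * L ^ 2 * d * ((1 - σ) ^ 2 + b ^ 2) := by
        rw [integral_add (hid.const_mul _) (integrable_const _), integral_const_mul, hm2,
          integral_const, probReal_univ, one_smul]
        ring
    _ = L ^ 2 * (4 * d * (1 - σ)) := by rw [hb]; ring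

lemma qemb_bound {L : ℝ} (hL : 0 ≤ L) (u : qlip d) (hu : ∀ x z, ‖u.1 x - u.1 z‖ ≤ L * ‖x - z‖) :
    ‖qemb d u‖ ≤ 2 * (L * Real.sqrt d + ‖u.1 0‖) := by
  refine le_of_pow_le_pow_left₀ two_ne_zero (by positivity) ?_
  have hid : Integrable (fun x : EE d => ‖x‖ ^ 2) (gam d) :=
    (IsGaussian.memLp_id (gam d) 2 (by norm_num)).integrable_norm_pow two_ne_zero
  have hm2 : ∫ x : EE d, ‖x‖ ^ 2 ∂gam d = d := by simpa using second_moment (EE d)
  rw [qemb_norm_sq]
  calc ∫ x, ‖u.1 x‖ ^ 2 ∂gam d ≤ ∫ x, (2 * L ^ 2 * ‖x‖ ^ 2 + 2 * ‖u.1 0‖ ^ 2) ∂gam d := by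
        refine integral_mono ((qlip_memLp' _).integrable_norm_pow two_ne_zero)
          ((hid.const_mul _).fun_add (integrable_const _)) fun x => ?_
        have h1 := norm_le_insert' (u.1 x) (u.1 0)
        have h2 := hu x 0
        rw [sub_zero] at h2
        nlinarith [norm_nonneg (u.1 x), sq_nonneg (L * ‖x‖ - ‖u.1 0‖), mul_nonneg hL (norm_nonneg x)]
    _ = 2 * L ^ 2 * d + 2 * ‖u.1 0‖ ^ 2 := by
        rw [integral_add (hid.const_mul _) (integrable_const _), integral_const_mul, hm2,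
          integral_const, probReal_univ, one_smul]
    _ ≤ _ := by
        have hd' : Real.sqrt (d : ℝ) ^ 2 = d := Real.sq_sqrt (Nat.cast_nonneg d)
        nlinarith [mul_nonneg (mul_nonneg hL (Real.sqrt_nonneg (d : ℝ))) (norm_nonneg (u.1 0)),
          sq_nonneg ‖u.1 0‖, mul_nonneg (sq_nonneg L) (Nat.cast_nonneg (α := ℝ) d)]

/-- For every order p: with n0 = 4*p*M*R fine steps in time η and N = 2^I*n0 steps in all, a rule
with O(M (I+1)) nodes. -/
theorem quad_rule (p : ℕ) (hp : 1 ≤ p) :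
    ∃ C : ℝ, 0 < C ∧ ∀ (η : ℝ) (M I R : ℕ), 0 < η → η ≤ 1 / 16 → 1 ≤ M → 1 ≤ R →
      8 ≤ 2 ^ I * η →
      ∃ (q : ℕ) (node : Fin q → ℕ) (w : Fin q → ℝ),
        (q : ℝ) ≤ C * M * (I + 1) ∧
        ∀ (d n : ℕ), Params.Good
          { eta := η, h := η / (4 * p * M * R : ℕ), N := 2 ^ I * (4 * p * M * R),
            m := 4 * p * M * R, n := n, q := q, node := node, w := w }
          d (C * (1 + 2 ^ I * η))
          (C * (1 + 2 ^ I * η) *
            (((M : ℝ) ^ p)⁻¹ + η * Real.sqrt η + Real.exp (-(2 ^ I * η) / 4))) := by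
  obtain ⟨C1, hC1, hrule⟩ := qrule p hp
  obtain ⟨C2, hC2, horb⟩ := qorbit_bound p
  refine ⟨C1 * (2 * C2 + 2) + C1, by positivity, fun η M I R hη hη16 hM hR hlong => ?_⟩
  obtain ⟨q, node, w, hq, hnode, hw1, hwabs, hbound⟩ := hrule η M I R hη (by linarith) hM hR
  set C := C1 * (2 * C2 + 2) + C1 with hC
  have hCC : C1 ≤ C := le_add_of_nonneg_left (by positivity)
  refine ⟨q, node, w, hq.trans (by gcongr), fun d n => ?_⟩
  set n0 := 4 * p * M * R with hn0
  have hn0pos : 4 ≤ n0 := by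
    have h5 : 1 * 1 * 1 ≤ p * M * R := Nat.mul_le_mul (Nat.mul_le_mul hp hM) hR
    rw [hn0, show 4 * p * M * R = 4 * (p * M * R) by ring]; omega
  have hn0R : (0 : ℝ) < (n0 : ℝ) := by exact_mod_cast (show 0 < n0 by omega)
  have hhn : η / (n0 : ℝ) * (n0 : ℝ) = η := div_mul_cancel₀ η hn0R.ne'
  have hX1 : 1 ≤ 1 + (2 : ℝ) ^ I * η := le_add_of_nonneg_right (by positivity)
  refine
    { eta_pos := hη
      eta_le := hη16
      h_pos := div_pos hη hn0R
      h_le := ?_
      m_le := ?_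
      m_ge := ?_
      m_N := Nat.le_mul_of_pos_left n0 (by positivity)
      long := ?_
      node_le := hnode
      w_sum := hw1
      w_abs := hwabs.trans (hCC.trans (le_mul_of_one_le_right (by positivity) hX1))
      quad := ?_ }
  · show η / (n0 : ℝ) ≤ η / 4
    exact div_le_div_of_nonneg_left hη.le (by norm_num) (by exact_mod_cast hn0pos)
  · show (n0 : ℝ) * (η / (n0 : ℝ)) ≤ η
    rw [mul_comm, hhn]
  · show η / 2 ≤ (n0 : ℝ) * (η / (n0 : ℝ))
    rw [mul_comm, hhn]; linarith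
  · show 8 ≤ η / (n0 : ℝ) * ((2 ^ I * n0 : ℕ) : ℝ)
    push_cast
    rw [mul_left_comm, hhn]
    exact hlong
  intro f L hL hf
  show ∫ x, ‖Abar _ f x - Bbar _ f x‖ ^ 2 ∂gam d ≤ _
  set h : ℝ := η / (n0 : ℝ) with hh
  set N := 2 ^ I * n0 with hN
  have hh0 : 0 ≤ h := (div_pos hη hn0R).le
  have hh1 : h ≤ 1 := (div_le_one hn0R).mpr
    (by have : (4 : ℝ) ≤ n0 := by exact_mod_cast hn0pos
        linarith)
  have hflip : LipschitzWith L.toNNReal f := LipschitzWith.of_dist_le_mul fun a b => by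
    rw [dist_eq_norm, dist_eq_norm, Real.coe_toNNReal L hL]; exact hf a b
  set u : qlip d := ⟨f, ⟨_, hflip⟩⟩ with hu
  set a : ℝ := 1 - h with ha
  have ha0 : 0 ≤ a := by linarith
  have ha1 : a ≤ 1 := by linarith
  set r := Real.sqrt a with hr
  have hr0 : 0 ≤ r := Real.sqrt_nonneg a
  have hr1 : r ≤ 1 := Real.sqrt_le_one.mpr ha1
  set S := qop d r with hS
  have hra : |r| ≤ 1 := by rwa [abs_of_nonneg hr0]
  have hpow : ∀ l, ((S ^ (2 * l)) u) = qop d (a ^ l) u := fun l => by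
    rw [hS, qop_pow hra, pow_mul, hr, Real.sq_sqrt ha0]
  set v : ℕ → Lp (EE d) 2 (gam d) := fun l => qemb d ((S ^ (2 * l)) u) with hv
  have hd := horb (Lp (EE d) 2 (gam d)) (qlip d) (qemb d) S (qop_symm hr0 hr1) (qop_contr hra) u
  have hD : ∀ l ≥ 1, ‖qdlt^[p] v l‖ ≤ (C2 * ‖qemb d u‖) / (l : ℝ) ^ p := fun l hl => hd l hl
  have hB : ∀ l, 1 ≤ l → l ≤ n0 → ‖v l - v n0‖ ≤ L * Real.sqrt (4 * d * η) := by
    intro l _ hl
    set σ := a ^ (n0 - l) with hσ
    have hσ0 : 0 ≤ σ := pow_nonneg ha0 _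
    have hσ1 : σ ≤ 1 := pow_le_one₀ ha0 ha1
    have hσ2 : 1 - σ ≤ η := by
      have h5 := one_add_mul_le_pow (a := -h) (by linarith) (n0 - l)
      rw [← sub_eq_add_neg, ← ha, ← hσ] at h5
      have h6 : ((n0 - l : ℕ) : ℝ) * h ≤ η := by
        rw [← hhn, mul_comm (η / (n0 : ℝ))]
        exact mul_le_mul_of_nonneg_right (by exact_mod_cast Nat.sub_le n0 l) hh0
      linarith
    have e : v l - v n0 = qemb d (qop d (a ^ l) (u - qop d σ u)) := by
      simp only [hv, hpow]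
      rw [← map_sub, map_sub (qop d (a ^ l)),
        qop_comp (by rw [abs_pow, abs_of_nonneg ha0]; exact pow_le_one₀ ha0 ha1)
          (by rwa [abs_of_nonneg hσ0]), hσ, ← pow_add, Nat.add_sub_cancel' hl]
    rw [e]
    refine (qop_contr (by rw [abs_pow, abs_of_nonneg ha0]; exact pow_le_one₀ ha0 ha1) _).trans ?_
    rw [← neg_sub, map_neg, norm_neg]
    refine (qop_near hσ0 hσ1 hL u hf).trans ?_
    gcongr
  have hA : ∀ k ≤ N, ∀ x, ∫ ω, f (pathW d N h k (bridge d N h x ω)) ∂pgam d N =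
      ((S ^ (2 * (N - k))) u).1 x := by
    intro k hk x
    rw [hpow, qop_apply, qbridge_int hh0 hh1 f hflip.continuous hk x]
    rfl
  have hint : ∀ k, ∀ x, Integrable (fun ω => f (pathW d N h k (bridge d N h x ω))) (pgam d N) := by
    intro k x
    have := qlip_integrable u (pathW d N h k ∘L
      (ContinuousLinearMap.id ℝ _ - ContinuousLinearMap.adjoint (pathW d N h N) ∘L pathW d N h N))
      (pathW d N h k (ContinuousLinearMap.adjoint (pathW d N h N) x))
    refine this.congr (Eventually.of_forall fun ω => ?_)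
    show f _ = _
    congr 1
    simp only [bridge, ContinuousLinearMap.comp_apply, sub_apply, ContinuousLinearMap.id_apply,
      map_sub, map_add]
    abel
  set G : qlip d := (∑ j, w j • (S ^ (2 * (N - node j))) u) -
    ((∑ l ∈ Finset.range N, (h * a ^ l) • (S ^ (2 * (l + 1))) u) + a ^ N • (S ^ (2 * N)) u) with hG
  have hAB : ∀ x, Abar { eta := η, h := h, N := N, m := n0, n := n, q := q, node := node, w := w } f x
      - Bbar { eta := η, h := h, N := N, m := n0, n := n, q := q, node := node, w := w } f x = G.1 x := by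
    intro x
    simp only [Abar, Bbar, Asum, Bsum, hG, Submodule.coe_sub, Submodule.coe_add, Submodule.coe_sum,
      Submodule.coe_smul, Pi.sub_apply, Pi.add_apply, Finset.sum_apply, Pi.smul_apply, ← ha]
    congr 1
    · rw [integral_finsetSum (Finset.univ : Finset (Fin q))
        (f := fun j ω => w j • f (pathW d N h (node j) (bridge d N h x ω)))
        fun j _ => (hint (node j) x).fun_smul (w j)]
      refine Finset.sum_congr rfl fun j _ => ?_
      rw [integral_smul, hA _ (hnode j) x]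
    · rw [integral_add (integrable_finsetSum _ (f := fun k ω =>
          (h * a ^ (N - 1 - k)) • f (pathW d N h k (bridge d N h x ω))) fun k _ => (hint k x).fun_smul _)
        ((hint 0 x).fun_smul _), integral_smul, hA 0 (Nat.zero_le N) x, Nat.sub_zero,
        integral_finsetSum _ (f := fun k ω =>
          (h * a ^ (N - 1 - k)) • f (pathW d N h k (bridge d N h x ω))) fun k _ => (hint k x).fun_smul _]
      congr 1
      rw [← Finset.sum_range_reflect]
      refine Finset.sum_congr rfl fun k hk => ?_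
      have hk' := Finset.mem_range.mp hk
      rw [integral_smul, hA _ (by omega) x, show N - 1 - (N - 1 - k) = k by omega,
        show N - (N - 1 - k) = k + 1 by omega]
  simp only [hAB]
  rw [← qemb_norm_sq]
  refine pow_le_pow_left₀ (norm_nonneg _) ?_ 2
  have hb := hbound (Lp (EE d) 2 (gam d)) v (C2 * ‖qemb d u‖) (L * Real.sqrt (4 * d * η))
    (by positivity) (mul_nonneg hL (Real.sqrt_nonneg _)) hD hB
  have e : qemb d G = (∑ j, w j • v (N - node j)) -
      ((∑ l ∈ Finset.range N, (h * a ^ l) • v (l + 1)) + a ^ N • v N) := by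
    simp only [hG, hv, map_sub, map_add, map_sum, map_smul]
  rw [e]
  refine hb.trans ?_
  have h4 : Real.sqrt (4 * d * η) = 2 * Real.sqrt d * Real.sqrt η := by
    rw [Real.sqrt_mul' _ hη.le, Real.sqrt_mul' _ (Nat.cast_nonneg d),
      show (4 : ℝ) = 2 ^ 2 by norm_num, Real.sqrt_sq zero_le_two]
  have hfu := qemb_bound hL u hf
  set Q := L * Real.sqrt d + ‖f 0‖ with hQ
  have hQ0 : 0 ≤ Q := by positivity
  have hLQ : L * Real.sqrt d ≤ Q := le_add_of_nonneg_right (norm_nonneg _)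
  have hMp : 0 ≤ ((M : ℝ) ^ p)⁻¹ := by positivity
  have hes : 0 ≤ η * Real.sqrt η := by positivity
  calc C1 * (C2 * ‖qemb d u‖ * ((M : ℝ) ^ p)⁻¹ + η * (L * Real.sqrt (4 * d * η)))
      = C1 * (C2 * ‖qemb d u‖ * ((M : ℝ) ^ p)⁻¹ + 2 * (η * Real.sqrt η) * (L * Real.sqrt d)) := by
        rw [h4]; ring
    _ ≤ C1 * (C2 * (2 * Q) * ((M : ℝ) ^ p)⁻¹ + 2 * (η * Real.sqrt η) * Q) := by
        have hfu' : ‖qemb d u‖ ≤ 2 * Q := hfu
        gcongr
    _ = C1 * ((2 * C2) * ((M : ℝ) ^ p)⁻¹ + 2 * (η * Real.sqrt η)) * Q := by ring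
    _ ≤ C1 * ((2 * C2 + 2) * (((M : ℝ) ^ p)⁻¹ + η * Real.sqrt η + Real.exp (-(2 ^ I * η) / 4))) * Q := by
        refine mul_le_mul_of_nonneg_right (mul_le_mul_of_nonneg_left ?_ hC1.le) hQ0
        have h9 := Real.exp_pos (-(2 ^ I * η) / 4)
        nlinarith [mul_nonneg hC2.le hes, mul_nonneg hC2.le h9.le]
    _ ≤ _ := by
        refine mul_le_mul_of_nonneg_right ?_ hQ0
        rw [← mul_assoc]
        refine mul_le_mul_of_nonneg_right ?_ (by positivity)
        calc C1 * (2 * C2 + 2) ≤ C := le_add_of_nonneg_right hC1.le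
          _ ≤ C * (1 + 2 ^ I * η) := le_mul_of_one_le_right (by positivity) hX1

end Vale.Agent.P347
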