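import Vale.Agent.P347.MainSum
import Vale.Agent.P347.Quad

/-!
Parameters: polylogarithmically more than d^((1/4)(1+1/p)) queries suffice.
-/

open MeasureTheory ProbabilityTheory Filter
open scoped RealInnerProductSpace

namespace Vale.Agent.P347

lemma Params.Good.mono {P : Params} {d : ℕ} {Cw δ Cw' δ' : ℝ} (h : P.Good d Cw δ) (hC : Cw ≤ Cw')
    (hδ0 : 0 ≤ δ) (hδ : δ ≤ δ') : P.Good d Cw' δ' :=
  { h with
    w_abs := h.w_abs.trans hC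
    quad := fun f L hL hf => (h.quad f L hL hf).trans (by gcongr) }

/-- Binary length of d. -/
def blen (d : ℕ) : ℕ := Nat.log 2 d + 1

lemma one_le_blen (d : ℕ) : 1 ≤ blen d := Nat.succ_le_succ (Nat.zero_le _)

lemma lt_two_pow_blen (d : ℕ) : d < 2 ^ blen d := Nat.lt_pow_succ_log_self one_lt_two d

lemma two_pow_blen_le {d : ℕ} (hd : 1 ≤ d) : 2 ^ blen d ≤ 2 * d := by
  rw [blen, pow_succ]
  have := Nat.pow_log_le_self 2 (by omega : d ≠ 0)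
  omega

lemma blen_le {d : ℕ} (hd : 2 ≤ d) : blen d ≤ d := by
  have h1 : Nat.log 2 d < d := Nat.log_lt_self 2 (by omega)
  unfold blen; omega

lemma tendsto_blen : Tendsto blen atTop atTop := by
  refine tendsto_atTop.2 fun b => ?_
  filter_upwards [eventually_ge_atTop (2 ^ b)] with d hd
  exact (Nat.le_log_of_pow_le one_lt_two hd).trans (Nat.le_succ _)

lemma exp_neg_blen {d : ℕ} (hd : 1 ≤ d) (k : ℕ) :
    Real.exp (-((k : ℝ) * blen d)) ≤ ((d : ℝ) ^ k)⁻¹ := by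
  have hd0 : (0 : ℝ) < d := by exact_mod_cast hd
  have h1 : (d : ℝ) ≤ Real.exp (blen d) := by
    calc (d : ℝ) ≤ (2 : ℝ) ^ blen d := by exact_mod_cast (lt_two_pow_blen d).le
      _ ≤ Real.exp 1 ^ blen d :=
          pow_le_pow_left₀ zero_le_two (by linarith [Real.add_one_le_exp (1 : ℝ)]) _
      _ = Real.exp (blen d) := by rw [← Real.exp_nat_mul, mul_one]
  rw [Real.exp_neg, Real.exp_nat_mul]
  exact inv_anti₀ (by positivity) (pow_le_pow_left₀ hd0.le h1 k)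

lemma log_le_blen {d : ℕ} (hd : 1 ≤ d) : Real.log d ≤ blen d := by
  rw [Real.log_le_iff_le_exp (by exact_mod_cast hd)]
  have h := exp_neg_blen hd 1
  rw [pow_one, Nat.cast_one, one_mul, Real.exp_neg] at h
  exact (inv_le_inv₀ (Real.exp_pos _) (by exact_mod_cast hd)).1 h

/-- The block denominator: the initial step is its inverse. -/
noncomputable def bigE (d : ℕ) : ℕ := 16 * ⌈(d : ℝ) ^ ((1 : ℝ) / 4)⌉₊ * blen d ^ 6

lemma bigE_ge (d : ℕ) (hd : 1 ≤ d) :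
    16 ≤ bigE d ∧ Real.sqrt d * (blen d : ℝ) ^ 12 ≤ (bigE d : ℝ) ^ 2 := by
  set a := ⌈(d : ℝ) ^ ((1 : ℝ) / 4)⌉₊ with ha
  have ha1 : 1 ≤ a := Nat.one_le_iff_ne_zero.2 (by
    rw [ha, Ne, Nat.ceil_eq_zero, not_le]
    exact Real.rpow_pos_of_pos (by exact_mod_cast hd) _)
  have hl : 1 ≤ blen d ^ 6 := Nat.one_le_pow _ _ (one_le_blen d)
  refine ⟨by unfold bigE; rw [← ha]; nlinarith, ?_⟩
  have h1 : Real.sqrt d ≤ (a : ℝ) ^ 2 := by
    have h2 : ((d : ℝ) ^ ((1 : ℝ) / 4)) ^ 2 = Real.sqrt d := by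
      rw [← Real.rpow_natCast, ← Real.rpow_mul d.cast_nonneg, Real.sqrt_eq_rpow]; norm_num
    rw [← h2]
    exact pow_le_pow_left₀ (Real.rpow_nonneg d.cast_nonneg _) (Nat.le_ceil _) 2
  unfold bigE
  rw [← ha]
  push_cast
  calc Real.sqrt d * (blen d : ℝ) ^ 12 ≤ (a : ℝ) ^ 2 * (blen d : ℝ) ^ 12 * 256 := by
        refine (mul_le_mul_of_nonneg_right h1 (by positivity)).trans (le_mul_of_one_le_right ?_ ?_)
        · positivity
        · norm_num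
    _ = _ := by ring

lemma bigE_le (d : ℕ) (hd : 1 ≤ d) :
    (bigE d : ℝ) ≤ 32 * (d : ℝ) ^ ((1 : ℝ) / 4) * (blen d : ℝ) ^ 6 := by
  have h1 : (1 : ℝ) ≤ (d : ℝ) ^ ((1 : ℝ) / 4) :=
    Real.one_le_rpow (by exact_mod_cast hd) (by norm_num)
  have h2 := Nat.ceil_lt_add_one (Real.rpow_nonneg (d.cast_nonneg (α := ℝ)) ((1 : ℝ) / 4))
  unfold bigE
  push_cast
  calc _ ≤ 16 * (2 * (d : ℝ) ^ ((1 : ℝ) / 4)) * (blen d : ℝ) ^ 6 := by gcongr; linarith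
    _ = _ := by ring

/-- Polynomial size of the parameters. -/
structure Small (d : ℕ) (A : ℝ) : Prop where
  big : 2 ^ 12 ≤ d
  bigA : A ≤ d
  lenA : A ≤ blen d

lemma eventually_small (A : ℝ) : ∀ᶠ d in atTop, Small d A := by
  filter_upwards [eventually_ge_atTop (2 ^ 12),
    tendsto_natCast_atTop_atTop.eventually_ge_atTop A,
    (tendsto_natCast_atTop_atTop.comp tendsto_blen).eventually_ge_atTop A] with d h1 h2 h3
  exact ⟨h1, h2, h3⟩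

lemma err_main {C A η₀ δ Cw sd dd l lT : ℝ} {T m : ℕ} (hC : 0 ≤ C) (hA : 1 ≤ A) (hl : 1 ≤ l)
    (hη : 0 < η₀) (hη1 : η₀ ≤ 1) (hsd : 0 ≤ sd) (hdd : sd * sd = dd)
    (hX : η₀ ^ 2 * sd ≤ (l ^ 12)⁻¹) (hδ0 : 0 ≤ δ) (hδ : η₀ + δ ≤ A * l * η₀) (hCw0 : 0 ≤ Cw)
    (hCw : 1 + Cw ≤ A * l) (hT : η₀ * T = 40 * l) (hm : (m : ℝ) = 5 * l)
    (hlT0 : 0 ≤ lT) (hlT : lT ≤ 11 * l) :
    C * (1 + Cw) ^ 2 * ((η₀ * Real.sqrt η₀ * sd * (η₀ + δ)) * (2 * Real.sqrt T + m) +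
      (1 + lT + m + η₀ * (T + m)) * (η₀ * sd * (η₀ + δ) + η₀ ^ 4 * dd)) ≤
        C * A ^ 3 * 200 / l := by
  have hl0 : 0 < l := by linarith
  have hA0 : 0 ≤ A := by linarith
  set X := (l ^ 12)⁻¹ with hXd
  have hX0 : 0 ≤ X := by positivity
  have hX1 : X ≤ 1 := inv_le_one_of_one_le₀ (one_le_pow₀ hl)
  have hpre : 0 ≤ η₀ ^ 2 * sd := by positivity
  have hT' : Real.sqrt η₀ * Real.sqrt T ≤ 7 * l := by
    rw [← Real.sqrt_mul hη.le, hT, Real.sqrt_le_iff]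
    exact ⟨by linarith, by nlinarith⟩
  have hse : Real.sqrt η₀ ≤ 1 := Real.sqrt_le_one.2 hη1
  have h1 : (η₀ * Real.sqrt η₀ * sd * (η₀ + δ)) * (2 * Real.sqrt T + m) ≤ 19 * A * l ^ 2 * X := by
    calc _ = (η₀ * sd * (η₀ + δ)) * (2 * (Real.sqrt η₀ * Real.sqrt T) + Real.sqrt η₀ * m) := by
          ring
      _ ≤ (η₀ * sd * (A * l * η₀)) * (2 * (7 * l) + 1 * m) := by gcongr
      _ = 19 * A * l ^ 2 * (η₀ ^ 2 * sd) := by rw [hm]; ring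
      _ ≤ _ := by gcongr
  have h4 : η₀ ^ 4 * dd ≤ X := by
    calc η₀ ^ 4 * dd = (η₀ ^ 2 * sd) * (η₀ ^ 2 * sd) := by rw [← hdd]; ring
      _ ≤ X * 1 := mul_le_mul hX (hX.trans hX1) hpre hX0
      _ = X := mul_one X
  have h5 : η₀ * sd * (η₀ + δ) ≤ A * l * X := by
    calc _ ≤ η₀ * sd * (A * l * η₀) := by gcongr
      _ = A * l * (η₀ ^ 2 * sd) := by ring
      _ ≤ _ := by gcongr
  have hbr : 1 + lT + m + η₀ * (T + m) ≤ 62 * l := by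
    have h6 : η₀ * (m : ℝ) ≤ 1 * m := mul_le_mul_of_nonneg_right hη1 (Nat.cast_nonneg m)
    rw [mul_add, hT]
    rw [hm] at h6 ⊢
    linarith
  have hbr0 : 0 ≤ 1 + lT + m + η₀ * (T + m) := by positivity
  have h7 : (1 + lT + m + η₀ * (T + m)) * (η₀ * sd * (η₀ + δ) + η₀ ^ 4 * dd) ≤
      124 * A * l ^ 2 * X := by
    calc _ ≤ (62 * l) * (A * l * X + X) := by
          refine mul_le_mul hbr (add_le_add h5 h4) ?_ (by linarith)
          rw [← hdd]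
          positivity
      _ ≤ (62 * l) * (2 * (A * l * X)) := by
          have : 1 * X ≤ A * l * X :=
            mul_le_mul_of_nonneg_right (one_le_mul_of_one_le_of_one_le hA hl) hX0
          gcongr; linarith
      _ = _ := by ring
  have hneed : 0 ≤ 19 * A * l ^ 2 * X + 124 * A * l ^ 2 * X := by positivity
  calc _ ≤ C * (A * l) ^ 2 * (19 * A * l ^ 2 * X + 124 * A * l ^ 2 * X) := by
        refine mul_le_mul ?_ (add_le_add h1 h7) ?_ (by positivity)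
        · gcongr
        · rw [← hdd]; positivity
    _ = 143 * C * A ^ 3 * (l ^ 4 * X) := by ring
    _ ≤ 143 * C * A ^ 3 * l⁻¹ := by
        have : l ^ 4 * X ≤ l⁻¹ := by
          rw [hXd, ← div_eq_mul_inv, inv_eq_one_div, div_le_div_iff₀ (by positivity) hl0, one_mul,
            ← pow_succ]
          exact pow_le_pow_right₀ hl (by norm_num)
        gcongr
    _ ≤ _ := by
        rw [div_eq_mul_inv]
        have : 0 ≤ C * A ^ 3 * l⁻¹ := by positivity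
        linarith

lemma err_forget {C η₀ L dd Cw G : ℝ} {T m nc kG k : ℕ} (hd : (4096 : ℝ) ≤ dd) (hC : 1 ≤ C)
    (hCw0 : 0 ≤ Cw) (hCw : 1 + Cw ≤ dd ^ 2) (hn : (T : ℝ) + m ≤ dd ^ 12)
    (h2m : (2 : ℝ) ^ m / η₀ ≤ dd ^ 14) (hη : 0 < η₀) (hk : kG * 3 + 54 ≤ k)
    (hG1 : 1 ≤ G) (hG : G ≤ dd ^ (kG * 3))
    (hGeq : G = (1 + C * η₀ * (1 + Cw * η₀) ^ 2) ^ (T + m + 1))
    (hτ1 : (2 * η₀) ^ nc ≤ (dd ^ k)⁻¹) (hτ2 : Real.exp (-L / 4) ≤ (dd ^ k)⁻¹) :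
    C * (1 + Cw) ^ 4 * (T + m) ^ 2 * (2 ^ m / η₀) * (dd + 1) ^ 3 *
        (1 + C * η₀ * (1 + Cw * η₀) ^ 2) ^ (T + m + 1) *
          ((2 * η₀) ^ nc + Real.exp (-L / 4)) ≤ 2 * C / dd := by
  have hd0 : 0 < dd := by linarith
  have hd1 : dd + 1 ≤ dd ^ 2 := by nlinarith
  have hτ0 : 0 ≤ (2 * η₀) ^ nc + Real.exp (-L / 4) := by positivity
  rw [← hGeq]
  calc _ ≤ C * (dd ^ 2) ^ 4 * (dd ^ 12) ^ 2 * dd ^ 14 * (dd ^ 2) ^ 3 * dd ^ (kG * 3) *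
        ((dd ^ k)⁻¹ + (dd ^ k)⁻¹) := by gcongr
    _ = 2 * C * (dd ^ (52 + kG * 3) * (dd ^ k)⁻¹) := by ring
    _ ≤ 2 * C * dd⁻¹ := by
        gcongr
        rw [← div_eq_mul_inv, inv_eq_one_div, div_le_div_iff₀ (by positivity) hd0, one_mul,
          ← pow_succ]
        exact pow_le_pow_right₀ (by linarith) (by omega)
    _ = _ := by ring

lemma err_invariance {C η₀ L hmax dd : ℝ} {T m k : ℕ} (hd : (4096 : ℝ) ≤ dd) (hC : 1 ≤ C)
    (hn : (T : ℝ) + m ≤ dd ^ 12) (h2m : (2 : ℝ) ^ m / η₀ ≤ dd ^ 14) (hη : 0 < η₀)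
    (hL : L ≤ dd ^ 2) (hL0 : 0 ≤ L) (hh : hmax ≤ ((dd ^ 60)⁻¹) ^ 2) (hk : 54 ≤ k)
    (hτ : Real.exp (-L / 4) ≤ (dd ^ k)⁻¹) :
    C * (T + m) * (2 ^ m / η₀) ^ 2 * (dd + 1) ^ 3 *
        (L * Real.sqrt hmax + Real.exp (-L / 4)) ≤ 2 * C / dd := by
  have hd0 : 0 < dd := by linarith
  have hd1 : dd + 1 ≤ dd ^ 2 := by nlinarith
  have hs : Real.sqrt hmax ≤ (dd ^ 60)⁻¹ := Real.sqrt_le_iff.2 ⟨by positivity, hh⟩
  have key : ∀ a b : ℕ, a + 1 ≤ b → dd ^ a * (dd ^ b)⁻¹ ≤ dd⁻¹ := by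
    intro a b hab
    rw [← div_eq_mul_inv, inv_eq_one_div, div_le_div_iff₀ (by positivity) hd0, one_mul, ← pow_succ]
    exact pow_le_pow_right₀ (by linarith) hab
  calc _ ≤ C * dd ^ 12 * (dd ^ 14) ^ 2 * (dd ^ 2) ^ 3 * (dd ^ 2 * (dd ^ 60)⁻¹ + (dd ^ k)⁻¹) := by
        gcongr
    _ = C * (dd ^ 48 * (dd ^ 60)⁻¹) + C * (dd ^ 46 * (dd ^ k)⁻¹) := by ring
    _ ≤ C * dd⁻¹ + C * dd⁻¹ := by
        gcongr <;> exact key _ _ (by omega)
    _ = _ := by ring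

/-- The schedule built from the quadrature rules. -/
lemma make_schedule {p d M R I₀ T m nc : ℕ} {η₀ L Cq K hmax : ℝ} {l : ℝ} (hp : 1 ≤ p)
    (hquad : ∀ (η : ℝ) (M I R : ℕ), 0 < η → η ≤ 1 / 16 → 1 ≤ M → 1 ≤ R → 8 ≤ 2 ^ I * η →
      ∃ (q : ℕ) (node : Fin q → ℕ) (w : Fin q → ℝ),
        (q : ℝ) ≤ Cq * M * (I + 1) ∧
        ∀ (d n : ℕ), Params.Good
          { eta := η, h := η / (4 * p * M * R : ℕ), N := 2 ^ I * (4 * p * M * R),
            m := 4 * p * M * R, n := n, q := q, node := node, w := w }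
          d (Cq * (1 + 2 ^ I * η))
          (Cq * (1 + 2 ^ I * η) *
            (((M : ℝ) ^ p)⁻¹ + η * Real.sqrt η + Real.exp (-(2 ^ I * η) / 4))))
    (hCq : 0 < Cq) (hη : 0 < η₀) (hη16 : η₀ ≤ 1 / 16) (hM1 : 1 ≤ M) (hR1 : 1 ≤ R)
    (hL : L = 2 ^ I₀ * η₀) (hL8 : 8 ≤ L) (hLhi : L ≤ 2 * K * l) (hMp : ((M : ℝ) ^ p)⁻¹ ≤ η₀)
    (hexpη : Real.exp (-L / 4) ≤ η₀) (hh : ((R : ℕ) : ℝ)⁻¹ ≤ hmax) :
    ∃ P : ℕ → Params, Shape P d T m nc η₀ L hmax (3 * Cq * K * l) (9 * Cq * K * l * η₀) ∧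
      (∀ j, ∃ Cw δ : ℝ, (P j).Good d Cw δ) ∧
      ∀ j, (P j).n = nc ∧ ((P j).q : ℝ) ≤ Cq * M * ((I₀ + (j + 1 - T) : ℕ) + 1) := by
  have hrule : ∀ i : ℕ, ∃ (q : ℕ) (node : Fin q → ℕ) (w : Fin q → ℝ),
      (q : ℝ) ≤ Cq * M * ((I₀ + i : ℕ) + 1) ∧
      Params.Good { eta := η₀ / 2 ^ i, h := η₀ / 2 ^ i / (4 * p * M * R : ℕ),
                    N := 2 ^ (I₀ + i) * (4 * p * M * R), m := 4 * p * M * R, n := nc,
                    q := q, node := node, w := w }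
        d (3 * Cq * K * l) (9 * Cq * K * l * η₀) := by
    intro i
    have hηi : 0 < η₀ / 2 ^ i := by positivity
    have hηi' : η₀ / 2 ^ i ≤ η₀ := div_le_self hη.le (one_le_pow₀ one_le_two)
    have hLi : (2 : ℝ) ^ (I₀ + i) * (η₀ / 2 ^ i) = L := by
      rw [hL, pow_add]; field_simp
    obtain ⟨q, node, w, hq, hgood⟩ := hquad (η₀ / 2 ^ i) M (I₀ + i) R hηi
      (hηi'.trans hη16) hM1 hR1 (by rw [hLi]; exact hL8)
    refine ⟨q, node, w, by exact_mod_cast hq, ?_⟩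
    have hg := hgood d nc
    rw [hLi] at hg
    have hb : 1 + L ≤ 3 * K * l := by linarith
    have hs : η₀ / 2 ^ i * Real.sqrt (η₀ / 2 ^ i) ≤ η₀ := by
      calc _ ≤ η₀ * 1 := by
            gcongr
            exact Real.sqrt_le_one.2 (by linarith)
        _ = η₀ := mul_one _
    have h0 : 0 ≤ 1 + L := by linarith
    have h3 : 0 ≤ Cq * (3 * K * l) := mul_nonneg hCq.le (by linarith)
    refine hg.mono ?_ ?_ ?_
    · calc Cq * (1 + L) ≤ Cq * (3 * K * l) := by gcongr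
        _ = _ := by ring
    · positivity
    · calc Cq * (1 + L) * (((M : ℝ) ^ p)⁻¹ + η₀ / 2 ^ i * Real.sqrt (η₀ / 2 ^ i) +
            Real.exp (-L / 4)) ≤ Cq * (3 * K * l) * (η₀ + η₀ + η₀) := by
              gcongr
        _ = _ := by ring
  choose qf nodef wf hqf hgoodf using hrule
  set P : ℕ → Params := fun j =>
    { eta := η₀ / 2 ^ (j + 1 - T), h := η₀ / 2 ^ (j + 1 - T) / (4 * p * M * R : ℕ),
      N := 2 ^ (I₀ + (j + 1 - T)) * (4 * p * M * R), m := 4 * p * M * R, n := nc,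
      q := qf (j + 1 - T), node := nodef (j + 1 - T), w := wf (j + 1 - T) } with hP
  refine ⟨P, ?_, fun j => ⟨_, _, hgoodf _⟩, fun j => ⟨rfl, by exact_mod_cast hqf _⟩⟩
  have hn0 : (0 : ℝ) < (4 * p * M * R : ℕ) := by
    exact_mod_cast Nat.mul_pos (Nat.mul_pos (Nat.mul_pos (by norm_num) hp) hM1) hR1
  refine ⟨fun j _ => hgoodf _, fun j _ => rfl, fun j hj => ?_, fun j _ => ?_, fun j _ => ?_,
    fun j _ => rfl⟩
  · have e1 : j + 1 - T = 0 := by omega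
    have e2 : 0 + 1 - T = 0 := by omega
    simp only [hP, e1, e2, and_self]
  · simp only [hP, hL]
    push_cast [pow_add]
    field_simp
  · simp only [hP]
    calc η₀ / 2 ^ (j + 1 - T) / (4 * p * M * R : ℕ) ≤ 1 / (4 * p * M * R : ℕ) := by
          gcongr
          exact (div_le_self hη.le (one_le_pow₀ one_le_two)).trans (by linarith)
      _ ≤ (R : ℝ)⁻¹ := by
          rw [one_div]
          refine inv_anti₀ (by exact_mod_cast hR1) ?_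
          exact_mod_cast Nat.le_mul_of_pos_left R (by positivity)
      _ ≤ hmax := hh

/-- Growth of the second derivatives over the schedule. -/
lemma growth_le {C η₀ c dd : ℝ} {n l kG : ℕ} (hC : 0 ≤ C) (hη : 0 ≤ η₀) (hc : 0 ≤ c) (hc1 : c ≤ 1)
    (hn : η₀ * n ≤ 46 * l) (hkG : 184 * C ≤ kG) (h2l : (2 : ℝ) ^ l ≤ 2 * dd) (hd : 4 ≤ dd) :
    (1 + C * η₀ * (1 + c) ^ 2) ^ n ≤ dd ^ (kG * 3) := by
  have h1 : 1 + C * η₀ * (1 + c) ^ 2 ≤ Real.exp (4 * C * η₀) := by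
    have h4 : (1 + c) ^ 2 ≤ 4 := by nlinarith
    have := mul_le_mul_of_nonneg_left h4 (mul_nonneg hC hη)
    linarith [Real.add_one_le_exp (4 * C * η₀)]
  have h2 : Real.exp l ≤ dd ^ 3 := by
    calc Real.exp l = Real.exp 1 ^ l := by rw [← Real.exp_nat_mul, mul_one]
      _ ≤ ((2 : ℝ) ^ 2) ^ l :=
          pow_le_pow_left₀ (Real.exp_pos 1).le (by linarith [Real.exp_one_lt_three]) l
      _ = ((2 : ℝ) ^ l) ^ 2 := by rw [← pow_mul, ← pow_mul, mul_comm]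
      _ ≤ (2 * dd) ^ 2 := pow_le_pow_left₀ (by positivity) h2l 2
      _ = 4 * dd ^ 2 := by ring
      _ ≤ dd * dd ^ 2 := mul_le_mul_of_nonneg_right hd (sq_nonneg dd)
      _ = dd ^ 3 := by ring
  calc (1 + C * η₀ * (1 + c) ^ 2) ^ n ≤ Real.exp (4 * C * η₀) ^ n :=
        pow_le_pow_left₀ (by positivity) h1 n
    _ = Real.exp (4 * C * (η₀ * n)) := by rw [← Real.exp_nat_mul]; ring_nf
    _ ≤ Real.exp ((kG : ℝ) * l) := by
        refine Real.exp_le_exp.2 ?_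
        calc 4 * C * (η₀ * n) ≤ 4 * C * (46 * l) :=
              mul_le_mul_of_nonneg_left hn (by positivity)
          _ = 184 * C * l := by ring
          _ ≤ _ := mul_le_mul_of_nonneg_right hkG (Nat.cast_nonneg l)
    _ = Real.exp l ^ kG := by rw [← Real.exp_nat_mul]
    _ ≤ (dd ^ 3) ^ kG := pow_le_pow_left₀ (Real.exp_pos _).le h2 kG
    _ = _ := by rw [← pow_mul, mul_comm]

/-- The forgetting factor of the centres. -/
lemma forget_factor {η₀ : ℝ} {K k l : ℕ} (hη : 0 ≤ η₀) (hη16 : η₀ ≤ 1 / 16) (hkK : k ≤ K) :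
    (2 * η₀) ^ (K * l) ≤ Real.exp (-((k : ℝ) * l)) := by
  calc (2 * η₀) ^ (K * l) ≤ (1 / 8 : ℝ) ^ (K * l) :=
        pow_le_pow_left₀ (by linarith) (by linarith) _
    _ ≤ (1 / 8 : ℝ) ^ (k * l) :=
        pow_le_pow_of_le_one (by norm_num) (by norm_num) (Nat.mul_le_mul_right l hkK)
    _ ≤ Real.exp (-1) ^ (k * l) := by
        refine pow_le_pow_left₀ (by norm_num) ?_ _
        rw [Real.exp_neg, one_div]
        exact inv_anti₀ (Real.exp_pos 1) (by linarith [Real.exp_one_lt_three])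
    _ = _ := by rw [← Real.exp_nat_mul]; push_cast; ring_nf

/-- The error of the start. -/
lemma err_start {C η₀ dd : ℝ} {T : ℕ} (hd : 1 ≤ dd) (hC : 0 ≤ C) (hη : 0 < η₀) (hη1 : η₀ ≤ 1)
    (hηinv : η₀⁻¹ ≤ dd ^ 8) (hexp : Real.exp (-(η₀ * T / 4)) ≤ (dd ^ 10)⁻¹) :
    C / Real.sqrt η₀ * (1 - η₀ / 4) ^ T * (1 + dd) ≤ 2 * C / dd := by
  have hd0 : 0 < dd := by linarith
  have h1 : (1 - η₀ / 4) ^ T ≤ (dd ^ 10)⁻¹ := by
    refine le_trans ?_ hexp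
    calc (1 - η₀ / 4) ^ T ≤ Real.exp (-(η₀ / 4)) ^ T :=
          pow_le_pow_left₀ (by linarith) (by linarith [Real.add_one_le_exp (-(η₀ / 4))]) _
      _ = Real.exp (-(η₀ * T / 4)) := by rw [← Real.exp_nat_mul]; ring_nf
  have h2 : (Real.sqrt η₀)⁻¹ ≤ dd ^ 8 := by
    refine le_trans (inv_anti₀ hη ?_) hηinv
    exact Real.le_sqrt_of_sq_le (by nlinarith)
  calc C / Real.sqrt η₀ * (1 - η₀ / 4) ^ T * (1 + dd)
      ≤ C * dd ^ 8 * (dd ^ 10)⁻¹ * (2 * dd) := by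
        rw [div_eq_mul_inv]
        exact mul_le_mul (mul_le_mul (mul_le_mul_of_nonneg_left h2 hC) h1
          (pow_nonneg (by linarith) _) (by positivity)) (by linarith) (by linarith) (by positivity)
    _ = _ := by field_simp

/-- The error of the final smoothing. -/
lemma err_smooth {η₀ dd : ℝ} {m : ℕ} (hd : 1 ≤ dd) (hη1 : η₀ ≤ 1)
    (hm : dd ^ 4 ≤ (2 : ℝ) ^ m) : 2 * dd * Real.sqrt (η₀ / 2 ^ m / 2) ≤ 2 / dd := by
  have hd0 : 0 < dd := by linarith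
  have h1 : Real.sqrt (η₀ / 2 ^ m / 2) ≤ (dd ^ 2)⁻¹ := by
    refine Real.sqrt_le_iff.2 ⟨by positivity, ?_⟩
    rw [inv_pow, ← pow_mul, inv_eq_one_div, div_div, show 2 * 2 = 4 from rfl]
    exact div_le_div₀ zero_le_one hη1 (by positivity)
      (by linarith [pow_pos (two_pos : (0 : ℝ) < 2) m])
  calc 2 * dd * Real.sqrt (η₀ / 2 ^ m / 2) ≤ 2 * dd * (dd ^ 2)⁻¹ :=
        mul_le_mul_of_nonneg_left h1 (by linarith)
    _ = _ := by field_simp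

/-- The number of steps and the inverse of the last step are polynomial in d. -/
lemma sizes_le {η₀ dd : ℝ} {T m l : ℕ} (hd : (4096 : ℝ) ≤ dd) (hη : 0 < η₀)
    (hl1 : 1 ≤ l) (hld : (l : ℝ) ≤ dd) (hηinv : η₀⁻¹ ≤ dd ^ 8) (hT : η₀ * T = 40 * l)
    (hm : m = 5 * l) (h2l : (2 : ℝ) ^ l ≤ 2 * dd) :
    1 ≤ T ∧ Real.log T ≤ 10 * Real.log dd ∧ (T : ℝ) + m + 1 ≤ dd ^ 12 ∧
      (2 : ℝ) ^ m / η₀ ≤ dd ^ 14 := by
  have hd1 : 1 ≤ dd := by linarith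
  have hd0 : 0 < dd := by linarith
  have hl' : (1 : ℝ) ≤ l := by exact_mod_cast hl1
  have hT0 : (0 : ℝ) < T := by
    by_contra h
    have : (T : ℝ) = 0 := le_antisymm (not_lt.1 h) (Nat.cast_nonneg T)
    rw [this] at hT
    linarith
  have hTl : (T : ℝ) = 40 * (l * η₀⁻¹) := by
    rw [← mul_assoc, ← hT]; field_simp
  have hTb : (T : ℝ) ≤ dd ^ 10 := by
    rw [hTl]
    calc 40 * ((l : ℝ) * η₀⁻¹) ≤ dd * (dd * dd ^ 8) :=
          mul_le_mul (by linarith) (mul_le_mul hld hηinv (by positivity) hd0.le) (by positivity)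
            hd0.le
      _ = _ := by ring
  refine ⟨by exact_mod_cast hT0, ?_, ?_, ?_⟩
  · have h := Real.log_le_log hT0 hTb
    rw [Real.log_pow] at h
    exact_mod_cast h
  · have h9 : dd ≤ dd ^ 10 := by
      calc dd = dd ^ 1 := (pow_one dd).symm
        _ ≤ dd ^ 10 := pow_le_pow_right₀ hd1 (by norm_num)
    have hm' : (m : ℝ) = 5 * l := by rw [hm]; push_cast; ring
    calc (T : ℝ) + m + 1 ≤ 7 * dd ^ 10 := by linarith
      _ ≤ dd ^ 2 * dd ^ 10 := mul_le_mul_of_nonneg_right (by nlinarith) (by positivity)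
      _ = _ := by ring
  · rw [div_eq_mul_inv, hm, mul_comm 5 l, pow_mul]
    calc ((2 : ℝ) ^ l) ^ 5 * η₀⁻¹ ≤ (2 * dd) ^ 5 * dd ^ 8 :=
          mul_le_mul (pow_le_pow_left₀ (by positivity) h2l 5) hηinv (by positivity) (by positivity)
      _ = 32 * dd ^ 13 := by ring
      _ ≤ dd * dd ^ 13 := mul_le_mul_of_nonneg_right (by linarith) (by positivity)
      _ = _ := by ring

/-- The schedule error is at most 1/10 for the chosen sizes. -/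
lemma bound_small {C Cq A η₀ L hmax : ℝ} {d T m K k kG l : ℕ}
    (hd : (4096 : ℝ) ≤ (d : ℝ)) (hC : 1 ≤ C) (hCq : 0 < Cq) (hA : 1 ≤ A) (hl1 : 1 ≤ l)
    (hld : (l : ℝ) ≤ d) (hAd : A ≤ d) (hKd : 2 * (K : ℝ) ≤ d)
    (hlbig : 20 * (C * A ^ 3 * 200 + 6 * C + 2) ≤ (l : ℝ))
    (hk : k = 3 * kG + 54) (hK : K = 4 * k) (hkG : 184 * C ≤ kG)
    (hη : 0 < η₀) (hη16 : η₀ ≤ 1 / 16) (hX : η₀ ^ 2 * Real.sqrt d ≤ ((l : ℝ) ^ 12)⁻¹)
    (hηinv : η₀⁻¹ ≤ (d : ℝ) ^ 8) (hT : η₀ * T = 40 * l) (hm : m = 5 * l)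
    (hexp : ∀ j : ℕ, Real.exp (-((j : ℝ) * l)) ≤ ((d : ℝ) ^ j)⁻¹)
    (hlog : Real.log d ≤ l) (h2l : (2 : ℝ) ^ l ≤ 2 * d) (hdl : (d : ℝ) ≤ 2 ^ l)
    (hL0 : 0 ≤ L) (hLhi : L ≤ 2 * K * l) (hexpL : Real.exp (-L / 4) ≤ ((d : ℝ) ^ k)⁻¹)
    (hhmax : hmax ≤ (((d : ℝ) ^ 60)⁻¹) ^ 2)
    (hCwA : 1 + 3 * Cq * K * l ≤ A * l)
    (hδA : η₀ + 9 * Cq * K * l * η₀ ≤ A * l * η₀) (hAη : A * l * η₀ ≤ 1) :
    schedErr C d T m (K * l) η₀ L hmax (3 * Cq * K * l) (9 * Cq * K * l * η₀) ≤ 1 / 10 := by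
  obtain ⟨hT1, hlogT, hn, h2m⟩ := sizes_le hd hη hl1 hld hηinv hT hm h2l
  have hl1' : (1 : ℝ) ≤ l := by exact_mod_cast hl1
  have hd1 : (1 : ℝ) ≤ d := by linarith
  have hm' : (m : ℝ) = 5 * l := by rw [hm]; push_cast; ring
  have hCw0 : 0 ≤ 3 * Cq * K * l := by positivity
  have hδ0 : 0 ≤ 9 * Cq * K * l * η₀ := by positivity
  have t1 := err_main (C := C) (sd := Real.sqrt d) (dd := (d : ℝ)) (lT := Real.log T) (m := m)
    (by linarith) hA hl1' hη (by linarith) (Real.sqrt_nonneg _)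
    (Real.mul_self_sqrt d.cast_nonneg) hX hδ0 hδA hCw0 hCwA hT hm'
    (Real.log_natCast_nonneg T) (by linarith)
  have hG : (1 + C * η₀ * (1 + 3 * Cq * K * l * η₀) ^ 2) ^ (T + m + 1) ≤
      (d : ℝ) ^ (kG * 3) := by
    refine growth_le (by linarith) hη.le (by positivity) ?_ ?_ hkG h2l (by linarith)
    · have : 3 * Cq * K * l * η₀ ≤ A * l * η₀ :=
        mul_le_mul_of_nonneg_right (by linarith) hη.le
      linarith
    · push_cast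
      rw [mul_add, mul_add, hT, hm', mul_one]
      have h5 : η₀ * (5 * (l : ℝ)) ≤ 1 * (5 * l) :=
        mul_le_mul_of_nonneg_right (by linarith) (by positivity)
      linarith
  have hGge : 1 ≤ (1 + C * η₀ * (1 + 3 * Cq * K * l * η₀) ^ 2) ^ (T + m + 1) := by
    refine one_le_pow₀ ?_
    have : 0 ≤ C * η₀ * (1 + 3 * Cq * K * l * η₀) ^ 2 := by positivity
    linarith
  have hτ1 : (2 * η₀) ^ (K * l) ≤ ((d : ℝ) ^ k)⁻¹ :=
    (forget_factor hη.le hη16 (by omega)).trans (hexp k)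
  have hCwd : 1 + 3 * Cq * K * l ≤ (d : ℝ) ^ 2 := by
    calc _ ≤ A * l := hCwA
      _ ≤ (d : ℝ) * d := mul_le_mul hAd hld (by linarith) (by linarith)
      _ = _ := (sq (d : ℝ)).symm
  have hnm : (T : ℝ) + m ≤ (d : ℝ) ^ 12 := by linarith
  have t2 := err_forget (T := T) (m := m) (nc := K * l) (kG := kG) (k := k) (L := L) hd hC hCw0
    hCwd hnm h2m hη (by omega) hGge hG rfl hτ1 hexpL
  have hLd : L ≤ (d : ℝ) ^ 2 := by
    calc L ≤ 2 * K * l := hLhi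
      _ ≤ (d : ℝ) * d := mul_le_mul hKd hld (by linarith) (by linarith)
      _ = _ := (sq (d : ℝ)).symm
  have t3 := err_invariance (T := T) (m := m) (k := k) (L := L) (hmax := hmax) hd hC hnm h2m hη
    hLd hL0 hhmax (by omega) hexpL
  have t4 : C / Real.sqrt η₀ * (1 - η₀ / 4) ^ T * (1 + (d : ℝ)) ≤ 2 * C / d := by
    refine err_start hd1 (by linarith) hη (by linarith) hηinv ?_
    refine le_trans (le_of_eq ?_) (hexp 10)
    rw [hT]; push_cast; ring_nf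
  have t5 : 2 * (d : ℝ) * Real.sqrt (η₀ / 2 ^ m / 2) ≤ 2 / d := by
    refine err_smooth hd1 (by linarith) ?_
    rw [hm, mul_comm 5 l, pow_mul]
    exact (pow_le_pow_right₀ hd1 (by norm_num : 4 ≤ 5)).trans
      (pow_le_pow_left₀ (by linarith) hdl 5)
  have hsum : schedErr C d T m (K * l) η₀ L hmax (3 * Cq * K * l) (9 * Cq * K * l * η₀) ≤
      C * A ^ 3 * 200 / l + 2 * C / d + 2 * C / d + 2 * C / d + 2 / d := by
    unfold schedErr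
    exact add_le_add (add_le_add (add_le_add (add_le_add t1 t2) t3) t4) t5
  refine hsum.trans ?_
  have h6 : ∀ c : ℝ, 0 ≤ c → c / d ≤ c / (l : ℝ) := fun c hc =>
    div_le_div_of_nonneg_left hc (by linarith) hld
  have e1 := h6 (2 * C) (by linarith)
  have e2 := h6 2 (by norm_num)
  calc _ ≤ C * A ^ 3 * 200 / l + 2 * C / l + 2 * C / l + 2 * C / l + 2 / l := by linarith
    _ = (C * A ^ 3 * 200 + 6 * C + 2) / l := by ring
    _ ≤ _ := by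
        rw [div_le_iff₀ (by linarith)]
        linarith

lemma inv_natCast_pow (n a b : ℕ) : ((n ^ (a * b) : ℕ) : ℝ)⁻¹ = (((n : ℝ) ^ a)⁻¹) ^ b := by
  rw [Nat.cast_pow, inv_pow, pow_mul]

/-- Block length: the least power of two giving horizon K l. -/
lemma horizon {K l E : ℕ} {η₀ : ℝ} (hE : 0 < E) (hZ : 1 < K * l * E) (hη : η₀ = (E : ℝ)⁻¹) :
    ∃ I₀ : ℕ, (K : ℝ) * l ≤ 2 ^ I₀ * η₀ ∧ 2 ^ I₀ * η₀ ≤ 2 * K * l ∧
      (2 : ℝ) ^ I₀ ≤ 2 * (K * l * E) := by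
  refine ⟨Nat.clog 2 (K * l * E), ?_⟩
  have h1 : ((K * l * E : ℕ) : ℝ) ≤ ((2 ^ Nat.clog 2 (K * l * E) : ℕ) : ℝ) := by
    exact_mod_cast Nat.le_pow_clog one_lt_two _
  have h2 : ((2 ^ Nat.clog 2 (K * l * E) : ℕ) : ℝ) ≤ ((2 * (K * l * E) : ℕ) : ℝ) := by
    have h := Nat.pow_pred_clog_lt_self one_lt_two hZ
    have h' : 1 ≤ Nat.clog 2 (K * l * E) := Nat.clog_pos one_lt_two hZ
    have he : 2 ^ Nat.clog 2 (K * l * E) = 2 * 2 ^ (Nat.clog 2 (K * l * E) - 1) := by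
      rw [← pow_succ']; congr 1; omega
    rw [Nat.pred_eq_sub_one] at h
    exact_mod_cast (by omega : 2 ^ Nat.clog 2 (K * l * E) ≤ 2 * (K * l * E))
  push_cast at h1 h2
  have hE0 : (0 : ℝ) < E := by exact_mod_cast hE
  refine ⟨?_, ?_, h2⟩
  · rw [hη, ← div_eq_mul_inv, le_div_iff₀ hE0]; exact h1
  · rw [hη, ← div_eq_mul_inv, div_le_iff₀ hE0]; linarith

lemma horizon_index {d l K E I₀ : ℕ} (hd : 1 ≤ d) (hl : l = blen d) (hld : (l : ℝ) ≤ d)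
    (hK : (K : ℝ) ≤ d) (hE : (E : ℝ) ≤ (d : ℝ) ^ 8) (h : (2 : ℝ) ^ I₀ ≤ 2 * (K * l * E)) :
    I₀ ≤ 10 * l := by
  have hd0 : (0 : ℝ) < d := by exact_mod_cast hd
  have h2 : (d : ℝ) < (2 : ℝ) ^ l := by rw [hl]; exact_mod_cast lt_two_pow_blen d
  have h3 : (2 : ℝ) ^ I₀ < 2 ^ (10 * l + 1) := by
    calc (2 : ℝ) ^ I₀ ≤ 2 * (K * l * E) := h
      _ ≤ 2 * ((d : ℝ) * d * d ^ 8) :=
          mul_le_mul_of_nonneg_left
            (mul_le_mul (mul_le_mul hK hld (Nat.cast_nonneg l) hd0.le) hE (Nat.cast_nonneg E)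
              (by positivity)) (by norm_num)
      _ = (d : ℝ) ^ 10 * 2 := by ring
      _ < ((2 : ℝ) ^ l) ^ 10 * 2 :=
          mul_lt_mul_of_pos_right (pow_lt_pow_left₀ h2 hd0.le (by norm_num)) two_pos
      _ = _ := by rw [← pow_mul, ← pow_succ, mul_comm l 10]
  have := (pow_lt_pow_iff_right₀ (one_lt_two : (1 : ℝ) < 2)).1 h3
  omega

/-- The arithmetic of the number of queries. -/
lemma query_bound {c E D l M r : ℝ} (hc : 0 ≤ c) (hl : 1 ≤ l) (hE : 0 < E) (hD : 0 ≤ D)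
    (hr0 : 0 ≤ r) (hr : r ≤ 1) (hM : M ≤ 2 * E ^ r) (hED : E ≤ 32 * D * l ^ 6) :
    45 * l * E * (c * l * M) ≤ 90 * 32 ^ 2 * c * l ^ 14 * D ^ (1 + r) := by
  have hl0 : 0 ≤ l := by linarith
  have h32 : (32 : ℝ) ^ (1 + r) ≤ 32 ^ 2 := by
    calc (32 : ℝ) ^ (1 + r) ≤ (32 : ℝ) ^ (2 : ℝ) :=
          Real.rpow_le_rpow_of_exponent_le (by norm_num) (by linarith)
      _ = _ := Real.rpow_two 32
  have hl6 : (l ^ 6) ^ (1 + r) ≤ l ^ 12 := by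
    calc (l ^ 6) ^ (1 + r) ≤ (l ^ 6) ^ (2 : ℝ) :=
          Real.rpow_le_rpow_of_exponent_le (one_le_pow₀ hl) (by linarith)
      _ = _ := by rw [Real.rpow_two]; ring
  have hEp : E ^ (1 + r) ≤ 32 ^ 2 * D ^ (1 + r) * l ^ 12 := by
    calc E ^ (1 + r) ≤ (32 * D * l ^ 6) ^ (1 + r) :=
          Real.rpow_le_rpow hE.le hED (by linarith)
      _ = (32 : ℝ) ^ (1 + r) * D ^ (1 + r) * (l ^ 6) ^ (1 + r) := by
          rw [Real.mul_rpow (by positivity) (by positivity),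
            Real.mul_rpow (by norm_num) hD]
      _ ≤ _ := by gcongr
  calc 45 * l * E * (c * l * M) ≤ 45 * l * E * (c * l * (2 * E ^ r)) := by gcongr
    _ = 90 * c * l ^ 2 * E ^ (1 + r) := by rw [Real.rpow_add hE, Real.rpow_one]; ring
    _ ≤ 90 * c * l ^ 2 * (32 ^ 2 * D ^ (1 + r) * l ^ 12) := by gcongr
    _ = _ := by ring

/-- For every order p, polylog(d) d^((1/4)(1+1/p)) queries suffice. -/
theorem samples_upper (p : ℕ) (hp : 1 ≤ p) :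
    ∃ B : ℝ, 0 < B ∧ ∀ᶠ d : ℕ in atTop, ∃ q : ℕ, Samples d q ∧
      (q : ℝ) ≤ B * (blen d : ℝ) ^ 14 * (d : ℝ) ^ ((1 : ℝ) / 4 * (1 + 1 / p)) := by
  obtain ⟨C, hC, herr⟩ := schedule_error
  obtain ⟨Cq, hCq, hquad⟩ := quad_rule p hp
  obtain ⟨kG, hkG⟩ : ∃ kG : ℕ, 184 * C ≤ kG := exists_nat_ge _
  obtain ⟨k, hk⟩ : ∃ k : ℕ, k = 3 * kG + 54 := ⟨_, rfl⟩
  obtain ⟨K, hK⟩ : ∃ K : ℕ, K = 4 * k := ⟨_, rfl⟩
  obtain ⟨A, hA⟩ : ∃ A : ℝ, A = 2 + 9 * Cq * K := ⟨_, rfl⟩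
  refine ⟨90 * 32 ^ 2 * (K + 32 * Cq + 2), by positivity, ?_⟩
  have hK8 : 8 ≤ K := by omega
  have hAK : (1 : ℝ) ≤ A := by
    have : (0 : ℝ) ≤ 9 * Cq * K := by positivity
    linarith
  filter_upwards [eventually_small A, eventually_small (2 * K),
    eventually_small (20 * (C * A ^ 3 * 200 + 6 * C + 2))] with d hdA hdK hdE
  have hbig : 4096 ≤ d := le_trans (by norm_num) hdA.big
  have hd1 : 1 ≤ d := le_trans (by norm_num) hbig
  have hd : (4096 : ℝ) ≤ d := by exact_mod_cast hbig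
  have hAlen := hdA.lenA
  have hElen := hdE.lenA
  obtain ⟨l, hl⟩ : ∃ l, l = blen d := ⟨_, rfl⟩
  rw [← hl] at hAlen hElen
  have hl1 : 1 ≤ l := hl ▸ one_le_blen d
  have hl1' : (1 : ℝ) ≤ l := by exact_mod_cast hl1
  have hld : (l : ℝ) ≤ d := by
    rw [hl]; exact_mod_cast blen_le (le_trans (by norm_num) hbig)
  obtain ⟨hE16, hE2⟩ := bigE_ge d hd1
  have hEle := bigE_le d hd1
  have hEl2 : l ^ 6 ≤ bigE d := by
    unfold bigE; rw [← hl]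
    refine Nat.le_mul_of_pos_left _ ?_
    have : 0 < ⌈(d : ℝ) ^ ((1 : ℝ) / 4)⌉₊ :=
      Nat.ceil_pos.2 (Real.rpow_pos_of_pos (by exact_mod_cast hd1) _)
    positivity
  obtain ⟨E, hE⟩ : ∃ E, E = bigE d := ⟨_, rfl⟩
  rw [← hE] at hE16 hE2 hEle hEl2
  rw [← hl] at hE2 hEle
  have hE0 : (0 : ℝ) < E := by exact_mod_cast lt_of_lt_of_le (by norm_num) hE16
  have hEd : (E : ℝ) ≤ (d : ℝ) ^ 8 := by
    refine hEle.trans ?_
    calc 32 * (d : ℝ) ^ ((1 : ℝ) / 4) * (l : ℝ) ^ 6 ≤ d * d * (d : ℝ) ^ 6 := by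
          refine mul_le_mul (mul_le_mul (by linarith)
            (Real.rpow_le_self_of_one_le (by linarith) (by norm_num)) (by positivity)
            (by positivity)) (pow_le_pow_left₀ (by positivity) hld 6) (by positivity)
            (by positivity)
      _ = _ := by ring
  obtain ⟨η₀, hη₀⟩ : ∃ x : ℝ, x = (E : ℝ)⁻¹ := ⟨_, rfl⟩
  have hη : 0 < η₀ := by rw [hη₀]; positivity
  have hη16 : η₀ ≤ 1 / 16 := by
    rw [hη₀, one_div]
    exact inv_anti₀ (by norm_num) (by exact_mod_cast hE16)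
  have hηinv : η₀⁻¹ ≤ (d : ℝ) ^ 8 := by rw [hη₀, inv_inv]; exact hEd
  have hX : η₀ ^ 2 * Real.sqrt d ≤ ((l : ℝ) ^ 12)⁻¹ := by
    rw [hη₀, inv_pow, ← div_eq_inv_mul, inv_eq_one_div,
      div_le_div_iff₀ (by positivity) (by positivity), one_mul]
    exact hE2
  obtain ⟨M, hM⟩ : ∃ M : ℕ, M = ⌈(E : ℝ) ^ ((1 : ℝ) / p)⌉₊ := ⟨_, rfl⟩
  have hEp1 : 1 ≤ (E : ℝ) ^ ((1 : ℝ) / p) :=
    Real.one_le_rpow (by exact_mod_cast le_trans (by norm_num) hE16) (by positivity)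
  have hM1 : 1 ≤ M := by
    rw [hM]; exact Nat.one_le_ceil_iff.2 (by linarith)
  have hMp : ((M : ℝ) ^ p)⁻¹ ≤ η₀ := by
    rw [hη₀]
    refine inv_anti₀ hE0 ?_
    calc (E : ℝ) = ((E : ℝ) ^ ((1 : ℝ) / p)) ^ p := by
          rw [← Real.rpow_natCast, ← Real.rpow_mul hE0.le,
            one_div_mul_cancel (by exact_mod_cast (by omega : p ≠ 0)), Real.rpow_one]
      _ ≤ _ := pow_le_pow_left₀ (by positivity) (hM ▸ Nat.le_ceil _) p
  have hZ1 : 1 < K * l * E := by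
    have h1 : 8 * 1 * 16 ≤ K * l * E := Nat.mul_le_mul (Nat.mul_le_mul hK8 hl1) hE16
    omega
  obtain ⟨I₀, hLlo, hLhi, hI₀hi⟩ := horizon (η₀ := η₀) (by omega) hZ1 hη₀
  obtain ⟨L, hL⟩ : ∃ L : ℝ, L = 2 ^ I₀ * η₀ := ⟨_, rfl⟩
  rw [← hL] at hLlo hLhi
  have hK8' : (8 : ℝ) ≤ K := by exact_mod_cast hK8
  have hL8 : 8 ≤ L := by
    have : (8 : ℝ) * 1 ≤ (K : ℝ) * l := mul_le_mul hK8' hl1' zero_le_one (by linarith)
    linarith
  have hexp : ∀ j : ℕ, Real.exp (-((j : ℝ) * l)) ≤ ((d : ℝ) ^ j)⁻¹ := fun j => by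
    rw [hl]; exact exp_neg_blen hd1 j
  have hexpL : Real.exp (-L / 4) ≤ ((d : ℝ) ^ k)⁻¹ := by
    refine le_trans (Real.exp_le_exp.2 ?_) (hexp k)
    have : (K : ℝ) = 4 * k := by rw [hK]; push_cast; ring
    rw [this] at hLlo
    linarith
  have hexpη : Real.exp (-L / 4) ≤ η₀ := by
    refine hexpL.trans ?_
    rw [hη₀]
    exact inv_anti₀ hE0 (hEd.trans (pow_le_pow_right₀ (by linarith) (by omega)))
  obtain ⟨R, hR⟩ : ∃ R, R = d ^ (60 * 2) := ⟨_, rfl⟩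
  have hR1 : 1 ≤ R := hR ▸ Nat.one_le_pow _ _ hd1
  have hRh : ((R : ℕ) : ℝ)⁻¹ ≤ (((d : ℝ) ^ 60)⁻¹) ^ 2 := by
    rw [hR, inv_natCast_pow]
  obtain ⟨T, hT⟩ : ∃ T : ℕ, T = 40 * l * E := ⟨_, rfl⟩
  obtain ⟨m, hm⟩ : ∃ m : ℕ, m = 5 * l := ⟨_, rfl⟩
  have hηT : η₀ * (T : ℝ) = 40 * l := by
    rw [hT, hη₀]; push_cast; field_simp
  obtain ⟨P, hS, hgoodP, hPn⟩ := make_schedule (d := d) (T := T) (m := m) (nc := K * l)
    (l := (l : ℝ)) (K := (K : ℝ)) hp hquad hCq hη hη16 hM1 hR1 hL hL8 hLhi hMp hexpη hRh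
  have hAl : 1 + 9 * Cq * K * l ≤ A * l := by rw [hA]; linarith
  have hCwA : 1 + 3 * Cq * K * l ≤ A * l := by
    have : 0 ≤ Cq * (K : ℝ) * l := by positivity
    linarith
  have hδA : η₀ + 9 * Cq * K * l * η₀ ≤ A * l * η₀ := by
    calc _ = (1 + 9 * Cq * K * l) * η₀ := by ring
      _ ≤ _ := mul_le_mul_of_nonneg_right hAl hη.le
  have hAη : A * l * η₀ ≤ 1 := by
    rw [hη₀, ← div_eq_mul_inv, div_le_one hE0]
    calc A * (l : ℝ) ≤ (l : ℝ) * l := mul_le_mul_of_nonneg_right hAlen (by linarith)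
      _ = (l : ℝ) ^ 2 := (sq (l : ℝ)).symm
      _ ≤ (l : ℝ) ^ 6 := pow_le_pow_right₀ hl1' (by norm_num)
      _ ≤ E := by exact_mod_cast hEl2
  have hKd : 2 * (K : ℝ) ≤ d := hdK.bigA
  have hbound := bound_small (hmax := (((d : ℝ) ^ 60)⁻¹) ^ 2) hd hC hCq hAK hl1 hld hdA.bigA hKd
    hElen hk hK hkG hη hη16 hX hηinv hηT hm hexp (by rw [hl]; exact log_le_blen hd1)
    (by rw [hl]; exact_mod_cast two_pow_blen_le hd1)
    (by rw [hl]; exact_mod_cast (lt_two_pow_blen d).le)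
    (by linarith) hLhi hexpL le_rfl hCwA hδA hAη
  have hT1 : 1 ≤ T := by
    have : 0 < 40 * l * E := by positivity
    omega
  have hηδ : η₀ + 9 * Cq * K * l * η₀ ≤ 1 := hδA.trans hAη
  have hsched := samples_of_schedule d (T + m) P (η₀ / 2 ^ m / 2) (by positivity)
    (fun j _ => hgoodP j) (fun V hV ψ hψc hψb =>
      (herr d T m (K * l) P η₀ L _ _ _ hS hT1 (by omega)
        (Nat.mul_pos (by omega) hl1) hηδ (by positivity) V hV ψ hψc hψb).trans hbound)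
  refine ⟨_, hsched, ?_⟩
  have hI₀l : I₀ ≤ 10 * l := horizon_index hd1 hl hld (by linarith) hEd hI₀hi
  have hper : ∀ j ∈ Finset.range (T + m), (((P j).n + 2 * (P j).q + 2 : ℕ) : ℝ) ≤
      ((K : ℝ) + 32 * Cq + 2) * l * M := by
    intro j hj
    have hj' := Finset.mem_range.1 hj
    obtain ⟨hn, hq⟩ := hPn j
    have hi : ((I₀ + (j + 1 - T) : ℕ) : ℝ) + 1 ≤ 16 * l := by
      have h : I₀ + (j + 1 - T) + 1 ≤ 16 * l := by omega
      exact_mod_cast h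
    have hlM : (1 : ℝ) ≤ l * M := one_le_mul_of_one_le_of_one_le hl1' (by exact_mod_cast hM1)
    have hKl : (K : ℝ) * l ≤ K * l * M :=
      le_mul_of_one_le_right (by positivity) (by exact_mod_cast hM1)
    have hq' : ((P j).q : ℝ) ≤ Cq * M * (16 * l) :=
      hq.trans (mul_le_mul_of_nonneg_left hi (by positivity))
    rw [hn]
    push_cast
    linarith
  have hD : ((d : ℝ) ^ ((1 : ℝ) / 4)) ^ (1 + (1 : ℝ) / p) =
      (d : ℝ) ^ ((1 : ℝ) / 4 * (1 + 1 / p)) := (Real.rpow_mul d.cast_nonneg _ _).symm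
  rw [← hl, ← hD]
  have hp1 : (1 : ℝ) / p ≤ 1 := by
    rw [div_le_one (by exact_mod_cast hp)]; exact_mod_cast hp
  have hM2 : (M : ℝ) ≤ 2 * (E : ℝ) ^ ((1 : ℝ) / p) := by
    rw [hM]
    linarith [Nat.ceil_lt_add_one (by linarith : (0 : ℝ) ≤ (E : ℝ) ^ ((1 : ℝ) / p))]
  refine le_trans ?_ (query_bound (c := (K : ℝ) + 32 * Cq + 2) (by positivity) hl1' hE0
    (by positivity) (by positivity) hp1 hM2 hEle)
  have hTm : ((T + m : ℕ) : ℝ) ≤ 45 * l * E := by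
    have : T + m ≤ 45 * l * E := by
      have h5 : 5 * l * 1 ≤ 5 * l * E := Nat.mul_le_mul_left _ (by omega)
      have h45 : 40 * l * E + 5 * l * E = 45 * l * E := by ring
      omega
    exact_mod_cast this
  rw [Nat.cast_sum]
  refine (Finset.sum_le_card_nsmul _ _ _ hper).trans ?_
  rw [Finset.card_range, nsmul_eq_mul]
  exact mul_le_mul_of_nonneg_right hTm (by positivity)

end Vale.Agent.P347
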