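import Vale.Agent.P347.MainTele

/-!
The error of a whole schedule: a block of T steps of size η₀, then m stages halving the size,
then a final blur.
-/

open MeasureTheory ProbabilityTheory Filter
open scoped RealInnerProductSpace

namespace Vale.Agent.P347

variable {d : ℕ}

lemma continuous_zchain {g : EE d → EE d} (hg : Continuous g) (η h : ℝ) (N : ℕ) : ∀ k : ℕ,
    Continuous fun p : EE d × Path d N => zchain g η h N p.1 k p.2
  | 0 => by simp only [zchain]; fun_prop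
  | k + 1 => by
    have := continuous_zchain hg η h N k
    simp only [zchain]
    fun_prop

lemma rop_bc {g : EE d → EE d} (hg : Continuous g) (η h : ℝ) (N : ℕ) {φ : EE d → ℝ}
    (hc : Continuous φ) (hb : ∀ x, |φ x| ≤ 1) :
    Continuous (Rop g η h N φ) ∧ ∀ y, |Rop g η h N φ y| ≤ 1 := by
  refine ⟨continuous_of_dominated (bound := fun _ => (1 : ℝ))
    (fun y => (hc.comp ((continuous_zchain hg η h N N).comp
      (continuous_const.prodMk continuous_id'))).aestronglyMeasurable)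
    (fun y => Eventually.of_forall fun ω => by rw [Real.norm_eq_abs]; exact hb _)
    (integrable_const _)
    (Eventually.of_forall fun ω => hc.comp ((continuous_zchain hg η h N N).comp
      (continuous_id'.prodMk continuous_const))), fun y => ?_⟩
  simpa [Rop] using norm_integral_le_of_norm_le_const (μ := pgam d N) (C := 1)
    (f := fun ω => φ (zchain g η h N y N ω))
    (Eventually.of_forall fun ω => by rw [Real.norm_eq_abs]; exact hb _)

lemma gs_bc (s : ℝ) {φ : EE d → ℝ} (hc : Continuous φ) (hb : ∀ x, |φ x| ≤ 1) :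
    Continuous (Gs s φ) ∧ ∀ x, |Gs s φ x| ≤ 1 := by
  refine ⟨continuous_of_dominated (bound := fun _ => (1 : ℝ))
    (fun x => (hc.comp (by fun_prop)).aestronglyMeasurable)
    (fun x => Eventually.of_forall fun ξ => by rw [Real.norm_eq_abs]; exact hb _)
    (integrable_const _)
    (Eventually.of_forall fun ξ => hc.comp (by fun_prop)), fun x => ?_⟩
  simpa [Gs] using norm_integral_le_of_norm_le_const (μ := gam d) (C := 1)
    (f := fun ξ => φ (x + Real.sqrt s • ξ))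
    (Eventually.of_forall fun ξ => by rw [Real.norm_eq_abs]; exact hb _)

lemma tailVal_bc {g : EE d → EE d} (hg : Continuous g) (P : ℕ → Params) {φ : EE d → ℝ}
    (hc : Continuous φ) (hb : ∀ x, |φ x| ≤ 1) : ∀ k j,
      Continuous (tailVal g P k j φ) ∧ ∀ x, |tailVal g P k j φ x| ≤ 1
  | _, 0 => ⟨hc, hb⟩
  | k, j + 1 => by
    have h := tailVal_bc hg P hc hb (k + 1) j
    have hr := rop_bc hg (P k).eta (P k).h (P k).N h.1 h.2
    exact gs_bc _ hr.1 hr.2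

lemma tailVal_iterate {g : EE d → EE d} {P : ℕ → Params} (η h : ℝ) (N : ℕ) {φ : EE d → ℝ} :
    ∀ (i k j : ℕ), (∀ l, k ≤ l → l < k + i → (P l).eta = η ∧ (P l).h = h ∧ (P l).N = N) →
      tailVal g P k (i + j) φ = (Mop g η h N)^[i] (tailVal g P (k + i) j φ)
  | 0, k, j, _ => by simp
  | i + 1, k, j, hP => by
    obtain ⟨h1, h2, h3⟩ := hP k le_rfl (by omega)
    rw [show i + 1 + j = i + j + 1 by omega, tailVal, h1, h2, h3,
      tailVal_iterate η h N i (k + 1) j (fun l hl hl' => hP l (by omega) (by omega)),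
      Function.iterate_succ_apply', show k + 1 + i = k + (i + 1) by omega]

lemma sum_inv_sqrt (n : ℕ) :
    ∑ j ∈ Finset.range n, (Real.sqrt ((j : ℝ) + 1))⁻¹ ≤ 2 * Real.sqrt n := by
  induction n with
  | zero => simp
  | succ n ih =>
    rw [Finset.sum_range_succ]
    have h1 : 0 < Real.sqrt ((n : ℝ) + 1) := Real.sqrt_pos.2 (by positivity)
    have h2 := Real.sq_sqrt (show (0 : ℝ) ≤ n by positivity)
    have h3 := Real.sq_sqrt (show (0 : ℝ) ≤ (n : ℝ) + 1 by positivity)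
    have h4 : (Real.sqrt ((n : ℝ) + 1))⁻¹ ≤
        2 * (Real.sqrt ((n : ℝ) + 1) - Real.sqrt n) := by
      rw [inv_le_iff_one_le_mul₀ h1]
      nlinarith [sq_nonneg (Real.sqrt ((n : ℝ) + 1) - Real.sqrt n)]
    push_cast
    linarith

lemma sum_inv (n : ℕ) :
    ∑ j ∈ Finset.range n, ((j : ℝ) + 1)⁻¹ ≤ 1 + Real.log n := by
  have h := harmonic_le_one_add_log n
  simpa [harmonic] using h

/-- Shape of a schedule: block length T, then m stages. -/
structure Shape (P : ℕ → Params) (d T m nc : ℕ) (η₀ L hmax Cw δ : ℝ) : Prop where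
  good : ∀ k < T + m, (P k).Good d Cw δ
  eta : ∀ k < T + m, (P k).eta = η₀ / 2 ^ (k + 1 - T)
  same : ∀ k < T, (P k).h = (P 0).h ∧ (P k).N = (P 0).N
  len : ∀ k < T + m, (P k).h * (P k).N = L
  step : ∀ k < T + m, (P k).h ≤ hmax
  centre : ∀ k < T + m, (P k).n = nc

/-- The error bound of a schedule, with one constant for all the modules. -/
noncomputable def schedErr (C : ℝ) (d T m nc : ℕ) (η₀ L hmax Cw δ : ℝ) : ℝ :=
  C * (1 + Cw) ^ 2 *
      ((η₀ * Real.sqrt η₀ * Real.sqrt d * (η₀ + δ)) * (2 * Real.sqrt T + m) +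
        (1 + Real.log T + m + η₀ * (T + m)) *
          (η₀ * Real.sqrt d * (η₀ + δ) + η₀ ^ 4 * d)) +
    C * (1 + Cw) ^ 4 * (T + m) ^ 2 * (2 ^ m / η₀) * ((d : ℝ) + 1) ^ 3 *
        (1 + C * η₀ * (1 + Cw * η₀) ^ 2) ^ (T + m + 1) *
          ((2 * η₀) ^ nc + Real.exp (-L / 4)) +
    C * (T + m) * (2 ^ m / η₀) ^ 2 * ((d : ℝ) + 1) ^ 3 *
        (L * Real.sqrt hmax + Real.exp (-L / 4)) +
    C / Real.sqrt η₀ * (1 - η₀ / 4) ^ T * (1 + d) +
    2 * d * Real.sqrt (η₀ / 2 ^ m / 2)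

lemma integral_norm_le {V : EE d → ℝ} (hV : Admissible V) :
    Integrable (fun x => ‖x‖) (gibbs V) ∧ ∫ x, ‖x‖ ∂gibbs V ≤ 1 + d := by
  have := gibbs_prob hV
  obtain ⟨hi, hm⟩ := gibbs_moment hV
  have h1 : Integrable (fun x : EE d => ‖x‖) (gibbs V) :=
    ((integrable_const 1).fun_add hi).mono' continuous_norm.aestronglyMeasurable
      (Eventually.of_forall fun x => by
        rw [Real.norm_eq_abs, abs_norm]
        nlinarith [sq_nonneg (‖x‖ - 1 / 2)])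
  refine ⟨h1, le_trans (integral_mono h1 ((integrable_const 1).fun_add hi)
    fun x => by nlinarith [sq_nonneg (‖x‖ - 1 / 2)]) ?_⟩
  rw [integral_add (integrable_const 1) hi]
  simp only [integral_const, probReal_univ, smul_eq_mul, mul_one]
  linarith

lemma int_bounded {V : EE d → ℝ} (hV : Admissible V) {φ : EE d → ℝ} (hc : Continuous φ)
    (hb : ∀ x, |φ x| ≤ 1) : Integrable φ (gibbs V) := by
  have := gibbs_prob hV
  exact (memLp_top_of_bound hc.aestronglyMeasurable 1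
    (Eventually.of_forall fun x => by rw [Real.norm_eq_abs]; exact hb x)).integrable le_top

/-- Every test of a schedule is an iterate of one step on a smoothed bounded function. -/
lemma schedule_tests {g : EE d → EE d} (hgc : Continuous g) {P : ℕ → Params} {T m nc : ℕ}
    {η₀ L hmax Cw δ : ℝ} (hS : Shape P d T m nc η₀ L hmax Cw δ) (hT : 1 ≤ T) (hη₀ : 0 < η₀)
    {ψ : EE d → ℝ} (hψc : Continuous ψ) (hψb : ∀ x, |ψ x| ≤ 1) {n : ℕ} (hn : n = T + m)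
    {s : ℝ} (hs : s = η₀ / 2 ^ m / 2) {φ : EE d → ℝ} (hφ : φ = Gs s ψ)
    {U : ℕ → EE d → ℝ} (hU : U = fun k => tailVal g P k (T + m - k) φ) :
    ∀ k < n, ∃ (t : ℝ) (χ : EE d → ℝ),
      (P k).eta / 4 ≤ t ∧ t ≤ (P k).eta ∧ Continuous χ ∧ (∀ x, |χ x| ≤ 1) ∧
      U (k + 1) = (Mop g (P k).eta (P k).h (P k).N)^[T - 1 - k] (Gs t χ) := by
  have hUbc : ∀ k, Continuous (U k) ∧ ∀ x, |U k x| ≤ 1 := fun k => by
    have h := gs_bc s hψc hψb
    subst hU hφ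
    exact tailVal_bc hgc P h.1 h.2 k _
  subst hn
  intro k hk
  have hlast : ∀ k' < T + m, T ≤ k' + 1 → ∃ (t : ℝ) (χ : EE d → ℝ),
      η₀ / 2 ^ (k' + 1 - T) / 4 ≤ t ∧ t ≤ η₀ / 2 ^ (k' + 1 - T) ∧ Continuous χ ∧
      (∀ x, |χ x| ≤ 1) ∧ U (k' + 1) = Gs t χ := by
    intro k' hk' hTk
    rcases (Nat.lt_or_ge (k' + 1) (T + m)) with h | h
    · have he : T + m - (k' + 1) = T + m - (k' + 2) + 1 := by omega
      have hr := rop_bc hgc (P (k' + 1)).eta (P (k' + 1)).h (P (k' + 1)).N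
        (hUbc (k' + 2)).1 (hUbc (k' + 2)).2
      refine ⟨(P (k' + 1)).eta, _, ?_, ?_, hr.1, hr.2, ?_⟩
      · rw [hS.eta _ h, show k' + 1 + 1 - T = k' + 1 - T + 1 by omega, pow_succ,
          ← div_div]
        have : 0 < η₀ / 2 ^ (k' + 1 - T) := by positivity
        linarith
      · rw [hS.eta _ h, show k' + 1 + 1 - T = k' + 1 - T + 1 by omega, pow_succ,
          ← div_div]
        have : 0 < η₀ / 2 ^ (k' + 1 - T) := by positivity
        linarith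
      · simp only [hU]
        rw [he]
        rfl
    · refine ⟨s, ψ, ?_, ?_, hψc, hψb, ?_⟩
      · rw [hs, show k' + 1 - T = m by omega]
        have : 0 < η₀ / 2 ^ m := by positivity
        linarith
      · rw [hs, show k' + 1 - T = m by omega]
        have : 0 < η₀ / 2 ^ m := by positivity
        linarith
      · simp only [hU]
        rw [show T + m - (k' + 1) = 0 by omega]
        exact hφ
  rcases Nat.lt_or_ge (k + 1) T with h | h
  · obtain ⟨t, χ, t1, t2, hχc, hχb, hχ⟩ := hlast (T - 1) (by omega) (by omega)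
    have he : (P k).eta = η₀ := by
      rw [hS.eta k hk, show k + 1 - T = 0 by omega, pow_zero, div_one]
    rw [show T - 1 + 1 - T = 0 by omega, pow_zero, div_one] at t1 t2
    refine ⟨t, χ, by rw [he]; exact t1, by rw [he]; exact t2, hχc, hχb, ?_⟩
    rw [← hχ, show T - 1 + 1 = T by omega]
    simp only [hU]
    have h6 := tailVal_iterate (g := g) (φ := φ) (P k).eta (P k).h (P k).N (T - (k + 1)) (k + 1)
      (T + m - T) (P := P) (fun l hl hl' => ⟨by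
          rw [he, hS.eta l (by omega), show l + 1 - T = 0 by omega, pow_zero, div_one],
        by rw [(hS.same l (by omega)).1, (hS.same k (by omega)).1],
        by rw [(hS.same l (by omega)).2, (hS.same k (by omega)).2]⟩)
    rw [show k + 1 + (T - (k + 1)) = T by omega] at h6
    rw [show T + m - (k + 1) = T - (k + 1) + (T + m - T) by omega, h6,
      show T - (k + 1) = T - 1 - k by omega]
  · obtain ⟨t, χ, t1, t2, hχc, hχb, hχ⟩ := hlast k hk h
    rw [← hS.eta k hk] at t1 t2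
    refine ⟨t, χ, t1, t2, hχc, hχb, ?_⟩
    rw [show T - 1 - k = 0 by omega, Function.iterate_zero, id_eq]
    exact hχ

/-- The coefficients of one step in terms of the initial size. -/
lemma step_arith {η η₀ e jj C₂ sd dd X Y : ℝ} {m : ℕ} (e1 : 0 < η) (e2 : η ≤ η₀)
    (e3 : η₀ / 2 ^ m ≤ η) (hη₀ : 0 < η₀) (hη₀le : η₀ ≤ 1 / 16) (he0 : 0 ≤ e) (hsd : 0 ≤ sd)
    (hdd : 0 ≤ dd) (hC₂ : 0 < C₂) (hj1 : 1 ≤ jj) (hY : Y = η₀ * Real.sqrt η₀ * sd * e)
    (hX : X = η₀ * sd * e + η₀ ^ 4 * dd) :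
    C₂ / Real.sqrt (η * jj) * (η ^ 2 * sd * e) +
        η * (C₂ / (η * jj) + C₂) * (η * sd * e + η ^ 4 * dd) ≤
      C₂ * (Y * (Real.sqrt jj)⁻¹) + C₂ * (jj⁻¹ + η₀) * X ∧
    C₂ / (η * jj) + C₂ + C₂ / Real.sqrt (η * jj) ≤ 3 * C₂ * (2 ^ m / η₀) := by
  have hj0 : 0 < jj := by linarith
  have hse : Real.sqrt η ≤ Real.sqrt η₀ := Real.sqrt_le_sqrt e2
  have hsep : 0 < Real.sqrt η := Real.sqrt_pos.2 e1
  have hsj : 0 < Real.sqrt jj := Real.sqrt_pos.2 hj0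
  have hb1 : C₂ / Real.sqrt (η * jj) * (η ^ 2 * sd * e) ≤
      C₂ * (Y * (Real.sqrt jj)⁻¹) := by
    have hq : η ^ 2 / Real.sqrt η = η * Real.sqrt η := by
      rw [div_eq_iff hsep.ne', mul_assoc, Real.mul_self_sqrt e1.le, sq]
    calc C₂ / Real.sqrt (η * jj) * (η ^ 2 * sd * e)
        = C₂ * ((η ^ 2 / Real.sqrt η) * sd * e * (Real.sqrt jj)⁻¹) := by
          rw [Real.sqrt_mul e1.le]; field_simp
      _ ≤ C₂ * (η₀ * Real.sqrt η₀ * sd * e * (Real.sqrt jj)⁻¹) := by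
          rw [hq]; gcongr
      _ = _ := by rw [hY]
  have ha1 : η * (C₂ / (η * jj) + C₂) * (η * sd * e + η ^ 4 * dd) ≤
      C₂ * (jj⁻¹ + η₀) * X := by
    have h1 : η * (C₂ / (η * jj) + C₂) = C₂ * (jj⁻¹ + η) := by field_simp
    rw [h1, hX]
    gcongr
  have hab : C₂ / (η * jj) + C₂ + C₂ / Real.sqrt (η * jj) ≤ 3 * C₂ * (2 ^ m / η₀) := by
    have hlow : η₀ / 2 ^ m ≤ η * jj := e3.trans (le_mul_of_one_le_right e1.le hj1)
    have hpos : 0 < η₀ / 2 ^ m := by positivity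
    have hone : η₀ / 2 ^ m ≤ 1 :=
      (div_le_self hη₀.le (one_le_pow₀ one_le_two)).trans (by linarith)
    have i1 : C₂ / (η * jj) ≤ C₂ * (2 ^ m / η₀) := by
      rw [div_eq_mul_inv, ← inv_div η₀ (2 ^ m)]
      gcongr
    have i2 : C₂ ≤ C₂ * (2 ^ m / η₀) := by
      refine le_mul_of_one_le_right hC₂.le ?_
      rw [← inv_div η₀ (2 ^ m)]; exact (one_le_inv₀ hpos).2 hone
    have i3 : C₂ / Real.sqrt (η * jj) ≤ C₂ * (2 ^ m / η₀) := by
      rw [div_eq_mul_inv, ← inv_div η₀ (2 ^ m)]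
      gcongr
      refine le_trans ?_ (Real.sqrt_le_sqrt hlow)
      exact Real.le_sqrt_of_sq_le (by nlinarith)
    linarith
  exact ⟨add_le_add hb1 ha1, hab⟩

/-- The exact steps leave the Gibbs law almost invariant, and their long product forgets 0. -/
lemma exact_side {g : EE d → EE d} {V : EE d → ℝ} (hV : Admissible V) (hg : g = gradient V)
    {P : ℕ → Params} {T m nc : ℕ} {η₀ L hmax Cw δ C₂ C₅ : ℝ}
    (hS : Shape P d T m nc η₀ L hmax Cw δ) (hT : 1 ≤ T) (hη₀ : 0 < η₀) (hη₀le : η₀ ≤ 1 / 16)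
    (hC₂ : 0 < C₂) (hC₅ : 0 < C₅)
    (h2 : ∀ (d : ℕ) (g : EE d → EE d) (η h s : ℝ) (N : ℕ) (ψ : EE d → ℝ),
      GradClass g → 0 < η → η ≤ 1 / 16 → 0 < h → h ≤ η / 4 → 8 ≤ h * N →
      η / 4 ≤ s → s ≤ η → Continuous ψ → (∀ x, |ψ x| ≤ 1) → ∀ j : ℕ,
        (∀ x, |(Mop g η h N)^[j] (Gs s ψ) x| ≤ 1) ∧
        ∃ Ψ : EE d → EE d,
          Test ((Mop g η h N)^[j] (Gs s ψ)) Ψ
            (C₂ / Real.sqrt (η * (j + 1))) (C₂ / (η * (j + 1)) + C₂) ∧
          ∀ x, ‖Ψ x‖ ≤ C₂ / Real.sqrt η * (1 - η / 4) ^ j)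
    (h5 : ∀ (d : ℕ) (V : EE d → ℝ) (η h : ℝ) (N : ℕ) (φ : EE d → ℝ)
      (Ψ : EE d → EE d) (B : ℝ),
      Admissible V → 0 < η → η ≤ 1 / 16 → 0 < h → h ≤ η / 4 → 8 ≤ h * N →
      (∀ x, HasGradientAt φ (Ψ x) x) → Continuous Ψ → (∀ x, ‖Ψ x‖ ≤ B) → (∀ x, |φ x| ≤ 1) →
        |(∫ x, Mop (gradient V) η h N φ x ∂gibbs V) - ∫ x, φ x ∂gibbs V| ≤
          C₅ * B * ((d + 1) ^ 3 / η) * (h * N * Real.sqrt h + Real.exp (-(h * N) / 4)))
    {n : ℕ} (hn : n = T + m) {φ : EE d → ℝ} {U : ℕ → EE d → ℝ}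
    (hU : U = fun k => tailVal g P k (n - k) φ) (hUbc : ∀ k, Continuous (U k) ∧ ∀ x, |U k x| ≤ 1)
    (hform : ∀ k < n, ∃ (t : ℝ) (χ : EE d → ℝ),
      (P k).eta / 4 ≤ t ∧ t ≤ (P k).eta ∧ Continuous χ ∧ (∀ x, |χ x| ≤ 1) ∧
      U (k + 1) = (Mop g (P k).eta (P k).h (P k).N)^[T - 1 - k] (Gs t χ))
    (htest : ∀ k < n, ∃ Ψ, Test (U (k + 1)) Ψ
      (C₂ / Real.sqrt ((P k).eta * ((T - 1 - k : ℕ) + 1)))
      (C₂ / ((P k).eta * ((T - 1 - k : ℕ) + 1)) + C₂))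
    (hηk : ∀ k < n, 0 < (P k).eta ∧ (P k).eta ≤ η₀ ∧ η₀ / 2 ^ m ≤ (P k).eta) :
    |(∫ x, U 0 x ∂gibbs V) - ∫ x, φ x ∂gibbs V| ≤ n * (C₅ * (C₂ * (2 ^ m / η₀)) *
        (((d : ℝ) + 1) ^ 3 * (2 ^ m / η₀)) * (L * Real.sqrt hmax + Real.exp (-L / 4))) ∧
    |U 0 0 - ∫ x, U 0 x ∂gibbs V| ≤
      C₂ / Real.sqrt η₀ * (1 - η₀ / 4) ^ T * (1 + d) := by
  have := gibbs_prob hV
  have hG : GradClass g := hg ▸ gradClass_gradient hV
  subst hn
  set I := C₅ * (C₂ * (2 ^ m / η₀)) * (((d : ℝ) + 1) ^ 3 * (2 ^ m / η₀)) *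
        (L * Real.sqrt hmax + Real.exp (-L / 4)) with hI
  have hinv : ∀ k < T + m, |(∫ x, U k x ∂gibbs V) - ∫ x, U (k + 1) x ∂gibbs V| ≤ I := by
    intro k hk
    obtain ⟨Ψ, hΨ⟩ := htest k hk
    obtain ⟨e1, e2, e3⟩ := hηk k hk
    have hUk : U k = Mop g (P k).eta (P k).h (P k).N (U (k + 1)) := by
      simp only [hU]
      rw [show (T + m) - k = (T + m) - (k + 1) + 1 by omega]
      rfl
    have hg' := hS.good k hk
    rw [hUk, hg, hI]
    refine (h5 d V (P k).eta (P k).h (P k).N (U (k + 1)) Ψ _ hV hg'.eta_pos hg'.eta_le hg'.h_pos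
      hg'.h_le hg'.long hΨ.grad hΨ.smooth.continuous hΨ.bound (hUbc (k + 1)).2).trans ?_
    rw [hS.len k hk]
    have hpos : 0 < η₀ / 2 ^ m := by positivity
    have hj : η₀ / 2 ^ m ≤ (P k).eta * (((T - 1 - k : ℕ) : ℝ) + 1) :=
      e3.trans (le_mul_of_one_le_right e1.le (by simp))
    have hL0 : 0 ≤ L := by
      rw [← hS.len k hk]; exact mul_nonneg hg'.h_pos.le (Nat.cast_nonneg _)
    have hone : η₀ / 2 ^ m ≤ 1 :=
      (div_le_self hη₀.le (one_le_pow₀ one_le_two)).trans (by linarith)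
    gcongr
    · rw [div_eq_mul_inv, ← inv_div η₀ (2 ^ m)]
      gcongr
      exact le_trans (Real.le_sqrt_of_sq_le (by nlinarith)) (Real.sqrt_le_sqrt hj)
    · rw [div_eq_mul_inv, ← inv_div η₀ (2 ^ m)]
      gcongr
    · exact hS.step k hk
  constructor
  · have hUn : U (T + m) = φ := by simp [hU, tailVal]
    rw [← hUn, ← Finset.sum_range_sub' (fun k => ∫ x, U k x ∂gibbs V)]
    refine (Finset.abs_sum_le_sum_abs _ _).trans ?_
    refine (Finset.sum_le_card_nsmul _ _ I fun k hk => hinv k (Finset.mem_range.1 hk)).trans ?_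
    simp
  · obtain ⟨t, χ, t1, t2, hχc, hχb, hχ⟩ := hform (T - 1) (by omega)
    have he0 : (P (T - 1)).eta = η₀ := by
      rw [hS.eta _ (by omega), show T - 1 + 1 - T = 0 by omega, pow_zero, div_one]
    have hit : U 0 = (Mop g η₀ (P 0).h (P 0).N)^[T] (Gs t χ) := by
      rw [show T - 1 - (T - 1) = 0 by omega, Function.iterate_zero, id_eq,
        show T - 1 + 1 = T by omega] at hχ
      rw [← hχ]
      simp only [hU]
      rw [Nat.sub_zero, show T + m = T + (T + m - T) by omega]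
      have h6 := tailVal_iterate (g := g) (φ := φ) (P := P) η₀ (P 0).h (P 0).N T 0 ((T + m) - T)
        (fun l _ hl => ⟨by rw [hS.eta l (by omega), show l + 1 - T = 0 by omega, pow_zero, div_one],
          (hS.same l (by omega)).1, (hS.same l (by omega)).2⟩)
      rw [Nat.zero_add] at h6
      rw [h6, show T + ((T + m) - T) - T = (T + m) - T by omega]
    rw [he0] at t1 t2
    have hg' := hS.good 0 (by omega)
    have h00 : (P 0).eta = η₀ := by
      rw [hS.eta 0 (by omega), show 0 + 1 - T = 0 by omega, pow_zero, div_one]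
    obtain ⟨-, Ψ, hΨ, hΨb⟩ := h2 d g η₀ (P 0).h t (P 0).N χ hG hη₀ hη₀le hg'.h_pos
      (h00 ▸ hg'.h_le) hg'.long t1 t2 hχc hχb T
    rw [← hit] at hΨ
    set B := C₂ / Real.sqrt η₀ * (1 - η₀ / 4) ^ T with hB
    have hB0 : 0 ≤ B := (norm_nonneg _).trans (hΨb 0)
    have hlip : ∀ x, |U 0 0 - U 0 x| ≤ B * ‖x‖ := by
      intro x
      have h := Convex.norm_image_sub_le_of_norm_hasFDerivWithin_le (s := Set.univ)
        (f := U 0) (f' := fun z => InnerProductSpace.toDual ℝ (EE d) (Ψ z)) (C := B)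
        (fun z _ => ((hΨ.grad z).hasFDerivAt).hasFDerivWithinAt)
        (fun z _ => by rw [LinearIsometryEquiv.norm_map]; exact hΨb z)
        convex_univ (Set.mem_univ x) (Set.mem_univ 0)
      simpa using h
    have hi := int_bounded hV (hUbc 0).1 (hUbc 0).2
    calc |U 0 0 - ∫ x, U 0 x ∂gibbs V| = |∫ x, (U 0 0 - U 0 x) ∂gibbs V| := by
          rw [integral_sub (integrable_const _) hi]; simp
      _ ≤ ∫ x, B * ‖x‖ ∂gibbs V := by
          refine abs_integral_le_integral_abs.trans ?_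
          exact integral_mono ((integrable_const _).sub hi).abs
            ((integral_norm_le hV).1.const_mul B) hlip
      _ ≤ B * (1 + d) := by
          rw [integral_const_mul]; exact mul_le_mul_of_nonneg_left (integral_norm_le hV).2 hB0

/-- The accumulated forgetting error. -/
lemma tiny_arith {C C₂ C₃ C₄ Cw η₀ G Gc D E K τ β W dd : ℝ} {n m : ℕ} (hd1 : 0 ≤ dd)
    (hn1 : (1 : ℝ) ≤ n) (hCw : 0 ≤ Cw) (hη₀ : 0 < η₀) (hη₀le : η₀ ≤ 1 / 16) (hC₂ : 0 < C₂)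
    (hC₃ : 1 ≤ C₃) (hC₄ : 0 < C₄) (hG1 : 1 ≤ G) (hGG : G ≤ Gc) (hτ0 : 0 ≤ τ)
    (hCC : C₃ * (3 * C₂) * (2 + C₄) ≤ C) (hK : K = C₃ * (1 + Cw) ^ 2)
    (hD : D = C₄ * (1 + Cw) ^ 2 * dd) (hE : E = G * (η₀ * dd) + D)
    (hβ : β = K * (3 * C₂ * (2 ^ m / η₀)) * (dd + 1) ^ 2 * τ)
    (hW : W = (1 + Cw) ^ 4 * (n : ℝ) ^ 2 * (2 ^ m / η₀) * (dd + 1) ^ 3 * Gc ^ (n + 1) * τ) :
    (n : ℝ) * (β * (G ^ n * (1 + n * E))) ≤ C * W := by
  have hβ0 : 0 ≤ β := by rw [hβ, hK]; positivity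
  have hCw2 : (1 : ℝ) ≤ (1 + Cw) ^ 2 := one_le_pow₀ (by linarith)
  have hE1 : 1 + (n : ℝ) * E ≤ (2 + C₄) * ((1 + Cw) ^ 2 * n * (dd + 1) * G) := by
    have hZ1 : 1 ≤ (1 + Cw) ^ 2 * n * (dd + 1) * G := by
      have e1 : 1 ≤ (1 + Cw) ^ 2 * (n : ℝ) := one_le_mul_of_one_le_of_one_le hCw2 hn1
      have e2 : 1 ≤ (1 + Cw) ^ 2 * (n : ℝ) * (dd + 1) :=
        one_le_mul_of_one_le_of_one_le e1 (by linarith)
      exact one_le_mul_of_one_le_of_one_le e2 hG1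
    have h1 : G * (η₀ * dd) ≤ (1 + Cw) ^ 2 * (dd + 1) * G := by
      calc G * (η₀ * dd) ≤ G * (1 * (dd + 1)) := by gcongr <;> linarith
        _ = 1 * (dd + 1) * G := by ring
        _ ≤ _ := by gcongr
    have h2 : D ≤ C₄ * ((1 + Cw) ^ 2 * (dd + 1) * G) := by
      rw [hD]
      calc C₄ * (1 + Cw) ^ 2 * dd = C₄ * ((1 + Cw) ^ 2 * dd * 1) := by ring
        _ ≤ _ := by gcongr; linarith
    have := mul_le_mul_of_nonneg_left (add_le_add h1 h2) (n.cast_nonneg : (0:ℝ) ≤ n)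
    rw [hE]
    nlinarith
  calc (n : ℝ) * (β * (G ^ n * (1 + n * E)))
      ≤ n * (β * (G ^ n * ((2 + C₄) * ((1 + Cw) ^ 2 * n * (dd + 1) * G)))) := by gcongr
    _ = (C₃ * (3 * C₂) * (2 + C₄)) * ((1 + Cw) ^ 4 * (n : ℝ) ^ 2 * (2 ^ m / η₀) *
          (dd + 1) ^ 3 * G ^ (n + 1) * τ) := by rw [hβ, hK]; ring
    _ ≤ C * W := by
        rw [hW]
        refine mul_le_mul hCC (by gcongr) (by positivity) ?_
        exact le_trans (by positivity) hCC

/-- The accumulated local errors. -/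
lemma sum_alpha {K C₂ Y X η₀ : ℝ} {T m n : ℕ} (hn : n = T + m) (hT : 1 ≤ T) (hK : 0 ≤ K)
    (hC₂ : 0 ≤ C₂) (hY0 : 0 ≤ Y) (hX0 : 0 ≤ X) (hη₀ : 0 ≤ η₀) {α : ℕ → ℝ}
    (hα : α = fun k => K * (C₂ * (Y * (Real.sqrt ((T - 1 - k : ℕ) + 1))⁻¹) +
      C₂ * ((((T - 1 - k : ℕ) : ℝ) + 1)⁻¹ + η₀) * X)) :
    ∑ k ∈ Finset.range n, α k ≤
      K * C₂ * (Y * (2 * Real.sqrt T + m) + (1 + Real.log T + m + η₀ * (T + m)) * X) := by
  have hf : ∑ k ∈ Finset.range n, α k = ∑ j ∈ Finset.range T,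
      K * C₂ * (Y * (Real.sqrt ((j : ℝ) + 1))⁻¹ + (((j : ℝ) + 1)⁻¹ + η₀) * X) +
      m * (K * C₂ * (Y + (1 + η₀) * X)) := by
    rw [hn, Finset.sum_range_add]
    congr 1
    · rw [← Finset.sum_range_reflect (fun j : ℕ =>
        K * C₂ * (Y * (Real.sqrt ((j : ℝ) + 1))⁻¹ + (((j : ℝ) + 1)⁻¹ + η₀) * X)) T]
      refine Finset.sum_congr rfl fun k _ => ?_
      simp only [hα]; ring
    · rw [Finset.sum_congr rfl fun k _ => ?_, Finset.sum_const, Finset.card_range, nsmul_eq_mul]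
      simp only [hα, show T - 1 - (T + k) = 0 by omega]
      simp; ring
  rw [hf]
  simp only [← Finset.mul_sum, Finset.sum_add_distrib, ← Finset.sum_mul, Finset.sum_const,
    Finset.card_range, nsmul_eq_mul]
  have hKC : 0 ≤ K * C₂ := by positivity
  have s1 := mul_le_mul_of_nonneg_left (sum_inv_sqrt T) hY0
  have s2 := mul_le_mul_of_nonneg_right (sum_inv T) hX0
  nlinarith [mul_le_mul_of_nonneg_left (add_le_add s1 s2) hKC]

lemma combine_errors {sx u0 pu pp pf A B A' b1 Z W r r' nI c bl : ℝ}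
    (ht : |sx - u0| ≤ A + B) (hA : A ≤ A') (hB : B ≤ b1) (c1 : A' ≤ Z) (c2 : b1 ≤ W)
    (h0 : |u0 - pu| ≤ r) (c4 : r ≤ r') (hch : |pu - pf| ≤ nI) (c3 : nI ≤ c)
    (hbl : |pf - pp| ≤ bl) (p0 : |sx - pp| ≤ |sx - u0| + |u0 - pp|)
    (p1 : |u0 - pp| ≤ |u0 - pu| + |pu - pp|) (p2 : |pu - pp| ≤ |pu - pf| + |pf - pp|) :
    |sx - pp| ≤ Z + W + c + r' + bl := by
  linarith

lemma inv_reassoc (n c₅ c₂ u a b : ℝ) :
    n * (c₅ * (c₂ * u) * (a * u) * b) = c₅ * c₂ * (n * u ^ 2 * a * b) := by ring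

theorem schedule_error :
    ∃ C : ℝ, 1 ≤ C ∧ ∀ (d T m nc : ℕ) (P : ℕ → Params) (η₀ L hmax Cw δ : ℝ),
      Shape P d T m nc η₀ L hmax Cw δ → 1 ≤ T → 1 ≤ m → 1 ≤ nc → η₀ + δ ≤ 1 → 0 ≤ δ →
      ∀ V : EE d → ℝ, Admissible V → ∀ ψ : EE d → ℝ, Continuous ψ → (∀ x, |ψ x| ≤ 1) →
        |schedVal (gradient V) P (T + m) (Gs (η₀ / 2 ^ m / 2) ψ) 0 - ∫ x, ψ x ∂gibbs V| ≤
          schedErr C d T m nc η₀ L hmax Cw δ := by
  obtain ⟨C₂, hC₂, h2⟩ := tests_iterate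
  obtain ⟨C₃, hC₃, h3⟩ := step_bound
  obtain ⟨C₄, hC₄, h4⟩ := kern_moment
  obtain ⟨C₅, hC₅, h5⟩ := invariance
  set C := 1 + C₃ * (3 * C₂ + 3) * (2 + C₄) + C₄ + C₅ * C₂ + C₂ with hC
  have hC0 : 0 ≤ C₃ * (3 * C₂ + 3) * (2 + C₄) := by positivity
  have hC5 : 0 ≤ C₅ * C₂ := by positivity
  have hCC : C₃ * (3 * C₂) * (2 + C₄) ≤ C := by
    have : C₃ * (3 * C₂) * (2 + C₄) ≤ C₃ * (3 * C₂ + 3) * (2 + C₄) := by gcongr; linarith
    linarith
  have hCC' : C₃ * C₂ ≤ C := by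
    refine le_trans ?_ hCC
    calc C₃ * C₂ = C₃ * C₂ * 1 := (mul_one _).symm
      _ ≤ C₃ * (3 * C₂) * (2 + C₄) := by gcongr <;> linarith
  refine ⟨C, by linarith, ?_⟩
  intro d T m nc P η₀ L hmax Cw δ hS hT hm hnc hηδ hδ V hV ψ hψc hψb
  have := gibbs_prob hV
  set g := gradient V with hg
  have hG : GradClass g := gradClass_gradient hV
  have hgc : Continuous g := hG.smooth.continuous
  set n := T + m with hn
  set s := η₀ / 2 ^ m / 2 with hs
  set φ := Gs s ψ with hφ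
  have hφbc := gs_bc s hψc hψb
  set U : ℕ → EE d → ℝ := fun k => tailVal g P k (n - k) φ with hU
  have hUbc : ∀ k, Continuous (U k) ∧ ∀ x, |U k x| ≤ 1 := fun k =>
    tailVal_bc hgc P hφbc.1 hφbc.2 k _
  have hη₀ : 0 < η₀ := by
    have h := (hS.good 0 (by omega)).eta_pos
    rwa [hS.eta 0 (by omega), show 0 + 1 - T = 0 by omega, pow_zero, div_one] at h
  have hη₀le : η₀ ≤ 1 / 16 := by
    have h := (hS.good 0 (by omega)).eta_le
    rwa [hS.eta 0 (by omega), show 0 + 1 - T = 0 by omega, pow_zero, div_one] at h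
  have hηk : ∀ k < n, 0 < (P k).eta ∧ (P k).eta ≤ η₀ ∧ η₀ / 2 ^ m ≤ (P k).eta := by
    intro k hk
    refine ⟨(hS.good k hk).eta_pos, ?_, ?_⟩ <;> rw [hS.eta k hk]
    · exact div_le_self hη₀.le (one_le_pow₀ one_le_two)
    · exact div_le_div_of_nonneg_left hη₀.le (by positivity)
        (pow_le_pow_right₀ one_le_two (by omega))
  -- every test is an iterate of one step size on a smoothed bounded function
  have hform := schedule_tests hgc hS hT hη₀ hψc hψb hn hs hφ hU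
  have htest : ∀ k < n, ∃ Ψ, Test (U (k + 1)) Ψ
      (C₂ / Real.sqrt ((P k).eta * ((T - 1 - k : ℕ) + 1)))
      (C₂ / ((P k).eta * ((T - 1 - k : ℕ) + 1)) + C₂) := by
    intro k hk
    obtain ⟨t, χ, t1, t2, hχc, hχb, hχ⟩ := hform k hk
    have hg' := hS.good k hk
    obtain ⟨-, Ψ, hΨ, -⟩ := h2 d g (P k).eta (P k).h t (P k).N χ hG hg'.eta_pos hg'.eta_le
      hg'.h_pos hg'.h_le hg'.long t1 t2 hχc hχb (T - 1 - k)
    exact ⟨Ψ, hχ ▸ hΨ⟩
  -- one step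
  set G := 1 + C₄ * η₀ * (1 + Cw * η₀) ^ 2 with hGdef
  set D := C₄ * (1 + Cw) ^ 2 * d with hD
  have hCw : 0 ≤ Cw :=
    (Finset.sum_nonneg fun j _ => abs_nonneg _).trans (hS.good 0 (by omega)).w_abs
  have hG1 : 1 ≤ G := by
    have : 0 ≤ C₄ * η₀ * (1 + Cw * η₀) ^ 2 := by positivity
    linarith
  have hok : ∀ k < n, StepOK g (P k) G D := by
    intro k hk
    obtain ⟨e1, e2, -⟩ := hηk k hk
    have h := h4 d g (P k) Cw δ hG (hS.good k hk) (by rw [hS.centre k hk]; exact hnc)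
    refine ⟨hgc, e1.le, hG1, by positivity, fun y => (h y).1, fun y => (h y).2.trans ?_⟩
    rw [hGdef, hD]
    gcongr
  set K := C₃ * (1 + Cw) ^ 2 with hK
  set e := η₀ + δ with he
  set X := η₀ * Real.sqrt d * e + η₀ ^ 4 * d with hX
  set Y := η₀ * Real.sqrt η₀ * Real.sqrt d * e with hY
  set τ := (2 * η₀) ^ nc + Real.exp (-L / 4) with hτ
  set α : ℕ → ℝ := fun k => K * (C₂ * (Y * (Real.sqrt ((T - 1 - k : ℕ) + 1))⁻¹) +
      C₂ * ((((T - 1 - k : ℕ) : ℝ) + 1)⁻¹ + η₀) * X) with hα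
  set β : ℝ := K * (3 * C₂ * (2 ^ m / η₀)) * ((d : ℝ) + 1) ^ 2 * τ with hβ
  have hτ0 : 0 ≤ τ := by positivity
  have hC₃' : 0 ≤ C₃ := by linarith
  have hβ0 : 0 ≤ β := by positivity
  have hstep : ∀ k < n, ∀ x, |Kop g (P k) (U (k + 1)) x -
      Mop g (P k).eta (P k).h (P k).N (U (k + 1)) x| ≤ α k + β * wt x := by
    intro k hk x
    obtain ⟨Ψ, hΨ⟩ := htest k hk
    obtain ⟨e1, e2, e3⟩ := hηk k hk
    have hr := rop_bc hgc (P k).eta (P k).h (P k).N (hUbc (k + 1)).1 (hUbc (k + 1)).2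
    refine (h3 d g (P k) Cw δ e hG (hS.good k hk) hδ (by linarith) (by linarith)
      (by rw [hS.centre k hk]; exact hnc) _ Ψ _ _ hΨ (hUbc (k + 1)).2 hr.1 hr.2 x).trans ?_
    obtain ⟨hA, hB⟩ := step_arith (e := e) (jj := ((T - 1 - k : ℕ) : ℝ) + 1) e1 e2 e3 hη₀ hη₀le
      (by linarith) (Real.sqrt_nonneg (d : ℝ)) (Nat.cast_nonneg d) hC₂ (by simp) hY hX
    rw [hS.centre k hk]
    have hτ' : (2 * (P k).eta) ^ nc + Real.exp (-((P k).h * (P k).N) / 4) ≤ τ := by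
      rw [hτ, ← hS.len k hk]
      gcongr
    have hw := one_le_wt x
    refine add_le_add ?_ ?_
    · simp only [hα, ← hK]
      exact mul_le_mul_of_nonneg_left hA (by positivity)
    · simp only [hβ, ← hK]
      gcongr

  -- telescoping
  set E := G * (η₀ * d) + D with hE
  have hD0 : 0 ≤ D := by positivity
  have htele := telescope (g := g) (P := P) (G := G) (D := D) (n := n) (φ := φ) (E := E)
    (by positivity) hok
    (fun k hk => by
      have := (hηk k hk).2.1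
      rw [hE]; gcongr)
    (fun k _ => qb_of_bounded (hUbc k).1.measurable (hUbc k).2) α (fun _ => β) (fun _ _ => hβ0)
    hstep 0
  obtain ⟨hchain, hU0⟩ := exact_side hV hg hS hT hη₀ hη₀le hC₂ hC₅ h2 h5 hn hU hUbc hform htest hηk
  -- sums
  set I := C₅ * (C₂ * (2 ^ m / η₀)) * (((d : ℝ) + 1) ^ 3 * (2 ^ m / η₀)) *
        (L * Real.sqrt hmax + Real.exp (-L / 4)) with hI
  have hsumα : ∑ k ∈ Finset.range n, α k ≤
      K * C₂ * (Y * (2 * Real.sqrt T + m) + (1 + Real.log T + m + η₀ * (T + m)) * X) :=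
    sum_alpha hn hT (by positivity) hC₂.le (by positivity) (by positivity) hη₀.le hα
  have hsumβ : ∑ k ∈ Finset.range n, β * (G ^ k * (wt (0 : EE d) + k * E)) ≤
      n * (β * (G ^ n * (1 + n * E))) := by
    refine (Finset.sum_le_card_nsmul _ _ (β * (G ^ n * (1 + n * E))) fun k hk => ?_).trans
      (by simp)
    have hk' := Finset.mem_range.1 hk
    have hw0 : wt (0 : EE d) = 1 := by simp [wt]
    have hE0 : 0 ≤ E := by positivity
    rw [hw0]
    gcongr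
  -- together
  have hblur := blur hV (by positivity : (0 : ℝ) ≤ s) hψc hψb
  rw [Finset.sum_add_distrib] at htele
  have hU0' : tailVal g P 0 n φ = U 0 := by simp [hU]
  rw [hU0'] at htele
  have p0 := abs_sub_le (schedVal g P n φ 0) (U 0 0) (∫ x, ψ x ∂gibbs V)
  have p1 := abs_sub_le (U 0 0) (∫ x, U 0 x ∂gibbs V) (∫ x, ψ x ∂gibbs V)
  have p2 := abs_sub_le (∫ x, U 0 x ∂gibbs V) (∫ x, φ x ∂gibbs V) (∫ x, ψ x ∂gibbs V)
  -- constants
  set Z := (1 + Cw) ^ 2 * (Y * (2 * Real.sqrt T + m) +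
    (1 + Real.log T + m + η₀ * (T + m)) * X) with hZ
  have hlogT : 0 ≤ Real.log T := Real.log_natCast_nonneg T
  have hZ0 : 0 ≤ Z := by positivity
  have c1 : K * C₂ * (Y * (2 * Real.sqrt T + m) + (1 + Real.log T + m + η₀ * (T + m)) * X) ≤
      C * Z := by
    have h : C₃ * C₂ ≤ C := hCC'
    calc _ = (C₃ * C₂) * Z := by rw [hK, hZ, mul_right_comm C₃, mul_assoc]
      _ ≤ C * Z := mul_le_mul_of_nonneg_right h hZ0
  set Gc := 1 + C * η₀ * (1 + Cw * η₀) ^ 2 with hGc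
  have hGG : G ≤ Gc := by rw [hGdef, hGc]; gcongr; linarith
  set W := (1 + Cw) ^ 4 * (n : ℝ) ^ 2 * (2 ^ m / η₀) * ((d : ℝ) + 1) ^ 3 * Gc ^ (n + 1) * τ with hW
  have hW0 : 0 ≤ W := by
    have : 0 ≤ Gc := by linarith
    positivity
  have hn1 : (1 : ℝ) ≤ n := by exact_mod_cast (by omega : 1 ≤ n)
  have c2 : (n : ℝ) * (β * (G ^ n * (1 + n * E))) ≤ C * W :=
    tiny_arith (Nat.cast_nonneg d) hn1 hCw hη₀ hη₀le hC₂ hC₃ hC₄ hG1 hGG hτ0
      hCC hK hD hE hβ hW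
  have c3 : (n : ℝ) * I ≤ C * (n * (2 ^ m / η₀) ^ 2 * ((d : ℝ) + 1) ^ 3 *
      (L * Real.sqrt hmax + Real.exp (-L / 4))) := by
    have hL0 : 0 ≤ L := by
      rw [← hS.len 0 (by omega)]
      exact mul_nonneg (hS.good 0 (by omega)).h_pos.le (Nat.cast_nonneg _)
    calc (n : ℝ) * I = (C₅ * C₂) * (n * (2 ^ m / η₀) ^ 2 * ((d : ℝ) + 1) ^ 3 *
          (L * Real.sqrt hmax + Real.exp (-L / 4))) := inv_reassoc _ _ _ _ _ _
      _ ≤ _ := mul_le_mul_of_nonneg_right (by linarith) (by positivity)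
  have c4 : C₂ / Real.sqrt η₀ * (1 - η₀ / 4) ^ T * (1 + d) ≤
      C / Real.sqrt η₀ * (1 - η₀ / 4) ^ T * (1 + d) := by
    have : 0 ≤ 1 - η₀ / 4 := by linarith
    gcongr
    linarith
  have hfin : schedErr C d T m nc η₀ L hmax Cw δ =
      C * Z + C * W + C * (n * (2 ^ m / η₀) ^ 2 * ((d : ℝ) + 1) ^ 3 *
        (L * Real.sqrt hmax + Real.exp (-L / 4))) +
      C / Real.sqrt η₀ * (1 - η₀ / 4) ^ T * (1 + d) + 2 * d * Real.sqrt s := by
    rw [schedErr, hZ, hW, hX, hY, he, hn, hs, hGc, hτ]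
    push_cast
    generalize ((d : ℝ) + 1) ^ 3 = a1
    generalize (2 * η₀) ^ nc + Real.exp (-L / 4) = a2
    generalize (1 + C * η₀ * (1 + Cw * η₀) ^ 2) ^ (T + m + 1) = a3
    generalize L * Real.sqrt hmax + Real.exp (-L / 4) = a4
    simp only [mul_assoc]
  rw [hfin]
  exact combine_errors htele hsumα hsumβ c1 c2 hU0 c4 hchain c3 hblur p0 p1 p2

end Vale.Agent.P347
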