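import Vale.Agent.P347.Invariant

/-!
Module 6 (schedules): a schedule of kernel steps is an algorithm of the query model.

`Comp q F` says that `F` is computed by `q` adaptive measurable queries; it is closed under
composition, and the run of a schedule is such a computation.
-/

open MeasureTheory ProbabilityTheory
open scoped RealInnerProductSpace

namespace Vale.Agent.P347

variable {d : ℕ}

/-- One randomised outer step applied to φ: blur, then the kernel. -/
noncomputable def Kop (g : EE d → EE d) (P : Params) (φ : EE d → ℝ) (x : EE d) : ℝ :=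
  ∫ ξ, ∫ ω, φ (kern g P (x + Real.sqrt P.eta • ξ) ω) ∂kgam d P.N ∂gam d

/-- The schedule of the first T steps applied to φ. -/
noncomputable def schedVal (g : EE d → EE d) (P : ℕ → Params) : ℕ → (EE d → ℝ) → EE d → ℝ
  | 0, φ => φ
  | T + 1, φ => schedVal g P T (Kop g (P T) φ)

namespace Sched

/-- The oracle answers, for any space of randomness. -/
noncomputable def tr {Ω : Type} (V : EE d → ℝ)
    (ask : (i : ℕ) → Ω → (Fin i → ℝ × EE d) → EE d) (ω : Ω) :
    (i : ℕ) → Fin i → ℝ × EE d
  | 0 => Fin.elim0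
  | i + 1 =>
      Fin.snoc (tr V ask ω i)
        (V (ask i ω (tr V ask ω i)), gradient V (ask i ω (tr V ask ω i)))

/-- F is computed by q adaptive queries. -/
def Comp {Ω X : Type} [MeasurableSpace Ω] [MeasurableSpace X] (q : ℕ)
    (F : (EE d → ℝ) → Ω → X) : Prop :=
  ∃ (ask : (i : ℕ) → Ω → (Fin i → ℝ × EE d) → EE d) (out : Ω → (Fin q → ℝ × EE d) → X),
    (∀ i, Measurable fun p : Ω × (Fin i → ℝ × EE d) => ask i p.1 p.2) ∧
    (Measurable fun p : Ω × (Fin q → ℝ × EE d) => out p.1 p.2) ∧
    ∀ V ω, out ω (tr V ask ω q) = F V ω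

lemma tr_apply {Ω : Type} (V : EE d → ℝ) (ask : (i : ℕ) → Ω → (Fin i → ℝ × EE d) → EE d) (ω : Ω) :
    ∀ (i : ℕ) (j : Fin i), tr V ask ω i j =
      (V (ask j ω (tr V ask ω j)), gradient V (ask j ω (tr V ask ω j)))
  | 0, j => j.elim0
  | i + 1, j => by
    refine Fin.lastCases ?_ (fun k => ?_) j
    · simp [tr]
    · simp only [tr, Fin.snoc_castSucc, Fin.val_castSucc]
      exact tr_apply V ask ω i k

variable {Ω Ω' X Y : Type} [MeasurableSpace Ω] [MeasurableSpace Ω'] [MeasurableSpace X]
  [MeasurableSpace Y]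

lemma comp_congr {q : ℕ} {F G : (EE d → ℝ) → Ω → X} (hF : Comp q F)
    (h : ∀ V ω, F V ω = G V ω) : Comp q G := by
  obtain ⟨ask, out, h1, h2, h3⟩ := hF
  exact ⟨ask, out, h1, h2, fun V ω => (h3 V ω).trans (h V ω)⟩

lemma comp_pure {f : Ω → X} (hf : Measurable f) : Comp (d := d) 0 (fun _ ω => f ω) :=
  ⟨fun _ _ _ => 0, fun ω _ => f ω, fun _ => measurable_const, hf.comp measurable_fst,
    fun _ _ => rfl⟩

lemma comp_query {pt : Ω → EE d} (hpt : Measurable pt) :
    Comp 1 (fun V ω => gradient V (pt ω)) :=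
  ⟨fun _ ω _ => pt ω, fun _ t => (t 0).2, fun _ => hpt.comp measurable_fst,
    ((measurable_pi_apply (0 : Fin 1)).comp measurable_snd).snd,
    fun V ω => by simp [tr_apply]⟩

lemma comp_post {q : ℕ} {F : (EE d → ℝ) → Ω → X} (hF : Comp q F) {h : Ω × X → Y}
    (hh : Measurable h) : Comp q (fun V ω => h (ω, F V ω)) := by
  obtain ⟨ask, out, h1, h2, h3⟩ := hF
  exact ⟨ask, fun ω t => h (ω, out ω t), h1, hh.comp (measurable_fst.prodMk h2),
    fun V ω => by simp only [h3]⟩

lemma tr_pre (V : EE d → ℝ) (ask : (i : ℕ) → Ω → (Fin i → ℝ × EE d) → EE d) (π : Ω' → Ω)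
    (ω : Ω') : ∀ i, tr V (fun i ω => ask i (π ω)) ω i = tr V ask (π ω) i
  | 0 => rfl
  | i + 1 => by simp only [tr, tr_pre V ask π ω i]

lemma comp_pre {q : ℕ} {F : (EE d → ℝ) → Ω → X} (hF : Comp q F) {π : Ω' → Ω}
    (hπ : Measurable π) : Comp q (fun V ω => F V (π ω)) := by
  obtain ⟨ask, out, h1, h2, h3⟩ := hF
  refine ⟨fun i ω => ask i (π ω), fun ω => out (π ω),
    fun i => (h1 i).comp ((hπ.comp measurable_fst).prodMk measurable_snd),
    h2.comp ((hπ.comp measurable_fst).prodMk measurable_snd), fun V ω => ?_⟩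
  show out (π ω) _ = F V (π ω)
  rw [tr_pre, h3]

lemma comp_bind {q p : ℕ} {F : (EE d → ℝ) → Ω → X} {G : (EE d → ℝ) → Ω × X → Y}
    (hF : Comp q F) (hG : Comp p G) : Comp (q + p) (fun V ω => G V (ω, F V ω)) := by
  obtain ⟨ask, out, a1, a2, a3⟩ := hF
  obtain ⟨ask', out', b1, b2, b3⟩ := hG
  let A : (i : ℕ) → Ω → (Fin i → ℝ × EE d) → EE d := fun i ω t =>
    if h : i < q then ask i ω t
    else ask' (i - q) (ω, out ω fun j => t ⟨j, lt_of_lt_of_le j.2 (not_lt.1 h)⟩)
      (fun j => t ⟨q + j, by have := j.2; omega⟩)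
  refine ⟨A, fun ω t => out' (ω, out ω fun j => t ⟨j, by have := j.2; omega⟩)
      (fun j => t ⟨q + j, by have := j.2; omega⟩), fun i => ?_, ?_, fun V ω => ?_⟩
  · by_cases h : i < q
    · simp only [A, dif_pos h]; exact a1 i
    · simp only [A, dif_neg h]
      refine (b1 _).comp (Measurable.prodMk (measurable_fst.prodMk (a2.comp
        (measurable_fst.prodMk (measurable_pi_lambda _ fun j => ?_))))
        (measurable_pi_lambda _ fun j => ?_))
      · exact (measurable_pi_apply _).comp measurable_snd
      · exact (measurable_pi_apply _).comp measurable_snd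
  · refine b2.comp (Measurable.prodMk (measurable_fst.prodMk (a2.comp
      (measurable_fst.prodMk (measurable_pi_lambda _ fun j => ?_))))
      (measurable_pi_lambda _ fun j => ?_))
    · exact (measurable_pi_apply _).comp measurable_snd
    · exact (measurable_pi_apply _).comp measurable_snd
  · have e1 : ∀ i, i ≤ q → tr V A ω i = tr V ask ω i := by
      intro i
      induction i with
      | zero => intro _; rfl
      | succ i ih =>
        intro hi
        have e : A i ω (tr V ask ω i) = ask i ω (tr V ask ω i) := dif_pos (by omega)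
        simp only [tr, ih (by omega), e]
    have e2 : ∀ (n : ℕ) (hn : q ≤ n), (fun j : Fin q => tr V A ω n ⟨j, lt_of_lt_of_le j.2 hn⟩) =
        tr V ask ω q := by
      intro n hn
      funext j
      rw [tr_apply, tr_apply, e1 j j.2.le]
      have : A j ω (tr V ask ω j) = ask j ω (tr V ask ω j) := dif_pos j.2
      simp only [this]
    have e3 : ∀ i, (fun j : Fin i => tr V A ω (q + i) ⟨q + j, by have := j.2; omega⟩) =
        tr V ask' (ω, F V ω) i := by
      intro i
      induction i using Nat.strong_induction_on with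
      | _ i ih =>
        funext j
        rw [tr_apply, tr_apply]
        have e : A (q + j) ω (tr V A ω (q + j)) = ask' j (ω, F V ω) (tr V ask' (ω, F V ω) j) := by
          simp only [A]
          rw [dif_neg (by omega), e2 _ (Nat.le_add_right q j), a3, ← ih j j.2]
          congr! <;> omega
        simp only [e]
    show out' (ω, out ω _) _ = G V (ω, F V ω)
    rw [e3 p, e2 (q + p) (Nat.le_add_right q p), a3, b3]

lemma comp_add {q p : ℕ} {F G : (EE d → ℝ) → Ω → EE d} (hF : Comp q F) (hG : Comp p G) :
    Comp (q + p) (fun V ω => F V ω + G V ω) :=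
  comp_bind (G := fun V z => z.2 + G V z.1) hF
    (comp_post (h := fun z : (Ω × EE d) × EE d => z.1.2 + z.2) (comp_pre hG measurable_fst)
      (by fun_prop))

lemma comp_sum : ∀ {k : ℕ} {F : Fin k → (EE d → ℝ) → Ω → EE d},
    (∀ j, Comp 1 (F j)) → Comp k (fun V ω => ∑ j, F j V ω)
  | 0, F, _ => comp_congr (comp_pure (measurable_const (a := (0 : EE d)))) (by simp)
  | k + 1, F, hF =>
    comp_congr (comp_add (comp_sum fun j => hF j.castSucc) (hF (Fin.last k))) fun V ω => by
      simp only [Fin.sum_univ_castSucc]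

lemma measurable_tr {V : EE d → ℝ} (hV : Continuous V) (hg : Continuous (gradient V))
    {ask : (i : ℕ) → Ω → (Fin i → ℝ × EE d) → EE d}
    (h : ∀ i, Measurable fun p : Ω × (Fin i → ℝ × EE d) => ask i p.1 p.2) :
    ∀ i, Measurable fun ω => tr V ask ω i
  | 0 => measurable_const
  | i + 1 => by
    have h1 := measurable_tr hV hg h i
    have h2 : Measurable fun ω => ask i ω (tr V ask ω i) := (h i).comp (measurable_id.prodMk h1)
    refine measurable_pi_iff.2 fun j => ?_
    refine Fin.lastCases ?_ (fun k => ?_) j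
    · simpa [tr] using (hV.measurable.comp h2).prodMk (hg.measurable.comp h2)
    · simpa [tr, Function.comp_def] using (measurable_pi_apply k).comp h1

lemma comp_measurable {q : ℕ} {F : (EE d → ℝ) → Ω → X} (hF : Comp q F) {V : EE d → ℝ}
    (hV : Continuous V) (hg : Continuous (gradient V)) : Measurable (F V) := by
  obtain ⟨ask, out, h1, h2, h3⟩ := hF
  simpa only [Function.comp_def, id, h3] using
    h2.comp (measurable_id.prodMk (measurable_tr hV hg h1 q))

lemma comp_ghat (η : ℝ) {y c x : Ω → EE d} (hy : Measurable y) (hc : Measurable c)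
    (hx : Measurable x) :
    Comp 1 (fun V ω => ghat (gradient V) η (y ω) (c ω) (x ω)) :=
  comp_post (h := fun z : Ω × EE d => Real.sqrt η • z.2 + (Real.sqrt η)⁻¹ • (c z.1 - y z.1))
    (comp_query (pt := fun ω => c ω + Real.sqrt η • x ω) (by fun_prop)) (by fun_prop)

lemma comp_Asum (P : Params) {y c : Ω → EE d} {w : Ω → Path d P.N} (hy : Measurable y)
    (hc : Measurable c) (hw : Measurable w) :
    Comp P.q (fun V ω => Asum P (ghat (gradient V) P.eta (y ω) (c ω)) (w ω)) :=
  comp_sum fun j => comp_post (h := fun z : Ω × EE d => P.w j • z.2)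
    (comp_ghat P.eta hy hc ((pathW d P.N P.h (P.node j)).continuous.measurable.comp hw))
    (by fun_prop)

lemma comp_centre (η : ℝ) {y : Ω → EE d} (hy : Measurable y) :
    ∀ n, Comp n (fun V ω => centre (gradient V) η n (y ω))
  | 0 => comp_congr (comp_pure hy) fun _ _ => rfl
  | n + 1 =>
    comp_congr (comp_bind (G := fun V z => y z.1 - η • gradient V z.2) (comp_centre η hy n)
      (comp_post (h := fun z : (Ω × EE d) × EE d => y z.1.1 - η • z.2)
        (comp_query (pt := fun z : Ω × EE d => z.2) measurable_snd) (by fun_prop)))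
      fun V ω => by simp only [centre, Function.iterate_succ_apply']

lemma comp_Scorr (P : Params) {y c ξ : Ω → EE d} {w : Ω → Path d P.N} (hy : Measurable y)
    (hc : Measurable c) (hw : Measurable w) (hξ : Measurable ξ) :
    Comp (P.q + (1 + 1)) (fun V ω =>
      Scorr P (ghat (gradient V) P.eta (y ω) (c ω)) (w ω) (ξ ω)) := by
  have hW : Measurable fun ω => pathW d P.N P.h P.N (w ω) :=
    (pathW d P.N P.h P.N).continuous.measurable.comp hw
  have h1 := comp_ghat (Ω := Ω × EE d) P.eta (y := fun z => y z.1) (c := fun z => c z.1)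
    (x := fun z => (1 - P.h) ^ P.m • (pathW d P.N P.h P.N (w z.1) - z.2)
      + Real.sqrt (1 - (1 - P.h) ^ (2 * P.m)) • ξ z.1) (by fun_prop) (by fun_prop) (by fun_prop)
  have h2 := comp_ghat (Ω := Ω × EE d) P.eta (y := fun z => y z.1) (c := fun z => c z.1)
    (x := fun z => (1 - P.h) ^ P.m • pathW d P.N P.h P.N (w z.1)
      + Real.sqrt (1 - (1 - P.h) ^ (2 * P.m)) • ξ z.1) (by fun_prop) (by fun_prop) (by fun_prop)
  exact comp_congr (comp_bind (comp_Asum P hy hc hw)
    (comp_add h1 (comp_post (h := fun z : (Ω × EE d) × EE d => -z.2) h2 (by fun_prop))))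
    fun V ω => by simp only [Scorr, sub_eq_add_neg]

lemma comp_kern (P : Params) {y : Ω → EE d} {r : Ω → KRand d P.N} (hy : Measurable y)
    (hr : Measurable r) :
    Comp (P.n + 2 * P.q + 2) (fun V ω => kern (gradient V) P (y ω) (r ω)) := by
  have hA := comp_Asum (Ω := Ω × EE d) P (y := fun z => y z.1) (c := fun z => z.2)
    (w := fun z => (r z.1).1) (by fun_prop) measurable_snd (by fun_prop)
  have hS := comp_Scorr (Ω := Ω × EE d) P (y := fun z => y z.1) (c := fun z => z.2)
    (w := fun z => (r z.1).2.1) (ξ := fun z => (r z.1).2.2) (by fun_prop) measurable_snd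
    (by fun_prop) (by fun_prop)
  have hW : Measurable fun z : (Ω × EE d) × EE d => pathW d P.N P.h P.N (r z.1.1).1 :=
    (pathW d P.N P.h P.N).continuous.measurable.comp (by fun_prop)
  have := comp_bind (comp_centre P.eta hy P.n)
    (comp_post (h := fun z : (Ω × EE d) × EE d =>
        z.1.2 + Real.sqrt P.eta • (pathW d P.N P.h P.N (r z.1.1).1 - z.2))
      (comp_add hA hS) (by fun_prop))
  rw [show P.n + 2 * P.q + 2 = P.n + (P.q + (P.q + (1 + 1))) by ring]
  exact comp_congr this fun V ω => by simp only [kern, sub_sub]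

lemma continuous_centre {g : EE d → EE d} (hg : Continuous g) (η : ℝ) :
    ∀ n, Continuous (centre g η n)
  | 0 => continuous_id
  | n + 1 => by
    have := continuous_centre hg η n
    have e : centre g η (n + 1) = fun y => y - η • g (centre g η n y) := by
      funext y; simp only [centre, Function.iterate_succ_apply']
    rw [e]; fun_prop

lemma continuous_kern {g : EE d → EE d} (hg : Continuous g) (P : Params) :
    Continuous fun p : EE d × KRand d P.N => kern g P p.1 p.2 := by
  have := continuous_centre hg P.eta P.n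
  simp only [kern, Asum, Scorr, ghat]
  fun_prop

lemma kop_bc {g : EE d → EE d} (hg : Continuous g) (P : Params) {φ : EE d → ℝ}
    (hφ : Continuous φ) (h1 : ∀ x, |φ x| ≤ 1) :
    Continuous (Kop g P φ) ∧ ∀ x, |Kop g P φ x| ≤ 1 := by
  have hk := continuous_kern hg P
  have hi : ∀ y, |∫ ω, φ (kern g P y ω) ∂kgam d P.N| ≤ 1 := fun y => by
    have := norm_integral_le_of_norm_le_const (μ := kgam d P.N)
      (ae_of_all _ fun ω => (Real.norm_eq_abs _).le.trans (h1 (kern g P y ω)))
    simpa using this
  have hic : Continuous fun y => ∫ ω, φ (kern g P y ω) ∂kgam d P.N := by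
    refine continuous_of_dominated (bound := fun _ => (1 : ℝ))
      (fun y => (hφ.comp (hk.comp (continuous_const.prodMk continuous_id))).aestronglyMeasurable)
      (fun y => ae_of_all _ fun ω => (Real.norm_eq_abs _).le.trans (h1 _)) (integrable_const _)
      (ae_of_all _ fun ω => hφ.comp (hk.comp (continuous_id.prodMk continuous_const)))
  refine ⟨?_, fun x => ?_⟩
  · refine continuous_of_dominated (bound := fun _ => (1 : ℝ))
      (fun x => (hic.comp (by fun_prop : Continuous fun ξ => x + Real.sqrt P.eta • ξ)).aestronglyMeasurable)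
      (fun x => ae_of_all _ fun ξ => (Real.norm_eq_abs _).le.trans (hi _)) (integrable_const _)
      (ae_of_all _ fun ξ => hic.comp (by fun_prop : Continuous fun x => x + Real.sqrt P.eta • ξ))
  · have := norm_integral_le_of_norm_le_const (μ := gam d)
      (ae_of_all _ fun ξ => (Real.norm_eq_abs _).le.trans (hi (x + Real.sqrt P.eta • ξ)))
    simpa [Kop] using this

lemma step_integral {R : Type} [MeasurableSpace R] (ν : Measure Ω) [IsProbabilityMeasure ν]
    (ρ : Measure R) [IsProbabilityMeasure ρ] {A : Ω → EE d} (hA : Measurable A)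
    {k : EE d × R → EE d} (hk : Measurable k) (c : ℝ) {φ : EE d → ℝ} (hφ : Measurable φ)
    (h1 : ∀ x, |φ x| ≤ 1) :
    ∫ ω, ∫ ξ, ∫ r, φ (k (A ω + c • ξ, r)) ∂ρ ∂gam d ∂ν =
      ∫ z : Ω × (EE d × R), φ (k (A z.1 + c • z.2.1, z.2.2)) ∂ν.prod ((gam d).prod ρ) := by
  have hm : Measurable fun z : Ω × (EE d × R) => φ (k (A z.1 + c • z.2.1, z.2.2)) := by fun_prop
  rw [integral_prod _ (Integrable.of_bound hm.aestronglyMeasurable 1
    (ae_of_all _ fun z => (Real.norm_eq_abs _).le.trans (h1 _)))]
  refine integral_congr_ae (ae_of_all _ fun ω => ?_)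
  exact (integral_prod _ (Integrable.of_bound
    (hm.comp (measurable_prodMk_left (x := ω))).aestronglyMeasurable 1
    (ae_of_all _ fun z => (Real.norm_eq_abs _).le.trans (h1 _)))).symm

/-- The run of a schedule, as a computation on a standard space of randomness. -/
lemma exists_run (P : ℕ → Params) : ∀ T : ℕ,
    ∃ (Ω : Type) (_ : MeasurableSpace Ω) (_ : StandardBorelSpace Ω) (ν : Measure Ω)
      (F : (EE d → ℝ) → Ω → EE d), IsProbabilityMeasure ν ∧
      Comp (∑ k ∈ Finset.range T, ((P k).n + 2 * (P k).q + 2)) F ∧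
      ∀ V : EE d → ℝ, Continuous V → Continuous (gradient V) →
        ∀ φ : EE d → ℝ, Continuous φ → (∀ x, |φ x| ≤ 1) →
          schedVal (gradient V) P T φ 0 = ∫ ω, φ (F V ω) ∂ν
  | 0 => ⟨EE d, inferInstance, inferInstance, gam d, fun _ _ => 0, inferInstance,
      by simpa using comp_pure (measurable_const (a := (0 : EE d))),
      fun V _ _ φ _ _ => by simp [schedVal]⟩
  | T + 1 => by
    obtain ⟨Ω, mΩ, sΩ, ν, F, hν, hF, hval⟩ := exists_run P T
    have s1 : StandardBorelSpace (KRand d (P T).N) :=
      StandardBorelSpace.prod (α := Path d (P T).N) (β := Path d (P T).N × EE d)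
    have s2 : StandardBorelSpace (EE d × KRand d (P T).N) := StandardBorelSpace.prod
    refine ⟨Ω × (EE d × KRand d (P T).N), inferInstance, StandardBorelSpace.prod,
      ν.prod ((gam d).prod (kgam d (P T).N)),
      fun V ω => kern (gradient V) (P T) (F V ω.1 + Real.sqrt (P T).eta • ω.2.1) ω.2.2,
      inferInstance, ?_, fun V hV hg φ hφ h1 => ?_⟩
    · rw [Finset.sum_range_succ]
      exact comp_bind (comp_pre hF measurable_fst)
        (comp_kern (P T) (y := fun z : (Ω × (EE d × KRand d (P T).N)) × EE d =>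
          z.2 + Real.sqrt (P T).eta • z.1.2.1) (r := fun z => z.1.2.2)
          (measurable_snd.add ((measurable_fst.snd.fst).const_smul (Real.sqrt (P T).eta)))
          measurable_fst.snd.snd)
    · obtain ⟨kc, k1⟩ := kop_bc hg (P T) hφ h1
      simp only [schedVal]
      rw [hval V hV hg _ kc k1]
      exact step_integral ν (kgam d (P T).N) (comp_measurable hF hV hg)
        (continuous_kern hg (P T)).measurable (Real.sqrt (P T).eta) hφ.measurable h1

/-- A computation on a standard space of randomness is an algorithm of the model. -/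
lemma samples_of_comp {Ω : Type} [MeasurableSpace Ω] [StandardBorelSpace Ω] (ν : Measure Ω)
    [IsProbabilityMeasure ν] {q : ℕ} {F : (EE d → ℝ) → Ω → EE d} (hF : Comp q F)
    (h : ∀ V : EE d → ℝ, Admissible V → ∀ B : Set (EE d), MeasurableSet B →
      |(ν {ω | F V ω ∈ B}).toReal - (gibbs V B).toReal| ≤ 1 / 10) :
    Samples d q := by
  obtain ⟨ask, out, a1, a2, a3⟩ := hF
  have hne : Nonempty Ω := nonempty_of_isProbabilityMeasure ν
  have he := measurableEmbedding_embeddingReal Ω
  obtain ⟨dec, hdm, hdec⟩ := he.exists_measurable_extend measurable_id (fun _ => hne)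
  set emb : Ω → Rand := fun ω _ => embeddingReal Ω ω
  have hem : Measurable emb := measurable_pi_lambda _ fun _ => he.measurable
  have hD : Measurable fun r : Rand => dec (r 0) := hdm.comp (measurable_pi_apply 0)
  refine ⟨ν.map emb, fun i r t => ask i (dec (r 0)) t, fun r t => out (dec (r 0)) t,
    Measure.isProbabilityMeasure_map hem.aemeasurable,
    fun i => (a1 i).comp ((hD.comp measurable_fst).prodMk measurable_snd),
    a2.comp ((hD.comp measurable_fst).prodMk measurable_snd), fun V hV B hB => ?_⟩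
  have htr : ∀ (r : Rand) i, transcript V (fun i r t => ask i (dec (r 0)) t) r i =
      tr V ask (dec (r 0)) i := by
    intro r i
    induction i with
    | zero => rfl
    | succ i ih => simp only [transcript, tr, ih]
  have hvc : Continuous V := hV.1.continuous
  have hgc : Continuous (gradient V) := (gradClass_gradient hV).smooth.continuous
  simp only [htr, a3]
  have hm : MeasurableSet {r : Rand | F V (dec (r 0)) ∈ B} :=
    ((comp_measurable ⟨ask, out, a1, a2, a3⟩ hvc hgc).comp hD) hB
  rw [Measure.map_apply hem hm]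
  have e : emb ⁻¹' {r | F V (dec (r 0)) ∈ B} = {ω | F V ω ∈ B} := by
    ext ω
    have hω : dec (embeddingReal Ω ω) = ω := congrFun hdec ω
    simp [emb, hω]
  rw [e]
  exact h V hV B hB

end Sched

open Sched in
/-- A schedule started at 0 and blurred at the end samples with the stated number of queries. -/
theorem samples_of_schedule (d T : ℕ) (P : ℕ → Params) (s : ℝ) (hs : 0 < s)
    (hgood : ∀ k < T, ∃ Cw δ : ℝ, (P k).Good d Cw δ)
    (herr : ∀ V : EE d → ℝ, Admissible V → ∀ ψ : EE d → ℝ, Continuous ψ → (∀ x, |ψ x| ≤ 1) →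
      |schedVal (gradient V) P T (Gs s ψ) 0 - ∫ x, ψ x ∂gibbs V| ≤ 1 / 10) :
    Samples d (∑ k ∈ Finset.range T, ((P k).n + 2 * (P k).q + 2)) := by
  obtain ⟨Ω, mΩ, sΩ, ν, F, hν, hF, hval⟩ := exists_run (d := d) P T
  have hF' : Comp (∑ k ∈ Finset.range T, ((P k).n + 2 * (P k).q + 2))
      (fun V (z : Ω × EE d) => F V z.1 + Real.sqrt s • z.2) :=
    comp_post (h := fun z : (Ω × EE d) × EE d => z.2 + Real.sqrt s • z.1.2)
      (comp_pre hF measurable_fst) (by fun_prop)
  refine samples_of_comp (ν.prod (gam d)) hF' fun V hV B hB => ?_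
  have hvc : Continuous V := hV.1.continuous
  have hgc : Continuous (gradient V) := (gradClass_gradient hV).smooth.continuous
  have hm := comp_measurable hF' hvc hgc
  have := gibbs_prob hV
  have : IsProbabilityMeasure ((ν.prod (gam d)).map
      (fun z : Ω × EE d => F V z.1 + Real.sqrt s • z.2)) :=
    Measure.isProbabilityMeasure_map hm.aemeasurable
  have key := tv_of_tests ((ν.prod (gam d)).map
    (fun z : Ω × EE d => F V z.1 + Real.sqrt s • z.2)) (gibbs V) (1 / 10) (fun ψ hψ h1 => ?_) B hB
  · rwa [Measure.map_apply hm hB] at key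
  · have hb : Continuous (Gs s ψ) ∧ ∀ x, |Gs s ψ x| ≤ 1 := by
      refine ⟨continuous_of_dominated (bound := fun _ => (1 : ℝ))
        (fun x => (hψ.comp (by fun_prop : Continuous fun ξ : EE d => x + Real.sqrt s • ξ)).aestronglyMeasurable)
        (fun x => ae_of_all _ fun ξ => (Real.norm_eq_abs _).le.trans (h1 _)) (integrable_const _)
        (ae_of_all _ fun ξ => hψ.comp (by fun_prop : Continuous fun x : EE d => x + Real.sqrt s • ξ)),
        fun x => ?_⟩
      have := norm_integral_le_of_norm_le_const (μ := gam d)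
        (ae_of_all _ fun ξ => (Real.norm_eq_abs _).le.trans (h1 (x + Real.sqrt s • ξ)))
      simpa [Gs] using this
    have hi : Integrable (fun z : Ω × EE d => ψ (F V z.1 + Real.sqrt s • z.2)) (ν.prod (gam d)) :=
      Integrable.of_bound (hψ.measurable.comp hm).aestronglyMeasurable 1
        (ae_of_all _ fun z => (Real.norm_eq_abs _).le.trans (h1 _))
    rw [integral_map hm.aemeasurable hψ.aestronglyMeasurable, integral_prod _ hi]
    have := herr V hV ψ hψ h1
    rwa [hval V hvc hgc _ hb.1 hb.2] at this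

end Vale.Agent.P347
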