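import Vale.Agent.P347.Kernel
import Vale.Agent.P347.Chain
import Vale.Agent.P347.Sched

/-!
Telescoping of a kernel schedule against the exact outer steps, and the error of one step in
summable form.
-/

open MeasureTheory ProbabilityTheory Filter
open scoped RealInnerProductSpace

namespace Vale.Agent.P347

variable {d : ℕ}

/-- The weight 1 + ‖x‖². -/
noncomputable def wt (x : EE d) : ℝ := 1 + ‖x‖ ^ 2

lemma one_le_wt (x : EE d) : 1 ≤ wt x := by unfold wt; nlinarith

lemma norm_le_wt (x : EE d) : ‖x‖ ≤ wt x := by unfold wt; nlinarith [sq_nonneg (‖x‖ - 1 / 2)]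

lemma measurable_wt : Measurable (wt : EE d → ℝ) := by unfold wt; fun_prop

/-- Measurable functions of at most quadratic growth. -/
def QB (f : EE d → ℝ) : Prop := Measurable f ∧ ∃ c, ∀ x, |f x| ≤ c * wt x

lemma qb_wt : QB (wt : EE d → ℝ) :=
  ⟨measurable_wt, 1, fun x => by rw [abs_of_nonneg (zero_le_one.trans (one_le_wt x)), one_mul]⟩

lemma qb_const (c : ℝ) : QB (fun _ : EE d => c) :=
  ⟨measurable_const, |c|, fun x => le_mul_of_one_le_right (abs_nonneg c) (one_le_wt x)⟩

lemma qb_of_bounded {f : EE d → ℝ} (hf : Measurable f) {K : ℝ} (h : ∀ x, |f x| ≤ K) : QB f :=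
  ⟨hf, K, fun x => (h x).trans
    (le_mul_of_one_le_right ((abs_nonneg _).trans (h x)) (one_le_wt x))⟩

lemma QB.add {f g : EE d → ℝ} (hf : QB f) (hg : QB g) : QB (fun x => f x + g x) := by
  obtain ⟨hf, a, ha⟩ := hf
  obtain ⟨hg, b, hb⟩ := hg
  refine ⟨hf.add hg, a + b, fun x => ?_⟩
  rw [add_mul]
  exact (abs_add_le _ _).trans (add_le_add (ha x) (hb x))

lemma QB.const_mul {f : EE d → ℝ} (hf : QB f) (c : ℝ) : QB (fun x => c * f x) := by
  obtain ⟨hf, a, ha⟩ := hf
  refine ⟨hf.const_mul c, |c| * a, fun x => ?_⟩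
  rw [abs_mul, mul_assoc]
  exact mul_le_mul_of_nonneg_left (ha x) (abs_nonneg c)

/-- A step with a second moment bound. -/
structure StepOK (g : EE d → EE d) (P : Params) (G D : ℝ) : Prop where
  cont : Continuous g
  eta_nonneg : 0 ≤ P.eta
  G_ge : 1 ≤ G
  D_nonneg : 0 ≤ D
  sqint : ∀ y, Integrable (fun ω => ‖kern g P y ω‖ ^ 2) (kgam d P.N)
  moment : ∀ y, ∫ ω, ‖kern g P y ω‖ ^ 2 ∂kgam d P.N ≤ G * ‖y‖ ^ 2 + D

lemma continuous_kern {g : EE d → EE d} (hg : Continuous g) (P : Params) :
    Continuous fun p : EE d × KRand d P.N => kern g P p.1 p.2 := by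
  have hit : ∀ n, Continuous fun y : EE d => centre g P.eta n y := by
    intro n
    induction n with
    | zero => simpa [centre] using continuous_id'
    | succ n ih =>
      simp only [centre, Function.iterate_succ', Function.comp_apply] at ih ⊢
      exact continuous_id'.sub ((hg.comp ih).const_smul P.eta)
  have hc : Continuous fun p : EE d × KRand d P.N => centre g P.eta P.n p.1 :=
    (hit _).comp continuous_fst
  simp only [kern, Scorr, Asum, ghat]
  fun_prop

lemma integral_wt_shift {η : ℝ} (hη : 0 ≤ η) (x : EE d) :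
    Integrable (fun ξ => wt (x + Real.sqrt η • ξ)) (gam d) ∧
      ∫ ξ, wt (x + Real.sqrt η • ξ) ∂gam d = wt x + η * d := by
  have hsq : Integrable (fun ξ : EE d => ‖ξ‖ ^ 2) (gam d) :=
    (IsGaussian.memLp_id (gam d) 2 (by norm_num)).norm.integrable_sq
  have hid : Integrable (fun ξ : EE d => ξ) (gam d) := IsGaussian.integrable_fun_id
  have he : ∀ ξ : EE d, wt (x + Real.sqrt η • ξ) =
      wt x + 2 * Real.sqrt η * ⟪x, ξ⟫ + η * ‖ξ‖ ^ 2 := by
    intro ξ
    simp only [wt]
    rw [norm_add_sq_real, real_inner_smul_right, norm_smul, Real.norm_eq_abs, mul_pow, sq_abs,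
      Real.sq_sqrt hη]
    ring
  have e1 : Integrable (fun ξ : EE d => wt x + 2 * Real.sqrt η * ⟪x, ξ⟫) (gam d) :=
    (integrable_const _).fun_add ((hid.const_inner x).const_mul _)
  refine ⟨(e1.fun_add (hsq.const_mul η)).congr (Eventually.of_forall fun ξ => (he ξ).symm), ?_⟩
  simp_rw [he]
  rw [integral_add e1 (hsq.const_mul η),
    integral_add (integrable_const _) ((hid.const_inner x).const_mul _), integral_const_mul,
    integral_const_mul, integral_inner hid, integral_id_stdGaussian, second_moment,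
    finrank_euclideanSpace_fin]
  simp

section Kop

variable {g : EE d → EE d} {P : Params} {G D : ℝ} {f f' : EE d → ℝ}

lemma StepOK.int_kern (h : StepOK g P G D) (hf : QB f) (y : EE d) :
    Integrable (fun ω => f (kern g P y ω)) (kgam d P.N) ∧
      ∀ c, (∀ x, |f x| ≤ c * wt x) →
        |∫ ω, f (kern g P y ω) ∂kgam d P.N| ≤ c * ((G + D) * wt y) := by
  have hm : Measurable fun ω => f (kern g P y ω) :=
    hf.1.comp ((continuous_kern h.cont P).comp (continuous_const.prodMk continuous_id')).measurable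
  have hw : Integrable (fun ω => wt (kern g P y ω)) (kgam d P.N) :=
    (integrable_const 1).fun_add (h.sqint y)
  have hwle : ∫ ω, wt (kern g P y ω) ∂kgam d P.N ≤ (G + D) * wt y := by
    simp only [wt]
    rw [integral_add (integrable_const 1) (h.sqint y)]
    simp only [integral_const, probReal_univ, smul_eq_mul, mul_one]
    nlinarith [h.moment y, h.G_ge, h.D_nonneg, sq_nonneg ‖y‖]
  obtain ⟨c₀, hc₀⟩ := hf.2
  refine ⟨(hw.const_mul c₀).mono' hm.aestronglyMeasurable
    (Eventually.of_forall fun ω => by rw [Real.norm_eq_abs]; exact hc₀ _), fun c hc => ?_⟩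
  have hc0 : 0 ≤ c := nonneg_of_mul_nonneg_left ((abs_nonneg _).trans (hc y))
    (zero_lt_one.trans_le (one_le_wt y))
  refine abs_integral_le_integral_abs.trans ?_
  calc ∫ ω, |f (kern g P y ω)| ∂kgam d P.N ≤ ∫ ω, c * wt (kern g P y ω) ∂kgam d P.N :=
        integral_mono ((hw.const_mul c₀).mono' hm.abs.aestronglyMeasurable
          (Eventually.of_forall fun ω => by simpa using hc₀ _)) (hw.const_mul c) fun ω => hc _
    _ ≤ c * ((G + D) * wt y) := by
        rw [integral_const_mul]; exact mul_le_mul_of_nonneg_left hwle hc0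

lemma StepOK.meas_inner (h : StepOK g P G D) (hf : QB f) :
    StronglyMeasurable fun y => ∫ ω, f (kern g P y ω) ∂kgam d P.N :=
  StronglyMeasurable.integral_prod_right'
    (f := fun p : EE d × KRand d P.N => f (kern g P p.1 p.2))
    (hf.1.comp (continuous_kern h.cont P).measurable).stronglyMeasurable

lemma StepOK.int_outer (h : StepOK g P G D) (hf : QB f) (x : EE d) :
    Integrable (fun ξ => ∫ ω, f (kern g P (x + Real.sqrt P.eta • ξ) ω) ∂kgam d P.N) (gam d) := by
  obtain ⟨c, hc⟩ := hf.2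
  refine (((integral_wt_shift h.eta_nonneg x).1.const_mul (G + D)).const_mul c).mono'
    ((h.meas_inner hf).comp_measurable (by fun_prop)).aestronglyMeasurable
    (Eventually.of_forall fun ξ => ?_)
  rw [Real.norm_eq_abs]
  exact (h.int_kern hf _).2 c hc

lemma StepOK.qb (h : StepOK g P G D) (hf : QB f) : QB (Kop g P f) := by
  obtain ⟨c, hc⟩ := hf.2
  refine ⟨(StronglyMeasurable.integral_prod_right'
    (f := fun p : EE d × EE d => ∫ ω, f (kern g P (p.1 + Real.sqrt P.eta • p.2) ω) ∂kgam d P.N)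
    ((h.meas_inner hf).comp_measurable (by fun_prop))).measurable,
    c * ((G + D) * (1 + P.eta * d)), fun x => ?_⟩
  have hc0 : 0 ≤ c := nonneg_of_mul_nonneg_left ((abs_nonneg _).trans (hc x))
    (zero_lt_one.trans_le (one_le_wt x))
  unfold Kop
  refine abs_integral_le_integral_abs.trans ?_
  calc ∫ ξ, |∫ ω, f (kern g P (x + Real.sqrt P.eta • ξ) ω) ∂kgam d P.N| ∂gam d
      ≤ ∫ ξ, c * ((G + D) * wt (x + Real.sqrt P.eta • ξ)) ∂gam d :=
        integral_mono (h.int_outer hf x).abs
          (((integral_wt_shift h.eta_nonneg x).1.const_mul _).const_mul _)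
          fun ξ => (h.int_kern hf _).2 c hc
    _ ≤ _ := by
        rw [integral_const_mul, integral_const_mul, (integral_wt_shift h.eta_nonneg x).2]
        have := one_le_wt x
        have hGD : 0 ≤ G + D := by linarith [h.G_ge, h.D_nonneg]
        have hηd : 0 ≤ P.eta * d := mul_nonneg h.eta_nonneg d.cast_nonneg
        have : wt x + P.eta * d ≤ (1 + P.eta * d) * wt x := by nlinarith
        calc c * ((G + D) * (wt x + P.eta * d)) ≤ c * ((G + D) * ((1 + P.eta * d) * wt x)) := by
              gcongr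
          _ = _ := by ring

lemma StepOK.sub (h : StepOK g P G D) (hf : QB f) (hf' : QB f') (x : EE d) :
    Kop g P f x - Kop g P f' x = Kop g P (fun z => f z - f' z) x := by
  unfold Kop
  rw [← integral_sub (h.int_outer hf x) (h.int_outer hf' x)]
  refine integral_congr_ae (Eventually.of_forall fun ξ => ?_)
  exact (integral_sub (h.int_kern hf _).1 (h.int_kern hf' _).1).symm

lemma StepOK.mono (h : StepOK g P G D) (hf : QB f) (hf' : QB f') (hle : ∀ x, f x ≤ f' x)
    (x : EE d) : Kop g P f x ≤ Kop g P f' x :=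
  integral_mono (h.int_outer hf x) (h.int_outer hf' x) fun ξ =>
    integral_mono (h.int_kern hf _).1 (h.int_kern hf' _).1 fun ω => hle _

lemma StepOK.affine (h : StepOK g P G D) (a b : ℝ) (hb : 0 ≤ b) (x : EE d) :
    Kop g P (fun z => a + b * wt z) x ≤ a + b * (G * wt x + (G * (P.eta * d) + D)) := by
  have hi := integral_wt_shift h.eta_nonneg x
  have hw : ∀ y, ∫ ω, (a + b * wt (kern g P y ω)) ∂kgam d P.N ≤ a + b * (G * wt y + D) := by
    intro y
    have hwi := (h.int_kern qb_wt y).1
    rw [integral_add (integrable_const a) (hwi.const_mul b), integral_const_mul]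
    simp only [integral_const, probReal_univ, smul_eq_mul, one_mul]
    gcongr
    simp only [wt]
    rw [integral_add (integrable_const 1) (h.sqint y)]
    simp only [integral_const, probReal_univ, smul_eq_mul, one_mul]
    nlinarith [h.moment y, h.G_ge]
  calc Kop g P (fun z => a + b * wt z) x
      ≤ ∫ ξ, (a + b * (G * wt (x + Real.sqrt P.eta • ξ) + D)) ∂gam d :=
        integral_mono (h.int_outer ((qb_const a).add (qb_wt.const_mul b)) x)
          ((integrable_const a).fun_add
            (((hi.1.const_mul G).fun_add (integrable_const D)).const_mul b)) fun ξ => hw _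
    _ = _ := by
        rw [integral_add (integrable_const a)
            (((hi.1.const_mul G).fun_add (integrable_const D)).const_mul b), integral_const_mul,
          integral_add (hi.1.const_mul G) (integrable_const D), integral_const_mul, hi.2]
        simp only [integral_const, probReal_univ, smul_eq_mul, one_mul]
        ring

end Kop

/-- The exact steps k, ..., k + j - 1 applied to φ. -/
noncomputable def tailVal (g : EE d → EE d) (P : ℕ → Params) : ℕ → ℕ → (EE d → ℝ) → EE d → ℝ
  | _, 0, φ => φ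
  | k, j + 1, φ => Mop g (P k).eta (P k).h (P k).N (tailVal g P (k + 1) j φ)

section Sched

variable {g : EE d → EE d} {P : ℕ → Params} {G D : ℝ}

lemma sched_qb {f : EE d → ℝ} : ∀ n, (∀ k < n, StepOK g (P k) G D) → QB f →
    QB (schedVal g P n f)
  | 0, _, hf => hf
  | n + 1, h, hf =>
      sched_qb (f := Kop g (P n) f) n (fun k hk => h k (by omega)) ((h n (by omega)).qb hf)

lemma sched_mono : ∀ n, (∀ k < n, StepOK g (P k) G D) → ∀ {f f' : EE d → ℝ}, QB f → QB f' →
    (∀ x, f x ≤ f' x) → ∀ x, schedVal g P n f x ≤ schedVal g P n f' x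
  | 0, _, _, _, _, _, hle, x => hle x
  | n + 1, h, _, _, hf, hf', hle, x =>
      sched_mono n (fun k hk => h k (by omega)) ((h n (by omega)).qb hf)
        ((h n (by omega)).qb hf') ((h n (by omega)).mono hf hf' hle) x

lemma sched_sub : ∀ n, (∀ k < n, StepOK g (P k) G D) → ∀ {f f' : EE d → ℝ}, QB f → QB f' →
    ∀ x, schedVal g P n f x - schedVal g P n f' x = schedVal g P n (fun z => f z - f' z) x
  | 0, _, _, _, _, _, _ => rfl
  | n + 1, h, f, f', hf, hf', x => by
      have hn := h n (by omega)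
      simp only [schedVal]
      rw [sched_sub n (fun k hk => h k (by omega)) (hn.qb hf) (hn.qb hf') x]
      congr 1
      funext z
      exact hn.sub hf hf' z

lemma sched_affine {E : ℝ} (hE : 0 ≤ E) : ∀ n, (∀ k < n, StepOK g (P k) G D) →
    (∀ k < n, G * ((P k).eta * d) + D ≤ E) → ∀ a b : ℝ, 0 ≤ b → ∀ x : EE d,
      schedVal g P n (fun z => a + b * wt z) x ≤ a + b * (G ^ n * (wt x + n * E))
  | 0, _, _, a, b, _, x => by simp [schedVal]
  | n + 1, h, hE', a, b, hb, x => by
      have hn := h n (by omega)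
      have h' : ∀ k < n, StepOK g (P k) G D := fun k hk => h k (by omega)
      have hG : 0 ≤ G := zero_le_one.trans hn.G_ge
      have h1 : ∀ z, Kop g (P n) (fun z => a + b * wt z) z ≤ a + b * E + b * G * wt z := fun z => by
        refine (hn.affine a b hb z).trans ?_
        nlinarith [mul_le_mul_of_nonneg_left (hE' n (by omega)) hb]
      refine (sched_mono n h' (hn.qb ((qb_const a).add (qb_wt.const_mul b)))
        ((qb_const (a + b * E)).add (qb_wt.const_mul (b * G))) h1 x).trans ?_
      refine (sched_affine hE n h' (fun k hk => hE' k (by omega)) (a + b * E) (b * G)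
        (mul_nonneg hb hG) x).trans ?_
      have hp : 1 ≤ G ^ (n + 1) := one_le_pow₀ hn.G_ge
      have e : b * G * (G ^ n * (wt x + n * E)) = b * (G ^ (n + 1) * (wt x + n * E)) := by
        rw [pow_succ]; ring
      have hle : E ≤ G ^ (n + 1) * E := le_mul_of_one_le_left hE hp
      rw [e]
      push_cast
      nlinarith [mul_le_mul_of_nonneg_left hle hb]

/-- Telescoping of the schedule against the exact steps. -/
theorem telescope {n : ℕ} {φ : EE d → ℝ} {E : ℝ} (hE : 0 ≤ E)
    (hok : ∀ k < n, StepOK g (P k) G D) (hE' : ∀ k < n, G * ((P k).eta * d) + D ≤ E)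
    (hU : ∀ k ≤ n, QB (tailVal g P k (n - k) φ)) (α β : ℕ → ℝ) (hβ : ∀ k < n, 0 ≤ β k)
    (hstep : ∀ k < n, ∀ x, |Kop g (P k) (tailVal g P (k + 1) (n - (k + 1)) φ) x -
      Mop g (P k).eta (P k).h (P k).N (tailVal g P (k + 1) (n - (k + 1)) φ) x| ≤
        α k + β k * wt x)
    (x : EE d) :
    |schedVal g P n φ x - tailVal g P 0 n φ x| ≤
      ∑ k ∈ Finset.range n, (α k + β k * (G ^ k * (wt x + k * E))) := by
  have key : ∀ m ≤ n, |schedVal g P m (tailVal g P m (n - m) φ) x - tailVal g P 0 n φ x| ≤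
      ∑ k ∈ Finset.range m, (α k + β k * (G ^ k * (wt x + k * E))) := by
    intro m
    induction m with
    | zero => intro _; simp [schedVal]
    | succ m ih =>
      intro hm
      have hm' := ih (by omega)
      have hT : n - m = n - (m + 1) + 1 := by omega
      set U := tailVal g P (m + 1) (n - (m + 1)) φ with hUdef
      have hUm : tailVal g P m (n - m) φ = Mop g (P m).eta (P m).h (P m).N U := by
        rw [hT]; rfl
      rw [Finset.sum_range_succ]
      rw [hUm] at hm'
      have hokm : ∀ k < m, StepOK g (P k) G D := fun k hk => hok k (by omega)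
      have hq1 : QB (Kop g (P m) U) := (hok m (by omega)).qb (hU (m + 1) hm)
      have hq2 : QB (Mop g (P m).eta (P m).h (P m).N U) := hUm ▸ hU m (by omega)
      have hb := hβ m (by omega)
      have hd : |schedVal g P m (Kop g (P m) U) x -
          schedVal g P m (Mop g (P m).eta (P m).h (P m).N U) x| ≤
            α m + β m * (G ^ m * (wt x + m * E)) := by
        have hbd := sched_affine hE m hokm (fun k hk => hE' k (by omega)) (α m) (β m) hb x
        rw [abs_le]
        constructor
        · have h1 := sched_mono m hokm (hq2.add (hq1.const_mul (-1)))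
            ((qb_const (α m)).add (qb_wt.const_mul (β m))) (fun z => by
              linarith [(abs_le.1 (hstep m (by omega) z)).1]) x
          have h2 := sched_sub m hokm hq2 hq1 x
          have h3 : (fun z => Mop g (P m).eta (P m).h (P m).N U z + -1 * Kop g (P m) U z) =
              fun z => Mop g (P m).eta (P m).h (P m).N U z - Kop g (P m) U z := by funext z; ring
          rw [h3] at h1
          linarith
        · have h1 := sched_mono m hokm (hq1.add (hq2.const_mul (-1)))
            ((qb_const (α m)).add (qb_wt.const_mul (β m))) (fun z => by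
              linarith [(abs_le.1 (hstep m (by omega) z)).2]) x
          have h2 := sched_sub m hokm hq1 hq2 x
          have h3 : (fun z => Kop g (P m) U z + -1 * Mop g (P m).eta (P m).h (P m).N U z) =
              fun z => Kop g (P m) U z - Mop g (P m).eta (P m).h (P m).N U z := by funext z; ring
          rw [h3] at h1
          linarith
      have habs := abs_sub_le (schedVal g P (m + 1) U x)
        (schedVal g P m (Mop g (P m).eta (P m).h (P m).N U) x) (tailVal g P 0 n φ x)
      have hs : schedVal g P (m + 1) U = schedVal g P m (Kop g (P m) U) := rfl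
      rw [hs] at habs ⊢
      linarith
  simpa [tailVal] using key n le_rfl

end Sched

lemma step_alg {η δ e ρ ex b a w R t r dd sd : ℝ} (hη : 0 ≤ η) (hη1 : η ≤ 1 / 16) (hδ : 0 ≤ δ)
    (hδ1 : δ ≤ 1) (he : η + δ ≤ e) (hρ : 0 ≤ ρ) (hex : 0 ≤ ex) (hb : 0 ≤ b) (ha : 0 ≤ a)
    (hw : 1 ≤ w) (hR0 : 0 ≤ R) (hR : R ≤ 2 * η * sd + 2 * ρ * w)
    (hR2 : R ^ 2 ≤ 8 * η ^ 2 * dd + 8 * ρ * w) (ht0 : 0 ≤ t) (ht : t ≤ 3 * (dd + 1) * ex * w)
    (hr0 : 0 ≤ r) (hr1 : r ≤ 1) (hrr : r * r = η) (hdd : 0 ≤ dd) (hsd : 0 ≤ sd) :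
    r * b * (r * (η + δ) * R + t) + η * a * ((η + δ) * R + η ^ 2 * R ^ 2 + t) ≤
      8 * (b * (η ^ 2 * sd * e) + η * a * (η * sd * e + η ^ 4 * dd)) +
        20 * (a + b) * (dd + 1) * (ρ + ex) * w := by
  set τ := (ρ + ex) * ((dd + 1) * w) with hτ
  have hdw : 1 ≤ (dd + 1) * w := by nlinarith
  have hρτ : ρ * w ≤ τ :=
    mul_le_mul (by linarith) (by nlinarith) (by linarith) (by linarith)
  have hexτ : ex * ((dd + 1) * w) ≤ τ := mul_le_mul_of_nonneg_right (by linarith) (by linarith)
  have hτ0 : 0 ≤ τ := mul_nonneg (by linarith) (by linarith)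
  have he0 : 0 ≤ e := by linarith
  have hρw : 0 ≤ ρ * w := mul_nonneg hρ (by linarith)
  have hη2 : η ^ 2 ≤ 1 := pow_le_one₀ hη (by linarith)
  have p1 : (η + δ) * R ≤ 2 * η * sd * e + 4 * τ := by
    calc (η + δ) * R ≤ (η + δ) * (2 * η * sd + 2 * ρ * w) :=
          mul_le_mul_of_nonneg_left hR (by linarith)
      _ = (η + δ) * (2 * η * sd) + (η + δ) * (2 * (ρ * w)) := by ring
      _ ≤ e * (2 * η * sd) + 2 * (2 * τ) :=
          add_le_add (mul_le_mul_of_nonneg_right he (by positivity))
            (mul_le_mul (by linarith) (by linarith) (by linarith) (by norm_num))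
      _ = _ := by ring
  have p2 : η ^ 2 * R ^ 2 ≤ 8 * η ^ 4 * dd + 8 * τ := by
    calc η ^ 2 * R ^ 2 ≤ η ^ 2 * (8 * η ^ 2 * dd + 8 * ρ * w) :=
          mul_le_mul_of_nonneg_left hR2 (sq_nonneg η)
      _ = 8 * η ^ 4 * dd + η ^ 2 * (8 * (ρ * w)) := by ring
      _ ≤ _ := by
          linarith [(mul_le_of_le_one_left (by linarith : (0:ℝ) ≤ 8 * (ρ * w)) hη2)]
  have p3 : t ≤ 3 * τ := by nlinarith
  have q1 : r * b * (r * (η + δ) * R + t) ≤ b * (2 * η ^ 2 * sd * e + 7 * τ) := by
    have e1 : r * b * (r * (η + δ) * R + t) = b * (η * ((η + δ) * R) + r * t) := by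
      rw [← hrr]; ring
    rw [e1]
    refine mul_le_mul_of_nonneg_left ?_ hb
    have h1 := mul_le_mul_of_nonneg_left p1 hη
    have h2 : η * (4 * τ) ≤ 4 * τ := mul_le_of_le_one_left (by linarith) (by linarith)
    have h3 : r * t ≤ t := mul_le_of_le_one_left ht0 hr1
    linarith [h1, h2, h3, p3, mul_add η (2 * η * sd * e) (4 * τ),
      show η * (2 * η * sd * e) = 2 * η ^ 2 * sd * e by ring]
  have q2 : η * a * ((η + δ) * R + η ^ 2 * R ^ 2 + t) ≤
      η * a * (2 * η * sd * e + 8 * η ^ 4 * dd) + a * (15 * τ) := by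
    refine (mul_le_mul_of_nonneg_left
      (show (η + δ) * R + η ^ 2 * R ^ 2 + t ≤ (2 * η * sd * e + 8 * η ^ 4 * dd) + 15 * τ by
        linarith) (mul_nonneg hη ha)).trans ?_
    rw [mul_add]
    gcongr
    exact mul_le_of_le_one_left ha (by linarith)
  have x1 : 0 ≤ b * (η ^ 2 * sd * e) := by positivity
  have x2 : 0 ≤ η * a * (η * sd * e) := by positivity
  have x3 : 0 ≤ a * τ := mul_nonneg ha hτ0
  have x4 : 0 ≤ b * τ := mul_nonneg hb hτ0
  have e2 : 20 * (a + b) * (dd + 1) * (ρ + ex) * w = 20 * (a * τ) + 20 * (b * τ) := by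
    rw [hτ]; ring
  linarith [q1, q2, mul_add b (2 * η ^ 2 * sd * e) (7 * τ),
    show b * (2 * η ^ 2 * sd * e) = 2 * (b * (η ^ 2 * sd * e)) by ring,
    show b * (7 * τ) = 7 * (b * τ) by ring, show a * (15 * τ) = 15 * (a * τ) by ring,
    show η * a * (2 * η * sd * e + 8 * η ^ 4 * dd) =
      2 * (η * a * (η * sd * e)) + 8 * (η * a * (η ^ 4 * dd)) by ring,
    mul_add (η * a) (η * sd * e) (η ^ 4 * dd)]

/-- The error of one step against a test function, in summable form. -/
theorem step_bound :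
    ∃ C : ℝ, 1 ≤ C ∧ ∀ (d : ℕ) (g : EE d → EE d) (P : Params) (Cw δ e : ℝ),
      GradClass g → P.Good d Cw δ → 0 ≤ δ → δ ≤ 1 → P.eta + δ ≤ e → 1 ≤ P.n →
      ∀ (φ : EE d → ℝ) (Ψ : EE d → EE d) (b a : ℝ), Test φ Ψ b a → (∀ x, |φ x| ≤ 1) →
      Continuous (Rop g P.eta P.h P.N φ) → (∀ y, |Rop g P.eta P.h P.N φ y| ≤ 1) →
      ∀ x : EE d,
        |Kop g P φ x - Mop g P.eta P.h P.N φ x| ≤
          C * (1 + Cw) ^ 2 *
              (b * (P.eta ^ 2 * Real.sqrt d * e) +
                P.eta * a * (P.eta * Real.sqrt d * e + P.eta ^ 4 * d)) +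
            C * (1 + Cw) ^ 2 * (a + b) * (d + 1) ^ 2 *
              ((2 * P.eta) ^ P.n + Real.exp (-(P.h * P.N) / 4)) * wt x := by
  obtain ⟨C₁, hC₁, h1⟩ := one_step
  refine ⟨40 * C₁ + 1, by linarith, ?_⟩
  intro d g P Cw δ e hg hP hδ hδ1 he hn φ Ψ b a hT hφ hRc hRb x
  have hη := hP.eta_pos
  have hη1 : P.eta ≤ 1 / 16 := hP.eta_le
  have hb : 0 ≤ b := (norm_nonneg _).trans (hT.bound 0)
  have ha : 0 ≤ a := (Real.sqrt_nonneg _).trans (hT.hess 0)
  have hCw : 0 ≤ Cw := (Finset.sum_nonneg fun j _ => abs_nonneg _).trans hP.w_abs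
  set ρ := (2 * P.eta) ^ P.n with hρ
  have hρ0 : 0 ≤ ρ := by positivity
  have hρ1 : ρ ≤ 1 := pow_le_one₀ (by positivity) (by linarith)
  set ex := Real.exp (-(P.h * P.N) / 4) with hex
  have hex0 : 0 ≤ ex := (Real.exp_pos _).le
  set τ := ρ + ex with hτ
  have hd0 : (0 : ℝ) ≤ d := d.cast_nonneg
  have hsd : Real.sqrt d ≤ d + 1 := by
    rw [Real.sqrt_le_iff]; exact ⟨by positivity, by nlinarith⟩
  set K := C₁ * (1 + Cw) ^ 2 with hK
  have hK0 : 0 ≤ K := by positivity
  set A := b * (P.eta ^ 2 * Real.sqrt d * e) +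
    P.eta * a * (P.eta * Real.sqrt d * e + P.eta ^ 4 * d) with hA
  have he0 : 0 ≤ e := le_trans (by linarith) he
  have hA0 : 0 ≤ A := by positivity
  have hy : ∀ y : EE d, |(∫ ω, φ (kern g P y ω) ∂kgam d P.N) - Rop g P.eta P.h P.N φ y| ≤
      K * (8 * A + 20 * (a + b) * (d + 1) * τ * wt y) := by
    intro y
    refine (h1 d g P Cw δ hg hP hδ hn φ Ψ b a hT hφ y).trans
      (mul_le_mul_of_nonneg_left ?_ hK0)
    have hsη : Real.sqrt P.eta ≤ 1 := Real.sqrt_le_one.2 (by linarith)
    have hsq : Real.sqrt P.eta * Real.sqrt P.eta = P.eta := Real.mul_self_sqrt hη.le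
    have hw := one_le_wt y
    have hny := norm_le_wt y
    have hR0' : 0 ≤ R0 P y := by unfold R0; positivity
    have hR : R0 P y ≤ 2 * P.eta * Real.sqrt d + 2 * ρ * wt y := by
      unfold R0
      rw [← hρ]
      have : ρ * (2 * Real.sqrt P.eta * ‖y‖) ≤ ρ * (2 * 1 * wt y) := by gcongr
      linarith
    have hR2 : R0 P y ^ 2 ≤ 8 * P.eta ^ 2 * d + 8 * ρ * wt y := by
      have hs : Real.sqrt d ^ 2 = d := Real.sq_sqrt hd0
      have h0 : R0 P y ≤ 2 * P.eta * Real.sqrt d + 2 * ρ * ‖y‖ := by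
        unfold R0
        rw [← hρ]
        have : ρ * (2 * Real.sqrt P.eta * ‖y‖) ≤ ρ * (2 * 1 * ‖y‖) := by gcongr
        linarith
      calc R0 P y ^ 2 ≤ (2 * P.eta * Real.sqrt d + 2 * ρ * ‖y‖) ^ 2 :=
            pow_le_pow_left₀ hR0' h0 2
        _ ≤ 2 * (2 * P.eta * Real.sqrt d) ^ 2 + 2 * (2 * ρ * ‖y‖) ^ 2 := add_sq_le.trans (by ring_nf; rfl)
        _ ≤ _ := by
            have e1 : (2 * P.eta * Real.sqrt d) ^ 2 = 4 * P.eta ^ 2 * d := by rw [mul_pow, hs]; ring
            have e2 : (2 * ρ * ‖y‖) ^ 2 ≤ 4 * ρ * wt y := by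
              unfold wt
              have : ρ ^ 2 ≤ ρ := by nlinarith
              nlinarith [mul_le_mul_of_nonneg_right this (sq_nonneg ‖y‖)]
            rw [e1]; linarith
    have ht : tail0 P y ≤ 3 * (d + 1) * ex * wt y := by
      unfold tail0
      rw [← hex, mul_comm (3 * ((d : ℝ) + 1)) ex, mul_assoc]
      refine mul_le_mul_of_nonneg_left ?_ hex0
      nlinarith
    have ht0 : 0 ≤ tail0 P y := by unfold tail0; positivity
    exact step_alg hη.le hη1 hδ hδ1 he hρ0 hex0 hb ha hw hR0' hR hR2 ht0 ht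
      (Real.sqrt_nonneg _) hsη hsq hd0 (Real.sqrt_nonneg _)
  have hsm := (integral_wt_shift hη.le x)
  have hRint : Integrable (fun ξ => Rop g P.eta P.h P.N φ (x + Real.sqrt P.eta • ξ)) (gam d) :=
    (memLp_top_of_bound (hRc.comp (by fun_prop)).aestronglyMeasurable 1
      (Eventually.of_forall fun ξ => hRb _)).integrable le_top
  have hcφ : Continuous φ := by
    rw [continuous_iff_continuousAt]; exact fun z => (hT.grad z).continuousAt
  have hkb : ∀ y, |∫ ω, φ (kern g P y ω) ∂kgam d P.N| ≤ 1 := fun y => by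
    simpa using norm_integral_le_of_norm_le_const (μ := kgam d P.N) (C := 1)
      (f := fun ω => φ (kern g P y ω))
      (Eventually.of_forall fun ω => by rw [Real.norm_eq_abs]; exact hφ _)
  have hkc : StronglyMeasurable fun y => ∫ ω, φ (kern g P y ω) ∂kgam d P.N :=
    StronglyMeasurable.integral_prod_right'
      (f := fun p : EE d × KRand d P.N => φ (kern g P p.1 p.2))
      ((hcφ.comp (continuous_kern hg.smooth.continuous P)).stronglyMeasurable)
  have hKint : Integrable
      (fun ξ => ∫ ω, φ (kern g P (x + Real.sqrt P.eta • ξ) ω) ∂kgam d P.N) (gam d) :=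
    (memLp_top_of_bound (hkc.comp_measurable (by fun_prop)).aestronglyMeasurable 1
      (Eventually.of_forall fun ξ => hkb _)).integrable le_top
  unfold Kop Mop Gs
  rw [← integral_sub hKint hRint]
  refine abs_integral_le_integral_abs.trans ?_
  set B := 20 * (a + b) * ((d : ℝ) + 1) * τ with hB
  have hB0 : 0 ≤ B := by positivity
  calc _ ≤ ∫ ξ, K * (8 * A + B * wt (x + Real.sqrt P.eta • ξ)) ∂gam d :=
        integral_mono (hKint.sub hRint).abs
          (((integrable_const (8 * A)).fun_add (hsm.1.const_mul B)).const_mul K) fun ξ => hy _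
    _ = K * (8 * A + B * (wt x + P.eta * d)) := by
        rw [integral_const_mul, integral_add (integrable_const _) (hsm.1.const_mul B)]
        simp [integral_const_mul, hsm.2]
    _ ≤ K * (8 * A + B * ((2 * d + 2) * wt x)) := by
        gcongr
        nlinarith [one_le_wt x]
    _ ≤ _ := by
        have x6 : 0 ≤ (1 + Cw) ^ 2 * A := mul_nonneg (sq_nonneg _) hA0
        have x5 : 0 ≤ (1 + Cw) ^ 2 * ((a + b) * ((d : ℝ) + 1) ^ 2 * τ * wt x) := by
          have := one_le_wt x
          positivity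
        have x7 : K * (8 * A + B * ((2 * (d : ℝ) + 2) * wt x)) =
            8 * C₁ * ((1 + Cw) ^ 2 * A) +
              40 * C₁ * ((1 + Cw) ^ 2 * ((a + b) * ((d : ℝ) + 1) ^ 2 * τ * wt x)) := by
          rw [hK, hB]; ring
        rw [x7]
        calc _ ≤ (40 * C₁ + 1) * ((1 + Cw) ^ 2 * A) +
              (40 * C₁ + 1) * ((1 + Cw) ^ 2 * ((a + b) * ((d : ℝ) + 1) ^ 2 * τ * wt x)) :=
            add_le_add (mul_le_mul_of_nonneg_right (by linarith) x6)
              (mul_le_mul_of_nonneg_right (by linarith) x5)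
          _ = _ := by ring

end Vale.Agent.P347
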