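import Mathlib

/-!
Module 3a (quadrature, abstract part): a composite Lagrange rule on dyadic blocks for sequences
in a normed space with small high-order differences.
-/

open Finset Polynomial

namespace Vale.Agent.P347

variable {H : Type*} [NormedAddCommGroup H] [NormedSpace ℝ H]

/-- Forward difference of a sequence. -/
def qdlt (v : ℕ → H) : ℕ → H := fun n => v (n + 1) - v n

/-- Truncated Newton series at the origin. -/
def qnewt (p : ℕ) (v : ℕ → H) (n : ℕ) : H :=
  ∑ i ∈ range p, (n.choose i : ℝ) • (qdlt^[i] v 0)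

omit [NormedSpace ℝ H] in
lemma qdlt_shift (v : ℕ → H) (u p : ℕ) (k : ℕ) :
    qdlt^[p] (fun n => v (u + n)) k = qdlt^[p] v (u + k) := by
  induction p generalizing k with
  | zero => rfl
  | succ p ih =>
    rw [Function.iterate_succ_apply', Function.iterate_succ_apply']
    simp only [qdlt]
    rw [ih, ih, ← add_assoc]

lemma qnewt_bound (p : ℕ) : ∀ (v : ℕ → H) (n : ℕ) (D : ℝ), 0 ≤ D →
    (∀ j ≤ n, ‖qdlt^[p] v j‖ ≤ D) → ‖v n - qnewt p v n‖ ≤ (n : ℝ) ^ p * D := by
  induction p with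
  | zero =>
    intro v n D _ h
    simpa [qnewt] using h n le_rfl
  | succ p ih =>
    intro v n D hD h
    induction n with
    | zero =>
      have : qnewt (p + 1) v 0 = v 0 := by
        simp [qnewt, Finset.sum_range_succ']
      simp [this]
    | succ n ihn =>
      have h1 := ihn (fun j hj => h j (by omega))
      have h2 := ih (qdlt v) n D hD (fun j hj => by
        rw [← Function.iterate_succ_apply]; exact h j (by omega))
      have e : qnewt (p + 1) v (n + 1) = qnewt (p + 1) v n + qnewt p (qdlt v) n := by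
        simp only [qnewt, Finset.sum_range_succ', Nat.choose_succ_succ, Nat.cast_add, add_smul,
          Finset.sum_add_distrib, Function.iterate_succ_apply, Nat.choose_zero_right]
        abel
      have e2 : v (n + 1) - qnewt (p + 1) v (n + 1)
          = (v n - qnewt (p + 1) v n) + (qdlt v n - qnewt p (qdlt v) n) := by
        rw [e, qdlt]; abel
      rw [e2]
      refine le_trans (norm_add_le _ _) ?_
      have h3 : (n : ℝ) ^ (p + 1) + (n : ℝ) ^ p ≤ ((n + 1 : ℕ) : ℝ) ^ (p + 1) := by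
        have h5 : (n : ℝ) ^ p ≤ ((n + 1 : ℕ) : ℝ) ^ p :=
          pow_le_pow_left₀ (Nat.cast_nonneg n) (by push_cast; linarith) p
        calc (n : ℝ) ^ (p + 1) + (n : ℝ) ^ p = (n : ℝ) ^ p * ((n : ℝ) + 1) := by ring
          _ ≤ ((n + 1 : ℕ) : ℝ) ^ p * ((n : ℝ) + 1) :=
            mul_le_mul_of_nonneg_right h5 (by positivity)
          _ = ((n + 1 : ℕ) : ℝ) ^ (p + 1) := by push_cast; ring
      calc _ ≤ (n : ℝ) ^ (p + 1) * D + (n : ℝ) ^ p * D := add_le_add h1 h2
        _ = ((n : ℝ) ^ (p + 1) + (n : ℝ) ^ p) * D := by ring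
        _ ≤ _ := mul_le_mul_of_nonneg_right h3 hD

/-- Lagrange coefficient for the nodes 0, r, ..., (p-1)r, evaluated at k. -/
noncomputable def qlag (p r j k : ℕ) : ℝ :=
  (Lagrange.basis (range p) (fun m : ℕ => ((m * r : ℕ) : ℝ)) j).eval (k : ℝ)

lemma qlag_repro {p r : ℕ} (hr : 1 ≤ r) {i : ℕ} (hi : i < p) (k : ℕ) :
    ∑ j ∈ range p, ((j * r).choose i : ℝ) * qlag p r j k = (k.choose i : ℝ) := by
  set f : ℝ[X] := Polynomial.C ((i.factorial : ℝ)⁻¹) * descPochhammer ℝ i with hf
  have hev : ∀ n : ℕ, f.eval (n : ℝ) = (n.choose i : ℝ) := by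
    intro n
    rw [hf, eval_mul, eval_C, Nat.cast_choose_eq_descPochhammer_div]
    ring
  have hinj : Set.InjOn (fun m : ℕ => ((m * r : ℕ) : ℝ)) ↑(range p) := by
    intro a _ b _ hab
    simp only at hab
    exact Nat.eq_of_mul_eq_mul_right hr (by exact_mod_cast hab)
  have hdeg : f.degree < #(range p) := by
    rw [card_range]
    refine lt_of_le_of_lt (degree_le_natDegree) ?_
    refine Nat.cast_lt.mpr (lt_of_le_of_lt ?_ hi)
    refine le_trans (natDegree_C_mul_le _ _) ?_
    rw [descPochhammer_natDegree]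
  have h := Lagrange.eq_interpolate hinj hdeg
  calc ∑ j ∈ range p, ((j * r).choose i : ℝ) * qlag p r j k
      = (Lagrange.interpolate (range p) (fun m : ℕ => ((m * r : ℕ) : ℝ))
          fun m => f.eval ((m * r : ℕ) : ℝ)).eval (k : ℝ) := by
        rw [Lagrange.interpolate_apply, eval_finsetSum]
        refine Finset.sum_congr rfl fun j _ => ?_
        rw [eval_mul, eval_C, hev, qlag]
    _ = f.eval (k : ℝ) := by rw [← h]
    _ = _ := hev k

lemma qlag_bound {p r : ℕ} (hr : 1 ≤ r) {j k : ℕ} (hj : j < p) (hk : k ≤ p * r) :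
    |qlag p r j k| ≤ (p : ℝ) ^ p := by
  have hp : (1 : ℝ) ≤ p := by exact_mod_cast (show 1 ≤ p by omega)
  have hr' : (1 : ℝ) ≤ r := by exact_mod_cast hr
  rw [qlag, Lagrange.basis, eval_prod, Finset.abs_prod]
  refine le_trans (Finset.prod_le_prod (g := fun _ => (p : ℝ)) (fun _ _ => abs_nonneg _) ?_) ?_
  · intro m hm
    obtain ⟨hne, hm'⟩ := Finset.mem_erase.mp hm
    have hmp := Finset.mem_range.mp hm'
    simp only [Lagrange.basisDivisor, eval_mul, eval_C, eval_sub, eval_X]
    rw [abs_mul, abs_inv]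
    have hk' : (k : ℝ) ≤ p * r := by exact_mod_cast hk
    have hm2 : ((m * r : ℕ) : ℝ) ≤ p * r := by exact_mod_cast Nat.mul_le_mul_right r hmp.le
    have hnum : |(k : ℝ) - ((m * r : ℕ) : ℝ)| ≤ p * r := by
      rw [abs_le]
      constructor <;> [linarith [Nat.cast_nonneg (α := ℝ) k]; linarith [Nat.cast_nonneg (α := ℝ) (m * r)]]
    have hd : (1 : ℝ) ≤ |(j : ℝ) - m| := by
      rcases Nat.lt_or_gt_of_ne hne with h | h
      · have : (m : ℝ) + 1 ≤ j := by exact_mod_cast h
        rw [abs_of_nonneg (by linarith)]; linarith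
      · have : (j : ℝ) + 1 ≤ m := by exact_mod_cast h
        rw [abs_of_nonpos (by linarith)]; linarith
    have hden : (r : ℝ) ≤ |((j * r : ℕ) : ℝ) - ((m * r : ℕ) : ℝ)| := by
      push_cast
      rw [← sub_mul, abs_mul, abs_of_nonneg (by linarith : (0:ℝ) ≤ r)]
      exact le_mul_of_one_le_left (by linarith) hd
    rw [← div_eq_inv_mul, div_le_iff₀ (by linarith)]
    calc |(k : ℝ) - ((m * r : ℕ) : ℝ)| ≤ p * r := hnum
      _ ≤ p * |((j * r : ℕ) : ℝ) - ((m * r : ℕ) : ℝ)| := by gcongr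
  · rw [Finset.prod_const]
    refine pow_le_pow_right₀ hp ?_
    calc ((range p).erase j).card ≤ (range p).card := card_erase_le
      _ = p := card_range p

lemma qpiece {p r : ℕ} (hr : 1 ≤ r) (v : ℕ → H) (c : ℕ → ℝ) (hc : ∀ k, 0 ≤ c k) (D : ℝ)
    (hD : 0 ≤ D) (hd : ∀ j ≤ p * r, ‖qdlt^[p] v j‖ ≤ D) :
    ‖(∑ k ∈ range (p * r), c k • v k) -
        ∑ j ∈ range p, (∑ k ∈ range (p * r), c k * qlag p r j k) • v (j * r)‖ ≤
      (∑ k ∈ range (p * r), c k) * ((1 + (p : ℝ) * (p : ℝ) ^ p) * (((p * r : ℕ) : ℝ) ^ p * D)) := by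
  set E := ((p * r : ℕ) : ℝ) ^ p * D with hE
  have hrem : ∀ n ≤ p * r, ‖v n - qnewt p v n‖ ≤ E := fun n hn =>
    (qnewt_bound p v n D hD fun j hj => hd j (le_trans hj hn)).trans
      (mul_le_mul_of_nonneg_right (pow_le_pow_left₀ (Nat.cast_nonneg n) (by exact_mod_cast hn) p) hD)
  have hrep : ∀ k, ∑ j ∈ range p, qlag p r j k • qnewt p v (j * r) = qnewt p v k := by
    intro k
    simp only [qnewt, Finset.smul_sum, smul_smul]
    rw [Finset.sum_comm]
    refine Finset.sum_congr rfl fun i hi => ?_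
    rw [← Finset.sum_smul]
    congr 1
    rw [← qlag_repro hr (Finset.mem_range.mp hi) k]
    exact Finset.sum_congr rfl fun j _ => mul_comm _ _
  have key : (∑ k ∈ range (p * r), c k • v k) -
        ∑ j ∈ range p, (∑ k ∈ range (p * r), c k * qlag p r j k) • v (j * r)
      = ∑ k ∈ range (p * r), c k • ((v k - qnewt p v k) -
          ∑ j ∈ range p, qlag p r j k • (v (j * r) - qnewt p v (j * r))) := by
    have e : ∀ k, (v k - qnewt p v k) -
          ∑ j ∈ range p, qlag p r j k • (v (j * r) - qnewt p v (j * r))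
        = v k - ∑ j ∈ range p, qlag p r j k • v (j * r) := by
      intro k
      simp only [smul_sub, Finset.sum_sub_distrib, hrep k]
      abel
    refine Eq.trans ?_ (Finset.sum_congr rfl fun k _ => by rw [e k]).symm
    simp only [smul_sub, Finset.sum_sub_distrib, Finset.smul_sum, smul_smul, Finset.sum_smul]
    congr 1
    exact Finset.sum_comm
  rw [key, Finset.sum_mul]
  refine le_trans (norm_sum_le _ _) (Finset.sum_le_sum fun k hk => ?_)
  rw [norm_smul, Real.norm_eq_abs, abs_of_nonneg (hc k)]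
  refine mul_le_mul_of_nonneg_left ?_ (hc k)
  have hk' := (Finset.mem_range.mp hk).le
  calc _ ≤ ‖v k - qnewt p v k‖ + ∑ j ∈ range p, ‖qlag p r j k • (v (j * r) - qnewt p v (j * r))‖ :=
        le_trans (norm_sub_le _ _) (by gcongr; exact norm_sum_le _ _)
    _ ≤ E + ∑ _j ∈ range p, (p : ℝ) ^ p * E := by
        refine add_le_add (hrem k hk') (Finset.sum_le_sum fun j hj => ?_)
        rw [norm_smul, Real.norm_eq_abs]
        have hj' := Finset.mem_range.mp hj
        exact mul_le_mul (qlag_bound hr hj' hk') (hrem _ (Nat.mul_le_mul_right r hj'.le))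
          (norm_nonneg _) (by positivity)
    _ = (1 + (p : ℝ) * (p : ℝ) ^ p) * E := by
        rw [sum_const, card_range, nsmul_eq_mul]; ring

lemma qsum_mul {G : Type*} [AddCommMonoid G] (g : ℕ → G) (M l : ℕ) :
    ∑ k ∈ range (M * l), g k = ∑ m ∈ range M, ∑ k ∈ range l, g (m * l + k) := by
  induction M with
  | zero => simp
  | succ M ih => rw [Nat.succ_mul, sum_range_add, ih, sum_range_succ]

lemma qsum_dyadic {G : Type*} [AddCommMonoid G] (g : ℕ → G) (M l I : ℕ) :
    ∑ k ∈ range (2 ^ I * (M * l)), g k = (∑ k ∈ range (M * l), g k) +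
      ∑ i ∈ range I, ∑ m ∈ range M, ∑ k ∈ range (2 ^ i * l),
        g (M * (2 ^ i * l) + m * (2 ^ i * l) + k) := by
  induction I with
  | zero => simp
  | succ I ih =>
    rw [show 2 ^ (I + 1) * (M * l) = 2 ^ I * (M * l) + M * (2 ^ I * l) by ring, sum_range_add, ih,
      sum_range_succ, add_assoc, qsum_mul (fun k => g (2 ^ I * (M * l) + k)) M (2 ^ I * l)]
    congr 2
    refine Finset.sum_congr rfl fun m _ => Finset.sum_congr rfl fun k _ => ?_
    congr 1
    ring

lemma qmass (h : ℝ) (N : ℕ) : (∑ k ∈ range N, h * (1 - h) ^ k) + (1 - h) ^ N = 1 := by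
  induction N with
  | zero => simp
  | succ N ih => rw [sum_range_succ, pow_succ]; linarith

lemma qfin3 {G : Type*} [AddCommMonoid G] (I M p : ℕ) (F : ℕ → ℕ → ℕ → G) :
    ∑ i : Fin I, ∑ m : Fin M, ∑ j : Fin p, F i m j =
      ∑ i ∈ range I, ∑ m ∈ range M, ∑ j ∈ range p, F i m j := by
  rw [Finset.sum_range]
  refine Finset.sum_congr rfl fun i _ => ?_
  rw [Finset.sum_range]
  exact Finset.sum_congr rfl fun m _ => (Finset.sum_range _).symm

/-- The composite rule: nodes and weights are uniform in the sequence. -/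
theorem qrule (p : ℕ) (hp : 1 ≤ p) :
    ∃ C : ℝ, 0 < C ∧ ∀ (η : ℝ) (M I R : ℕ), 0 < η → η ≤ 1 → 1 ≤ M → 1 ≤ R →
      ∃ (q : ℕ) (node : Fin q → ℕ) (w : Fin q → ℝ),
        (q : ℝ) ≤ C * M * (I + 1) ∧ (∀ j, node j ≤ 2 ^ I * (4 * p * M * R)) ∧
        ∑ j, w j = 1 ∧ ∑ j, |w j| ≤ C ∧
        ∀ (G : Type) [NormedAddCommGroup G] [NormedSpace ℝ G] (v : ℕ → G) (A B : ℝ),
          0 ≤ A → 0 ≤ B → (∀ u, 1 ≤ u → ‖qdlt^[p] v u‖ ≤ A / (u : ℝ) ^ p) →
          (∀ l, 1 ≤ l → l ≤ 4 * p * M * R → ‖v l - v (4 * p * M * R)‖ ≤ B) →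
          ‖(∑ j, w j • v (2 ^ I * (4 * p * M * R) - node j)) -
              ((∑ l ∈ range (2 ^ I * (4 * p * M * R)),
                  (η / (4 * p * M * R : ℕ) * (1 - η / (4 * p * M * R : ℕ)) ^ l) • v (l + 1))
                + (1 - η / (4 * p * M * R : ℕ)) ^ (2 ^ I * (4 * p * M * R))
                  • v (2 ^ I * (4 * p * M * R)))‖ ≤
            C * (A * ((M : ℝ) ^ p)⁻¹ + η * B) := by
  set K : ℝ := 1 + (p : ℝ) * (p : ℝ) ^ p with hK
  have hK1 : 1 ≤ K := le_add_of_nonneg_right (by positivity)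
  refine ⟨(p : ℝ) + 2 + K, by positivity, fun η M I R hη hη1 hM hR => ?_⟩
  set n0 := 4 * p * M * R with hn0
  set N := 2 ^ I * n0 with hN
  set h : ℝ := η / (n0 : ℕ) with hh
  have hn0pos : 1 ≤ n0 := by
    have h5 : 0 < 4 * p * M * R := by positivity
    omega
  have hhn : h * (n0 : ℝ) = η := by
    rw [hh]; field_simp
  have hh0 : 0 ≤ h := by rw [hh]; positivity
  have hh1 : h ≤ 1 := by
    rw [hh]; exact (div_le_one (by positivity)).mpr (hη1.trans (by exact_mod_cast hn0pos))
  have hc : ∀ k, 0 ≤ h * (1 - h) ^ k := fun k => mul_nonneg hh0 (pow_nonneg (by linarith) k)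
  let rr : ℕ → ℕ := fun i => 2 ^ i * (4 * R)
  let base : ℕ → ℕ → ℕ := fun i m => M * (p * rr i) + m * (p * rr i)
  let wt : ℕ → ℕ → ℕ → ℝ := fun i m j =>
    ∑ k ∈ range (p * rr i), (h * (1 - h) ^ (base i m + k)) * qlag p (rr i) j k
  have hl : ∀ i, 2 ^ i * (p * (4 * R)) = p * rr i := fun i => by simp only [rr]; ring
  have hn0' : M * (p * (4 * R)) = n0 := by rw [hn0]; ring
  have hdy : ∀ {G : Type} [AddCommMonoid G] (g : ℕ → G),
      ∑ k ∈ range N, g k = (∑ k ∈ range n0, g k) +
        ∑ i ∈ range I, ∑ m ∈ range M, ∑ k ∈ range (p * rr i), g (base i m + k) := by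
    intro G _ g
    have := qsum_dyadic g M (p * (4 * R)) I
    rw [hn0', ← hN] at this
    simpa only [hl, base] using this
  let ι := Bool ⊕ (Fin I × Fin M × Fin p)
  let nd : ι → ℕ := Sum.elim (fun b => if b then N - n0 else 0)
    (fun t => N - (1 + base t.1 t.2.1 + t.2.2 * rr t.1))
  let ww : ι → ℝ := Sum.elim (fun b => if b then ∑ k ∈ range n0, h * (1 - h) ^ k else (1 - h) ^ N)
    (fun t => wt t.1 t.2.1 t.2.2)
  have hflat : ∀ {G : Type} [AddCommGroup G] (F : ι → G),
      ∑ t, F t = F (.inl true) + F (.inl false) +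
        ∑ i : Fin I, ∑ m : Fin M, ∑ j : Fin p, F (.inr (i, m, j)) := by
    intro G _ F
    rw [Fintype.sum_sum_type, Fintype.sum_bool]
    simp only [Fintype.sum_prod_type]
  have hwsum : ∀ i m, ∑ j ∈ range p, wt i m j = ∑ k ∈ range (p * rr i), h * (1 - h) ^ (base i m + k) := by
    intro i m
    simp only [wt]
    rw [Finset.sum_comm]
    refine Finset.sum_congr rfl fun k _ => ?_
    rw [← Finset.mul_sum]
    have hr : 1 ≤ rr i := Nat.one_le_iff_ne_zero.mpr (by positivity)
    have h1 := qlag_repro hr (i := 0) (p := p) hp k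
    simp only [Nat.choose_zero_right, Nat.cast_one, one_mul] at h1
    rw [h1, mul_one]
  have hwabs : ∀ i m, ∑ j ∈ range p, |wt i m j| ≤
      K * ∑ k ∈ range (p * rr i), h * (1 - h) ^ (base i m + k) := by
    intro i m
    have hr : 1 ≤ rr i := Nat.one_le_iff_ne_zero.mpr (by positivity)
    set S := ∑ k ∈ range (p * rr i), h * (1 - h) ^ (base i m + k) with hS
    have hS0 : 0 ≤ S := Finset.sum_nonneg fun k _ => hc _
    calc ∑ j ∈ range p, |wt i m j| ≤ ∑ _j ∈ range p, (p : ℝ) ^ p * S := by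
          refine Finset.sum_le_sum fun j hj => ?_
          rw [hS, Finset.mul_sum]
          refine le_trans (Finset.abs_sum_le_sum_abs _ _) (Finset.sum_le_sum fun k hk => ?_)
          rw [abs_mul, abs_of_nonneg (hc _), mul_comm]
          exact mul_le_mul_of_nonneg_right
            (qlag_bound hr (Finset.mem_range.mp hj) (Finset.mem_range.mp hk).le) (hc _)
      _ = (p : ℝ) * (p : ℝ) ^ p * S := by rw [sum_const, card_range, nsmul_eq_mul]; ring
      _ ≤ K * S := mul_le_mul_of_nonneg_right (by rw [hK]; linarith) hS0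
  have hmass : (∑ k ∈ range n0, h * (1 - h) ^ k) + (1 - h) ^ N +
      ∑ i ∈ range I, ∑ m ∈ range M, ∑ k ∈ range (p * rr i), h * (1 - h) ^ (base i m + k) = 1 := by
    have h5 := qmass h N
    rw [hdy] at h5
    linarith
  have hW0 : (0 : ℝ) ≤ ∑ k ∈ range n0, h * (1 - h) ^ k := Finset.sum_nonneg fun k _ => hc k
  have hWN : (0 : ℝ) ≤ (1 - h) ^ N := pow_nonneg (by linarith) N
  have hblk : (0 : ℝ) ≤
      ∑ i ∈ range I, ∑ m ∈ range M, ∑ k ∈ range (p * rr i), h * (1 - h) ^ (base i m + k) :=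
    Finset.sum_nonneg fun i _ => Finset.sum_nonneg fun m _ => Finset.sum_nonneg fun k _ => hc _
  let e := (Fintype.equivFin ι).symm
  refine ⟨Fintype.card ι, fun j => nd (e j), fun j => ww (e j), ?_, ?_, ?_, ?_, ?_⟩
  · simp only [ι, Fintype.card_sum, Fintype.card_bool, Fintype.card_prod, Fintype.card_fin]
    push_cast
    have h1 : (1 : ℝ) ≤ M := by exact_mod_cast hM
    have h2 : (1 : ℝ) ≤ (M : ℝ) * ((I : ℝ) + 1) :=
      one_le_mul_of_one_le_of_one_le h1 (le_add_of_nonneg_left (Nat.cast_nonneg I))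
    nlinarith [mul_nonneg (le_trans zero_le_one hK1) (le_trans zero_le_one h2),
      mul_nonneg (Nat.cast_nonneg (α := ℝ) p) (Nat.cast_nonneg (α := ℝ) M),
      mul_nonneg (Nat.cast_nonneg (α := ℝ) I) (Nat.cast_nonneg (α := ℝ) M)]
  · intro j
    show nd (e j) ≤ N
    rcases e j with b | t
    · cases b <;> simp [nd]
    · exact Nat.sub_le _ _
  · rw [e.sum_comp (fun t => ww t), hflat]
    simp only [ww, Sum.elim_inl, Sum.elim_inr, if_true, Bool.false_eq_true, if_false]
    rw [qfin3 I M p wt]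
    simp only [hwsum]
    exact hmass
  · rw [e.sum_comp (fun t => |ww t|), hflat]
    simp only [ww, Sum.elim_inl, Sum.elim_inr, if_true, Bool.false_eq_true, if_false,
      abs_of_nonneg hW0, abs_of_nonneg hWN]
    have hb : ∑ i : Fin I, ∑ m : Fin M, ∑ j : Fin p, |wt i m j| ≤
        K * ∑ i ∈ range I, ∑ m ∈ range M, ∑ k ∈ range (p * rr i), h * (1 - h) ^ (base i m + k) := by
      rw [qfin3 I M p (fun i m j => |wt i m j|), Finset.mul_sum]
      refine Finset.sum_le_sum fun i _ => ?_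
      rw [Finset.mul_sum]
      exact Finset.sum_le_sum fun m _ => hwabs i m
    nlinarith [Nat.cast_nonneg (α := ℝ) p, mul_nonneg (sub_nonneg.mpr hK1) (add_nonneg hW0 hWN)]
  · intro G _ _ v A B hA hB hd hv
    rw [e.sum_comp (fun t => ww t • v (N - nd t)), hflat, hdy]
    simp only [ww, nd, Sum.elim_inl, Sum.elim_inr, if_true, Bool.false_eq_true, if_false]
    have hn0N : n0 ≤ N := by rw [hN]; exact Nat.le_mul_of_pos_left n0 (by positivity)
    rw [Nat.sub_sub_self hn0N, Nat.sub_zero]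
    have hnode : ∀ i < I, ∀ m < M, ∀ j < p, 1 + base i m + j * rr i ≤ N := by
      intro i hi m hm j hj
      have hr : 1 ≤ rr i := Nat.one_le_iff_ne_zero.mpr (by positivity)
      have h1 : (j + 1) * rr i ≤ p * rr i := Nat.mul_le_mul_right _ hj
      have h2 : (m + 1) * (p * rr i) ≤ M * (p * rr i) := Nat.mul_le_mul_right _ hm
      have h3 : 2 ^ (i + 1) ≤ 2 ^ I := Nat.pow_le_pow_right (by norm_num) hi
      have h4 : 2 ^ (i + 1) * n0 ≤ N := Nat.mul_le_mul_right n0 h3
      have h5 : 2 ^ (i + 1) * n0 = M * (p * rr i) + M * (p * rr i) := by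
        rw [← hn0']; simp only [rr]; ring
      simp only [base]
      nlinarith
    have hsum : ∑ i : Fin I, ∑ m : Fin M, ∑ j : Fin p, wt i m j •
          v (N - (N - (1 + base i m + (j : ℕ) * rr i))) =
        ∑ i ∈ range I, ∑ m ∈ range M, ∑ j ∈ range p, wt i m j • v (1 + base i m + j * rr i) := by
      rw [Finset.sum_range]
      refine Finset.sum_congr rfl fun i _ => ?_
      rw [Finset.sum_range]
      refine Finset.sum_congr rfl fun m _ => ?_
      rw [Finset.sum_range]
      refine Finset.sum_congr rfl fun j _ => ?_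
      rw [Nat.sub_sub_self (hnode i i.2 m m.2 j j.2)]
    rw [hsum]
    set W0 := ∑ k ∈ range n0, h * (1 - h) ^ k with hW0d
    set T : ℕ → ℕ → G := fun i m => ∑ k ∈ range (p * rr i),
      (h * (1 - h) ^ (base i m + k)) • v (base i m + k + 1) with hT
    set P : ℕ → ℕ → G := fun i m => ∑ j ∈ range p, wt i m j • v (1 + base i m + j * rr i) with hP
    have hpiece : ∀ i m, ‖T i m - P i m‖ ≤
        (∑ k ∈ range (p * rr i), h * (1 - h) ^ (base i m + k)) * (K * (A * ((M : ℝ) ^ p)⁻¹)) := by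
      intro i m
      have hr : 1 ≤ rr i := Nat.one_le_iff_ne_zero.mpr (by positivity)
      set l : ℕ := p * rr i with hldef
      have hlpos : (0 : ℝ) < l := by
        exact_mod_cast (show 0 < l from Nat.mul_pos hp hr)
      have hMl : (0 : ℝ) < (M : ℝ) * l := mul_pos (by exact_mod_cast hM) hlpos
      have hD : ∀ j ≤ l, ‖qdlt^[p] (fun n => v (1 + base i m + n)) j‖ ≤
          A / ((M : ℝ) * l) ^ p := by
        intro j _
        rw [qdlt_shift]
        refine (hd _ (by omega)).trans ?_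
        refine div_le_div_of_nonneg_left hA (pow_pos hMl p) (pow_le_pow_left₀ hMl.le ?_ p)
        have h8 : M * l ≤ 1 + base i m + j := by simp only [base, ← hldef]; omega
        exact_mod_cast h8
      have hq := qpiece hr (fun n => v (1 + base i m + n)) (fun k => h * (1 - h) ^ (base i m + k))
        (fun k => hc _) _ (by positivity) hD
      have e1 : T i m - P i m = (∑ k ∈ range (p * rr i),
            (h * (1 - h) ^ (base i m + k)) • v (1 + base i m + k)) -
          ∑ j ∈ range p, (∑ k ∈ range (p * rr i),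
            h * (1 - h) ^ (base i m + k) * qlag p (rr i) j k) • v (1 + base i m + j * rr i) := by
        simp only [hT, hP, wt]
        congr 1
        exact Finset.sum_congr rfl fun k _ => by rw [show base i m + k + 1 = 1 + base i m + k by omega]
      rw [e1]
      refine hq.trans (le_of_eq ?_)
      have h9 : ((l : ℝ)) ^ p * (A / ((M : ℝ) * l) ^ p) = A * ((M : ℝ) ^ p)⁻¹ := by
        rw [mul_pow]; field_simp
      rw [← hldef, h9]
    have hinit : ‖(∑ k ∈ range n0, (h * (1 - h) ^ k) • v (k + 1)) - W0 • v n0‖ ≤ η * B := by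
      rw [hW0d, Finset.sum_smul, ← Finset.sum_sub_distrib]
      refine le_trans (norm_sum_le _ _) ?_
      calc _ ≤ ∑ _k ∈ range n0, h * B := by
            refine Finset.sum_le_sum fun k hk => ?_
            rw [← smul_sub, norm_smul, Real.norm_eq_abs, abs_of_nonneg (hc k)]
            refine mul_le_mul ?_ (hv (k + 1) (by omega) (Finset.mem_range.mp hk)) (norm_nonneg _) hh0
            exact mul_le_of_le_one_right hh0 (pow_le_one₀ (by linarith) (by linarith))
        _ = η * B := by rw [sum_const, card_range, nsmul_eq_mul, ← hhn]; ring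
    have halg : W0 • v n0 + (1 - h) ^ N • v N + ∑ i ∈ range I, ∑ m ∈ range M, P i m -
        ((∑ k ∈ range n0, (h * (1 - h) ^ k) • v (k + 1)) + ∑ i ∈ range I, ∑ m ∈ range M, T i m +
          (1 - h) ^ N • v N) =
        - (((∑ k ∈ range n0, (h * (1 - h) ^ k) • v (k + 1)) - W0 • v n0) +
          ∑ i ∈ range I, ∑ m ∈ range M, (T i m - P i m)) := by
      simp only [Finset.sum_sub_distrib]; abel
    refine le_trans (le_of_eq (congrArg norm halg)) ?_
    rw [norm_neg]
    refine le_trans (norm_add_le _ _) ?_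
    have hAM : 0 ≤ A * ((M : ℝ) ^ p)⁻¹ := by positivity
    have hsecond : ‖∑ i ∈ range I, ∑ m ∈ range M, (T i m - P i m)‖ ≤ K * (A * ((M : ℝ) ^ p)⁻¹) := by
      calc _ ≤ ∑ i ∈ range I, ∑ m ∈ range M,
            (∑ k ∈ range (p * rr i), h * (1 - h) ^ (base i m + k)) * (K * (A * ((M : ℝ) ^ p)⁻¹)) :=
            le_trans (norm_sum_le _ _) (Finset.sum_le_sum fun i _ =>
              le_trans (norm_sum_le _ _) (Finset.sum_le_sum fun m _ => hpiece i m))
        _ = (∑ i ∈ range I, ∑ m ∈ range M, ∑ k ∈ range (p * rr i), h * (1 - h) ^ (base i m + k)) *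
            (K * (A * ((M : ℝ) ^ p)⁻¹)) := by simp only [Finset.sum_mul]
        _ ≤ 1 * (K * (A * ((M : ℝ) ^ p)⁻¹)) :=
            mul_le_mul_of_nonneg_right (by linarith) (mul_nonneg (by linarith) hAM)
        _ = _ := one_mul _
    have hp' : (0 : ℝ) ≤ p := Nat.cast_nonneg p
    nlinarith [mul_nonneg hp' hAM, mul_nonneg hη.le hB,
      mul_nonneg (mul_nonneg hη.le hB) hp', mul_nonneg (mul_nonneg hη.le hB) (le_trans zero_le_one hK1)]

end Vale.Agent.P347
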