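import Vale.Agent.P347.MainParams

/-!
Sampling in time d^(1/4+o(1)) for potentials with Hessian between I and 2I.
-/

open Filter Vale.Agent.P347

namespace Vale.Agent.P347.QuarterBound

lemma blen_le_log {d : ℕ} (hd : 3 ≤ d) : (blen d : ℝ) ≤ 3 * Real.log d := by
  have hd0 : (0 : ℝ) < d := by exact_mod_cast lt_of_lt_of_le (by norm_num) hd
  have h2 : ((2 : ℝ) ^ blen d) ≤ 2 * d := by exact_mod_cast two_pow_blen_le (by omega : 1 ≤ d)
  have h := Real.log_le_log (by positivity) h2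
  rw [Real.log_pow, Real.log_mul two_ne_zero hd0.ne'] at h
  have hl : 1 ≤ Real.log d := by
    rw [← Real.log_exp 1]
    exact Real.log_le_log (Real.exp_pos 1)
      ((Real.exp_one_lt_three.le).trans (by exact_mod_cast hd))
  have h3 := Real.log_two_gt_d9
  have h4 := Real.log_two_lt_d9
  nlinarith

/-- Polylogarithms are absorbed by every positive power. -/
lemma polylog_le {B ε : ℝ} (hB : 0 < B) (hε : 0 < ε) :
    ∀ᶠ d : ℕ in atTop, B * (blen d : ℝ) ^ 14 ≤ (d : ℝ) ^ ε := by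
  have h := (isLittleO_log_rpow_rpow_atTop (14 : ℝ) hε).bound
    (show 0 < (B * 3 ^ 14)⁻¹ by positivity)
  filter_upwards [tendsto_natCast_atTop_atTop.eventually h, eventually_ge_atTop 3] with d hd hd3
  have h3 := blen_le_log hd3
  have hl : 0 ≤ Real.log d := Real.log_natCast_nonneg d
  rw [Real.norm_of_nonneg (Real.rpow_nonneg hl _),
    Real.norm_of_nonneg (Real.rpow_nonneg d.cast_nonneg _),
    show (14 : ℝ) = ((14 : ℕ) : ℝ) by norm_num, Real.rpow_natCast,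
    ← div_eq_inv_mul, le_div_iff₀ (by positivity)] at hd
  calc B * (blen d : ℝ) ^ 14 ≤ B * (3 * Real.log d) ^ 14 := by gcongr
    _ = Real.log d ^ 14 * (B * 3 ^ 14) := by ring
    _ ≤ _ := hd

/-- For every γ > 1/4 at most d^γ queries suffice in all large dimensions; so γ* ≤ 1/4. -/
theorem result :
    (∀ γ : ℝ, 1 / 4 < γ → ∀ᶠ d : ℕ in atTop, ∃ q : ℕ, (q : ℝ) ≤ (d : ℝ) ^ γ ∧ Samples d q) ∧
      gammaStar ≤ ((1 / 4 : ℝ) : EReal) := by
  have hmain : ∀ γ : ℝ, 1 / 4 < γ →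
      ∀ᶠ d : ℕ in atTop, ∃ q : ℕ, (q : ℝ) ≤ (d : ℝ) ^ γ ∧ Samples d q := by
    intro γ hγ
    obtain ⟨n, hn⟩ := exists_nat_gt (1 / (4 * γ - 1))
    have hp : 1 ≤ n + 1 := by omega
    obtain ⟨B, hB, hev⟩ := samples_upper (n + 1) hp
    have hε : 0 < γ - 1 / 4 * (1 + 1 / ((n + 1 : ℕ) : ℝ)) := by
      have h4 : 0 < 4 * γ - 1 := by linarith
      have h : 1 / ((n + 1 : ℕ) : ℝ) < 4 * γ - 1 := by
        rw [div_lt_iff₀ h4] at hn
        rw [div_lt_iff₀ (by positivity)]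
        push_cast
        nlinarith
      linarith
    filter_upwards [hev, polylog_le hB hε, eventually_ge_atTop 1] with d hd hpl hd1
    obtain ⟨q, hq, hqb⟩ := hd
    refine ⟨q, hqb.trans ?_, hq⟩
    calc B * (blen d : ℝ) ^ 14 * (d : ℝ) ^ (1 / 4 * (1 + 1 / ((n + 1 : ℕ) : ℝ)))
        ≤ (d : ℝ) ^ (γ - 1 / 4 * (1 + 1 / ((n + 1 : ℕ) : ℝ))) *
          (d : ℝ) ^ (1 / 4 * (1 + 1 / ((n + 1 : ℕ) : ℝ))) :=
          mul_le_mul_of_nonneg_right hpl (Real.rpow_nonneg d.cast_nonneg _)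
      _ = _ := by rw [← Real.rpow_add (by exact_mod_cast hd1), sub_add_cancel]
  refine ⟨hmain, le_of_forall_gt_imp_ge_of_dense fun x hx => ?_⟩
  obtain ⟨γ, hγ, hγx⟩ := EReal.lt_iff_exists_real_btwn.1 hx
  refine le_trans ?_ hγx.le
  have hγ' : 1 / 4 < γ := EReal.coe_lt_coe_iff.1 hγ
  refine limsup_le_of_le (by isBoundedDefault) ?_
  filter_upwards [hmain γ hγ', eventually_ge_atTop 2] with d hd hd2
  obtain ⟨q, hqb, hq⟩ := hd
  rw [EReal.coe_le_coe_iff]
  have hd1 : (1 : ℝ) < d := by exact_mod_cast hd2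
  have hlog : 0 < Real.log d := Real.log_pos hd1
  rw [div_le_iff₀ hlog]
  rcases Nat.eq_zero_or_pos (queryCount d) with h0 | h0
  · rw [h0, Nat.cast_zero, Real.log_zero]
    nlinarith
  · have hle : (queryCount d : ℝ) ≤ (d : ℝ) ^ γ :=
      le_trans (by exact_mod_cast Nat.sInf_le (show q ∈ {q | Samples d q} from hq)) hqb
    exact (Real.log_le_log (by exact_mod_cast h0) hle).trans_eq
      (Real.log_rpow (by linarith) γ)

end Vale.Agent.P347.QuarterBound
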